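import Crest.Agent.R75.Kernel

set_option autoImplicit false

namespace Crest.Agent.R75

open Real Complex Set MeasureTheory Filter Topology
open scoped ComplexConjugate

lemma piece {G T : ℝ → ℝ} {C Θ : ℝ} (dG : ∀ x, HasDerivAt G (T x) x)
    (lipT : ∀ x ∈ Icc (0 : ℝ) 1, ∀ y ∈ Icc (0 : ℝ) 1, |T y - T x| ≤ C * |y - x|)
    (rT : ∀ x ∈ Icc (0 : ℝ) 1, 0 ≤ T x ∧ T x ≤ Θ) {p l t τ N lo hi : ℝ} (hl : l ≠ 0) (hτ : 0 < τ)
    (hN : 0 < N) (hlo : lo ≤ N * t) (hhi : N * (t + τ * Θ) ≤ hi) :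
    ∃ (ψ : ℝ → ℝ) (α : ℝ), Adm ψ (τ * C / |l| * N) lo hi ∧ ∀ k,
      osc ψ (p - |l| / 2) (p + |l| / 2) k =
        ee (-α) * (|l| : ℝ) * ee (-(k * p) + k * l / 2) * oscI G (N * τ * l) ((k / N - t) / τ) := by
  have hl0 : 0 < |l| := abs_pos.mpr hl
  have hC : 0 ≤ C := by
    have := (abs_nonneg _).trans (lipT 0 ⟨le_rfl, zero_le_one⟩ 1 ⟨zero_le_one, le_rfl⟩)
    simpa using this
  set u : ℝ → ℝ := fun θ => (θ - p) / l + 1 / 2 with hu
  have hu01 : ∀ θ ∈ Icc (p - |l| / 2) (p + |l| / 2), u θ ∈ Icc (0 : ℝ) 1 := by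
    intro θ hθ
    have : |(θ - p) / l| ≤ 1 / 2 := by
      rw [abs_div, div_le_iff₀ hl0, abs_le]; constructor <;> linarith [hθ.1, hθ.2]
    rw [abs_le] at this
    simp only [hu]
    constructor <;> linarith [this.1, this.2]
  obtain ⟨ψ, H, hE⟩ := adm_clamp (φ := fun θ => N * (t + τ * T (u θ))) (a := p - |l| / 2)
    (b := p + |l| / 2) (C := τ * C / |l| * N) (lo := lo) (hi := hi) (by linarith) (by positivity)
    (by
      intro x hx y hy
      have e1 : N * (t + τ * T (u y)) - N * (t + τ * T (u x)) = N * τ * (T (u y) - T (u x)) := by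
        ring
      have e2 : u y - u x = (y - x) / l := by simp only [hu]; ring
      have := lipT _ (hu01 x hx) _ (hu01 y hy)
      rw [e2, abs_div] at this
      rw [e1, abs_mul, abs_of_pos (by positivity : 0 < N * τ)]
      calc _ ≤ N * τ * (C * (|y - x| / |l|)) := by gcongr
        _ = _ := by ring)
    (by
      intro x hx
      obtain ⟨h1, h2⟩ := rT _ (hu01 x hx)
      have h3 : 0 ≤ N * (τ * T (u x)) := by positivity
      have h4 : N * (τ * T (u x)) ≤ N * (τ * Θ) := by gcongr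
      constructor <;> linarith)
  set F : ℝ → ℝ := fun θ => N * l * (t * u θ + τ * G (u θ)) with hF
  have dF : ∀ θ, HasDerivAt F (N * (t + τ * T (u θ))) θ := by
    intro θ
    have du : HasDerivAt u (1 / l) θ := (((hasDerivAt_id θ).sub_const p).div_const l).add_const _
    have := ((du.const_mul t).add (((dG (u θ)).comp θ du).const_mul τ)).const_mul (N * l)
    refine HasDerivAt.congr_deriv this ?_
    field_simp
  refine ⟨ψ, F (p - |l| / 2), H, fun k => ?_⟩
  have hph : ∀ θ ∈ Icc (p - |l| / 2) (p + |l| / 2),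
      phA ψ (p - |l| / 2) θ = F θ - F (p - |l| / 2) := by
    intro θ hθ
    apply intervalIntegral.integral_eq_sub_of_hasDerivAt _ (H.cont.intervalIntegrable _ _)
    intro x hx
    rw [uIcc_of_le hθ.1] at hx
    rw [hE ⟨hx.1, hx.2.trans hθ.2⟩]
    exact dF x
  have e1 : osc ψ (p - |l| / 2) (p + |l| / 2) k =
      ee (-F (p - |l| / 2)) * ∫ θ in (p - |l| / 2)..(p + |l| / 2), ee (F θ - k * θ) := by
    rw [← intervalIntegral.integral_const_mul]
    apply intervalIntegral.integral_congr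
    intro θ hθ
    rw [uIcc_of_le (by linarith)] at hθ
    simp only
    rw [hph θ hθ, ← ee_add]; congr 1; ring
  have e2 := intervalIntegral.smul_integral_comp_mul_add (a := 0) (b := 1)
    (fun θ => ee (F θ - k * θ)) l (p - l / 2)
  have e3 : ∀ x, ee (F (l * x + (p - l / 2)) - k * (l * x + (p - l / 2))) =
      ee (-(k * p) + k * l / 2) * ee (N * τ * l * (G x - (k / N - t) / τ * x)) := by
    intro x
    have : u (l * x + (p - l / 2)) = x := by simp only [hu]; field_simp; ring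
    rw [← ee_add]; congr 1
    simp only [hF, this]; field_simp; ring
  simp_rw [e3] at e2
  rw [intervalIntegral.integral_const_mul, Complex.real_smul] at e2
  rw [e1]
  unfold oscI
  rcases lt_or_gt_of_ne hl with h | h
  · rw [abs_of_neg h]
    rw [show l * 0 + (p - l / 2) = p + -l / 2 by ring,
      show l * 1 + (p - l / 2) = p - -l / 2 by ring] at e2
    rw [intervalIntegral.integral_symm, ← e2]; push_cast; ring
  · rw [abs_of_pos h]
    rw [show l * 0 + (p - l / 2) = p - l / 2 by ring,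
      show l * 1 + (p - l / 2) = p + l / 2 by ring] at e2
    rw [← e2]; ring

lemma piece_approx {G : ℝ → ℝ} {ϖ : ℂ} {q₀ κ W Γ s : ℝ}
    (h : ∀ q, q₀ ≤ q → ‖(q : ℂ) * oscI G (q ^ 2) s - (W : ℂ) * ϖ * ee (q ^ 2 * Γ)‖ ≤ κ)
    {q τ l : ℝ} (hτ : 0 < τ) (hl : l ≠ 0) (hq : q₀ ≤ q * √(τ * |l|)) (x : ℝ) :
    ‖(q : ℂ) * (ee (x - (if 0 < l then 1 else -1) * (ϖ.arg / (2 * π))) * (|l| : ℝ) *
        oscI G (q ^ 2 * τ * l) s) -
      ((√(|l| / τ) * W * ‖ϖ‖ : ℝ) : ℂ) * ee (x + l * (q ^ 2 * τ * Γ))‖ ≤ √(|l| / τ) * κ := by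
  have hl0 : 0 < |l| := abs_pos.mpr hl
  have h1 := h _ hq
  set r : ℝ := √(τ * |l|) with hr
  set A : ℝ := √(|l| / τ) with hA
  have hr2 : r ^ 2 = τ * |l| := Real.sq_sqrt (by positivity)
  have hAr : A * r = |l| := by
    rw [hA, hr, ← Real.sqrt_mul (by positivity)]
    rw [show |l| / τ * (τ * |l|) = |l| ^ 2 by field_simp, Real.sqrt_sq hl0.le]
  have hA0 : 0 ≤ A := Real.sqrt_nonneg _
  have hAr' : ((|l| : ℝ) : ℂ) = (A : ℂ) * r := by exact_mod_cast hAr.symm
  have hϖ := ee_arg ϖ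
  set a : ℝ := ϖ.arg / (2 * π) with ha
  rcases lt_or_gt_of_ne hl with h0 | h0
  · rw [if_neg (by linarith)]
    have e1 : (q * r) ^ 2 = -(q ^ 2 * τ * l) := by rw [mul_pow, hr2, abs_of_neg h0]; ring
    rw [← Complex.norm_conj] at h1
    simp only [map_sub, map_mul, Complex.conj_ofReal, conj_ee] at h1
    rw [← oscI_neg, e1, neg_neg] at h1
    have hc : conj ϖ = (‖ϖ‖ : ℂ) * ee (-a) := by
      conv_lhs => rw [← hϖ]
      rw [map_mul, Complex.conj_ofReal, conj_ee]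
    have e2 : ee (x - -1 * a) * (ee (-a) * ee (-(-(q ^ 2 * τ * l) * Γ))) =
        ee (x + l * (q ^ 2 * τ * Γ)) := by
      rw [← ee_add, ← ee_add]; congr 1; ring
    have e3 : (q : ℂ) * (ee (x - -1 * a) * (|l| : ℝ) * oscI G (q ^ 2 * τ * l) s) -
        ((A * W * ‖ϖ‖ : ℝ) : ℂ) * ee (x + l * (q ^ 2 * τ * Γ)) =
        (A : ℂ) * ee (x - -1 * a) * (((q * r : ℝ) : ℂ) * oscI G (q ^ 2 * τ * l) s -
          W * conj ϖ * ee (-(-(q ^ 2 * τ * l) * Γ))) := by
      rw [hc, hAr', ← e2]; push_cast; ring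
    rw [e3, norm_mul, norm_mul, norm_ee, mul_one, Complex.norm_real, Real.norm_eq_abs,
      abs_of_nonneg hA0]
    gcongr
  · rw [if_pos h0]
    have e1 : (q * r) ^ 2 = q ^ 2 * τ * l := by rw [mul_pow, hr2, abs_of_pos h0]; ring
    rw [e1] at h1
    have e2 : ee (x - 1 * a) * (ee a * ee (q ^ 2 * τ * l * Γ)) =
        ee (x + l * (q ^ 2 * τ * Γ)) := by
      rw [← ee_add, ← ee_add]; congr 1; ring
    have e3 : (q : ℂ) * (ee (x - 1 * a) * (|l| : ℝ) * oscI G (q ^ 2 * τ * l) s) -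
        ((A * W * ‖ϖ‖ : ℝ) : ℂ) * ee (x + l * (q ^ 2 * τ * Γ)) =
        (A : ℂ) * ee (x - 1 * a) * (((q * r : ℝ) : ℂ) * oscI G (q ^ 2 * τ * l) s -
          W * ((‖ϖ‖ : ℂ) * ee a) * ee (q ^ 2 * τ * l * Γ)) := by
      rw [hAr', ← e2]; push_cast; ring
    rw [e3, hϖ, norm_mul, norm_mul, norm_ee, mul_one, Complex.norm_real, Real.norm_eq_abs,
      abs_of_nonneg hA0]
    gcongr

open Classical in
/-- a near-perfect packing of modes into `(0, 1/2)` whose block sums are bounded. -/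
def Packing (δ : ℝ) : Prop :=
  ∃ (Λ Bk : Type) (_ : Fintype Λ) (_ : Fintype Bk) (blk : Λ → Bk) (p l φ : Λ → ℝ),
    0 < Fintype.card Bk ∧ (∀ i, l i ≠ 0) ∧ (∀ i, 0 < p i - |l i| / 2) ∧
    (∀ i, p i + |l i| / 2 < 1 / 2) ∧
    (∀ i i', i ≠ i' → p i + |l i| / 2 < p i' - |l i'| / 2 ∨ p i' + |l i'| / 2 < p i - |l i| / 2) ∧
    (1 - δ) / 2 ≤ ∑ i, |l i| ∧
    ∀ (j : Bk) (k : ℤ) (H : ℝ), |∑ i with blk i = j,
      2 * √(Fintype.card Bk * |l i|) * Real.cos (2 * π * (φ i - k * p i + l i * H))| ≤ 1 + δ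

theorem flat_real {δ : ℝ} (hδ : 0 < δ) (hδ1 : δ ≤ 1 / 100) (hP : Packing δ) :
    ∃ N₀ : ℕ, ∀ N ≥ N₀, ∃ b : ℕ → ℝ, (∀ k, |b k| ≤ 1 + 34 * δ) ∧
      ∀ θ : ℝ, |‖∑ k ∈ Finset.range N, (b k : ℂ) * ee (k * θ)‖ - √N| ≤ δ * √N := by
  classical
  obtain ⟨Λ, Bk, _, _, blk, p, l, φ, hJ, hl, h0, h1, hdisj, hcov, hsup⟩ := hP
  set J : ℕ := Fintype.card Bk with hJdef
  have hJ' : (0 : ℝ) < J := by exact_mod_cast hJ
  obtain ⟨τ, hτ⟩ : ∃ τ : ℝ, τ = (1 - 36 * δ) / ((1 + δ) * J) := ⟨_, rfl⟩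
  have hτ0 : 0 < τ := by rw [hτ]; apply div_pos <;> [linarith; positivity]
  have hτJ : τ * (1 + δ) * J = 1 - 36 * δ := by rw [hτ]; field_simp
  set e : Bk → ℕ := fun j => (Fintype.equivFin Bk j : ℕ) with he
  have he1 : ∀ j, e j < J := fun j => (Fintype.equivFin Bk j).2
  have he2 : Function.Injective e := fun j j' h =>
    (Fintype.equivFin Bk).injective (Fin.ext h)
  set t : Bk → ℝ := fun j => δ + e j * (τ * (1 + δ)) with ht
  have ht1 : ∀ j, δ ≤ t j := fun j => by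
    have : 0 ≤ (e j : ℝ) * (τ * (1 + δ)) := by positivity
    simp only [ht]; linarith
  have ht2 : ∀ j, t j + τ * (1 + δ) ≤ 1 - 35 * δ := fun j => by
    have h1 : (e j : ℝ) + 1 ≤ J := by exact_mod_cast he1 j
    have h2 : ((e j : ℝ) + 1) * (τ * (1 + δ)) ≤ J * (τ * (1 + δ)) := by gcongr
    simp only [ht]; linarith
  set S₀ : ℝ := ∑ i, √(|l i| / τ) with hS₀
  have hS₀0 : 0 ≤ S₀ := Finset.sum_nonneg fun i _ => Real.sqrt_nonneg _
  obtain ⟨κ, hκ0, hκ1, hκ2⟩ : ∃ κ : ℝ, 0 < κ ∧ κ ≤ δ ∧ S₀ * κ ≤ δ / 4 := by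
    refine ⟨δ / (4 * (1 + S₀)), by positivity, ?_, ?_⟩
    · rw [div_le_iff₀ (by positivity)]; nlinarith
    · rw [← mul_div_assoc, div_le_div_iff₀ (by positivity) (by norm_num)]; nlinarith
  obtain ⟨G, T, C, q₀, ϖ, dG, -, lipT, rT, hϖ, hq₀, hs⟩ := stat_phase δ κ hδ hκ0
  choose W Γ hW0 hW1 hWs hWa using hs
  have hC : 0 ≤ C := by
    have := (abs_nonneg _).trans (lipT 0 ⟨le_rfl, zero_le_one⟩ 1 ⟨zero_le_one, le_rfl⟩)
    simpa using this
  have hl0 : ∀ i, 0 < |l i| := fun i => abs_pos.mpr (hl i)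
  have hlen : ∑ i, (p i + |l i| / 2 - (p i - |l i| / 2)) = ∑ i, |l i| :=
    Finset.sum_congr rfl fun i _ => by ring
  obtain ⟨C₁, q₁, HA⟩ := assemble (fun i => p i - |l i| / 2) (fun i => p i + |l i| / 2)
    (fun i => by linarith [hl0 i]) h0 hdisj (η := δ) (w := 1 - 34 * δ)
    (C₀ := ∑ i, τ * C / |l i|) hδ Finset.univ (1 / 2) (by norm_num) (fun i _ => h1 i)
    (by rw [hlen]; linarith) (δ / 4) (by positivity)
  obtain ⟨N₁, HK⟩ := kernel C₁ δ δ hδ hδ
  set q₂ : ℝ := max q₁ (∑ i, q₀ / √(τ * |l i|)) with hq₂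
  obtain ⟨N₂, hN₂⟩ := exists_nat_ge (q₂ ^ 2)
  refine ⟨max (max N₁ N₂) 1, fun N hN => ?_⟩
  have hN1 : N₁ ≤ N := ((le_max_left _ _).trans (le_max_left _ _)).trans hN
  have hN2 : N₂ ≤ N := ((le_max_right _ _).trans (le_max_left _ _)).trans hN
  have hN3 : 1 ≤ N := (le_max_right _ _).trans hN
  have hN0 : (0 : ℝ) < N := by exact_mod_cast hN3
  set q : ℝ := √N with hq
  have hq0 : 0 < q := Real.sqrt_pos.mpr hN0
  have hqq : q ^ 2 = N := Real.sq_sqrt hN0.le
  have hq2 : q₂ ≤ q := by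
    apply le_of_sq_le_sq _ hq0.le
    rw [hqq]; exact hN₂.trans (by exact_mod_cast hN2)
  have hqi : ∀ i, q₀ ≤ q * √(τ * |l i|) := by
    intro i
    have h1 : 0 < √(τ * |l i|) := Real.sqrt_pos.mpr (mul_pos hτ0 (hl0 i))
    rw [← div_le_iff₀ h1]
    refine le_trans ?_ ((le_max_right _ _).trans hq2)
    exact Finset.single_le_sum (f := fun i => q₀ / √(τ * |l i|)) (fun i _ => by positivity)
      (Finset.mem_univ i)
  have hpc : ∀ i, ∃ (ψ : ℝ → ℝ) (α : ℝ),
      Adm ψ (τ * C / |l i| * q ^ 2) (δ * q ^ 2) ((1 - 34 * δ - δ) * q ^ 2) ∧ ∀ k,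
      osc ψ (p i - |l i| / 2) (p i + |l i| / 2) k = ee (-α) * (|l i| : ℝ) *
        ee (-(k * p i) + k * l i / 2) * oscI G (q ^ 2 * τ * l i) ((k / q ^ 2 - t (blk i)) / τ) := by
    intro i
    have hq2 : 0 < q ^ 2 := by positivity
    apply piece dG lipT rT (hl i) hτ0 hq2
    · rw [mul_comm]; gcongr; exact ht1 _
    · rw [mul_comm]; gcongr; linarith [ht2 (blk i)]
  choose ψs α hA hosc using hpc
  obtain ⟨ψ, Aψ, -, hph, hbd⟩ := HA q ((le_max_left _ _).trans hq2) ψs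
    (fun i => α i + φ i - (if 0 < l i then 1 else -1) * (ϖ.arg / (2 * π)))
    (fun i => (hA i).mono (by
      gcongr
      exact Finset.single_le_sum (f := fun i => τ * C / |l i|) (fun i _ => by positivity)
        (Finset.mem_univ i)) le_rfl le_rfl) (δ * q ^ 2) 0 ⟨le_rfl, by gcongr; linarith⟩
  rw [hqq] at Aψ
  obtain ⟨m, hm, hflat⟩ := HK N hN1 ψ Aψ (by rw [hph, ee_zero])
  refine ⟨fun k => q * (m k * (2 * (osc ψ 0 (1 / 2) k).re)), fun k => ?_, fun θ => ?_⟩
  · set s : Bk → ℝ := fun j => (k / q ^ 2 - t j) / τ with hs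
    set Mn : Λ → ℂ := fun i => ((√(|l i| / τ) * W (s (blk i)) * ‖ϖ‖ : ℝ) : ℂ) *
      ee (φ i - k * p i + k * l i / 2 + l i * (q ^ 2 * τ * Γ (s (blk i)))) with hMn
    have a1 : ∀ i, ‖(q : ℂ) * (ee (α i + φ i - (if 0 < l i then 1 else -1) * (ϖ.arg / (2 * π))) *
        osc (ψs i) (p i - |l i| / 2) (p i + |l i| / 2) k) - Mn i‖ ≤ √(|l i| / τ) * κ := by
      intro i
      have := piece_approx (hWa (s (blk i))) hτ0 (hl i) (hqi i) (φ i - k * p i + k * l i / 2)
      rw [hosc]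
      have e1 : ee (α i + φ i - (if 0 < l i then 1 else -1) * (ϖ.arg / (2 * π))) * (ee (-α i) *
          ee (-(k * p i) + k * l i / 2)) = ee (φ i - k * p i + k * l i / 2 -
            (if 0 < l i then 1 else -1) * (ϖ.arg / (2 * π))) := by
        rw [← ee_add, ← ee_add]; congr 1; ring
      rw [← e1] at this
      convert this using 4
      ring
    have a2 : ‖(q : ℂ) * osc ψ 0 (1 / 2) k - ∑ i, Mn i‖ ≤ δ / 2 +
        if (1 - 34 * δ) * q ^ 2 < k then 1 / 2 else 0 := by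
      have b1 := hbd k
      have b2 : ‖∑ i, ((q : ℂ) * (ee (α i + φ i - (if 0 < l i then 1 else -1) *
          (ϖ.arg / (2 * π))) * osc (ψs i) (p i - |l i| / 2) (p i + |l i| / 2) k) - Mn i)‖ ≤
          δ / 4 := by
        refine (norm_sum_le _ _).trans ((Finset.sum_le_sum fun i _ => a1 i).trans ?_)
        rw [← Finset.sum_mul]; exact hκ2
      rw [Finset.sum_sub_distrib, ← Finset.mul_sum] at b2
      have b3 : ∀ X Y Z : ℂ, ‖(q : ℂ) * X - Z‖ ≤ q * ‖X - Y‖ + ‖(q : ℂ) * Y - Z‖ := by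
        intro X Y Z
        have : (q : ℂ) * X - Z = q * (X - Y) + (q * Y - Z) := by ring
        rw [this]
        refine (norm_add_le _ _).trans ?_
        rw [norm_mul, Complex.norm_real, Real.norm_eq_abs, abs_of_pos hq0]
      refine (b3 _ _ _).trans ((add_le_add b1 b2).trans ?_)
      split_ifs with h1 h2
      · linarith
      · exact absurd h1.1 h2
      · linarith
      · linarith
    have hact : ∀ j, W (s j) ≠ 0 → t j < k / q ^ 2 ∧ k / q ^ 2 < t j + τ * (1 + δ) := by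
      intro j hj
      obtain ⟨f1, f2⟩ := hWs _ hj
      simp only [hs] at f1 f2
      rw [lt_div_iff₀ hτ0] at f1
      rw [div_lt_iff₀ hτ0] at f2
      constructor <;> linarith
    have a3 : ∑ j, W (s j) ≤ if (1 - 34 * δ) * q ^ 2 < k then 0 else 1 := by
      split_ifs with h
      · apply le_of_eq
        apply Finset.sum_eq_zero
        intro j _
        by_contra hj
        have f1 := (hact j hj).2
        have f2 := ht2 j
        rw [← lt_div_iff₀ (by positivity)] at h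
        linarith
      · by_cases hex : ∃ j, W (s j) ≠ 0
        · obtain ⟨j₀, hj₀⟩ := hex
          rw [Finset.sum_eq_single j₀]
          · exact hW1 _
          · intro j _ hne
            by_contra hj
            apply hne
            apply he2
            have f1 := hact j hj
            have f2 := hact j₀ hj₀
            simp only [ht] at f1 f2
            have hp : 0 < τ * (1 + δ) := by positivity
            have g1 : (e j : ℝ) < e j₀ + 1 := by
              apply lt_of_mul_lt_mul_right _ hp.le; linarith [f1.1, f2.2]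
            have g2 : (e j₀ : ℝ) < e j + 1 := by
              apply lt_of_mul_lt_mul_right _ hp.le; linarith [f1.2, f2.1]
            have g1' : e j < e j₀ + 1 := by exact_mod_cast g1
            have g2' : e j₀ < e j + 1 := by exact_mod_cast g2
            omega
          · intro h; exact absurd (Finset.mem_univ _) h
        · push Not at hex
          simp [hex]
    have hJτ : 1 / √(J * τ) ≤ 1 + 30 * δ := by
      have f0 : 0 < (J : ℝ) * τ := by positivity
      rw [div_le_iff₀ (Real.sqrt_pos.mpr f0), ← div_le_iff₀' (by positivity)]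
      apply Real.le_sqrt_of_sq_le
      rw [div_pow, div_le_iff₀ (by positivity)]
      apply le_of_mul_le_mul_left _ (by positivity : 0 < 1 + δ)
      have : (1 + δ) * (J * τ * (1 + 30 * δ) ^ 2) = (1 - 36 * δ) * (1 + 30 * δ) ^ 2 := by
        rw [← hτJ]; ring
      rw [this]
      nlinarith [sq_nonneg δ, mul_pos hδ hδ]
    have a4 : |2 * (∑ i, Mn i).re| ≤ (1 + 33 * δ) * ∑ j, W (s j) := by
      rw [Complex.re_sum, Finset.mul_sum, ← Finset.sum_fiberwise (g := blk), Finset.mul_sum]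
      refine (Finset.abs_sum_le_sum_abs _ _).trans (Finset.sum_le_sum fun j _ => ?_)
      have e1 : ∑ i with blk i = j, 2 * (Mn i).re = (W (s j) * ‖ϖ‖ * (1 / √(J * τ))) *
          ∑ i with blk i = j, 2 * √(J * |l i|) * Real.cos (2 * π * (φ i - (k : ℤ) * p i +
            l i * (k / 2 + q ^ 2 * τ * Γ (s j)))) := by
        rw [Finset.mul_sum]
        apply Finset.sum_congr rfl
        intro i hi
        have hi' : blk i = j := (Finset.mem_filter.mp hi).2
        simp only [hMn, Complex.re_ofReal_mul, ee_re, hi']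
        have e2 : √(|l i| / τ) = √(J * |l i|) / √(J * τ) := by
          rw [← Real.sqrt_div (by positivity)]; congr 1; field_simp
        have e3 : φ i - k * p i + k * l i / 2 + l i * (q ^ 2 * τ * Γ (s j)) =
            φ i - (k : ℤ) * p i + l i * (k / 2 + q ^ 2 * τ * Γ (s j)) := by push_cast; ring
        rw [e2, e3]; ring
      rw [e1, abs_mul, abs_of_nonneg (by have := hW0 (s j); positivity)]
      have f1 := hsup j k (k / 2 + q ^ 2 * τ * Γ (s j))
      have f2 := hW0 (s j)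
      calc _ ≤ W (s j) * (1 + δ) * (1 + 30 * δ) * (1 + δ) := by
            gcongr; linarith
        _ = ((1 + δ) * (1 + 30 * δ) * (1 + δ)) * W (s j) := by ring
        _ ≤ _ := by
            gcongr
            nlinarith [mul_pos hδ hδ]
    have a5 : |2 * ((q : ℂ) * osc ψ 0 (1 / 2) k).re| ≤ 1 + 34 * δ := by
      have e1 : 2 * ((q : ℂ) * osc ψ 0 (1 / 2) k).re =
          2 * ((q : ℂ) * osc ψ 0 (1 / 2) k - ∑ i, Mn i).re + 2 * (∑ i, Mn i).re := by
        rw [Complex.sub_re]; ring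
      rw [e1]
      refine (abs_add_le _ _).trans ?_
      have f1 := (Complex.abs_re_le_norm _).trans a2
      have f2 : (1 + 33 * δ) * ∑ j, W (s j) ≤
          (1 + 33 * δ) * if (1 - 34 * δ) * q ^ 2 < k then 0 else 1 := by gcongr
      rw [abs_mul, abs_two]
      split_ifs at f1 f2 <;> linarith
    rw [Complex.re_ofReal_mul] at a5
    have e1 : q * (m k * (2 * (osc ψ 0 (1 / 2) k).re)) =
        m k * (2 * (q * (osc ψ 0 (1 / 2) k).re)) := by ring
    beta_reduce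
    rw [e1, abs_mul, abs_of_nonneg (hm k).1]
    calc _ ≤ 1 * (1 + 34 * δ) := mul_le_mul (hm k).2 a5 (abs_nonneg _) zero_le_one
      _ = _ := one_mul _
  · have e1 : ∑ k ∈ Finset.range N, ((q * (m k * (2 * (osc ψ 0 (1 / 2) k).re)) : ℝ) : ℂ) *
        ee (k * θ) = (q : ℂ) * ∑ k ∈ Finset.range N,
          ((m k * (2 * (osc ψ 0 (1 / 2) k).re) : ℝ) : ℂ) * ee (k * θ) := by
      rw [Finset.mul_sum]
      apply Finset.sum_congr rfl
      intro k _; rw [Complex.ofReal_mul]; ring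
    rw [e1, norm_mul, Complex.norm_real, Real.norm_eq_abs, abs_of_pos hq0, ← mul_sub_one, abs_mul,
      abs_of_pos hq0, mul_comm]
    gcongr
    exact hflat θ

end Crest.Agent.R75
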