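import Mathlib

set_option autoImplicit false

namespace Crest.Agent.R75

open Finset Real Complex
open scoped ComplexConjugate

/-- `ee x = exp (2 π i x)` -/
noncomputable def ee (x : ℝ) : ℂ := Complex.exp (2 * π * x * I)

lemma ee_add (x y : ℝ) : ee (x + y) = ee x * ee y := by
  unfold ee; rw [← Complex.exp_add]; congr 1; push_cast; ring

@[simp] lemma ee_zero : ee 0 = 1 := by simp [ee]

@[simp] lemma norm_ee (x : ℝ) : ‖ee x‖ = 1 := by
  unfold ee
  have : (2 * π * x * I : ℂ) = ((2 * π * x : ℝ) : ℂ) * I := by push_cast; ring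
  rw [this, Complex.norm_exp_ofReal_mul_I]

lemma ee_ne_zero (x : ℝ) : ee x ≠ 0 := Complex.exp_ne_zero _

lemma conj_ee (x : ℝ) : conj (ee x) = ee (-x) := by
  unfold ee
  rw [← Complex.exp_conj]; congr 1
  simp [Complex.conj_ofReal, map_ofNat]

lemma ee_int (n : ℤ) : ee n = 1 := by
  unfold ee
  have := Complex.exp_int_mul_two_pi_mul_I n
  rw [← this]; congr 1; push_cast; ring

lemma ee_add_int (x : ℝ) (n : ℤ) : ee (x + n) = ee x := by rw [ee_add, ee_int, mul_one]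

lemma ee_nat_mul (n : ℕ) (x : ℝ) : ee (n * x) = ee x ^ n := by
  unfold ee; rw [← Complex.exp_nat_mul]; congr 1; push_cast; ring

lemma ee_eq_one_iff (x : ℝ) : ee x = 1 ↔ ∃ n : ℤ, x = n := by
  constructor
  · intro h
    obtain ⟨n, hn⟩ := Complex.exp_eq_one_iff.mp h
    refine ⟨n, ?_⟩
    have h2 : (2 * π * I : ℂ) ≠ 0 := by simp [Real.pi_ne_zero]
    have : (x : ℂ) = n := by
      apply mul_right_cancel₀ h2
      rw [← hn]; ring
    exact_mod_cast this
  · rintro ⟨n, rfl⟩; exact ee_int n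

lemma ee_re (x : ℝ) : (ee x).re = Real.cos (2 * π * x) := by
  unfold ee
  have : (2 * π * x * I : ℂ) = ((2 * π * x : ℝ) : ℂ) * I := by push_cast; ring
  rw [this, Complex.exp_ofReal_mul_I_re]

lemma ee_arg (z : ℂ) : (‖z‖ : ℂ) * ee (z.arg / (2 * π)) = z := by
  unfold ee
  have : (2 * π * ((z.arg / (2 * π) : ℝ) : ℂ) * I : ℂ) = z.arg * I := by
    push_cast
    have : (π : ℂ) ≠ 0 := by exact_mod_cast Real.pi_ne_zero
    field_simp
  rw [this, Complex.norm_mul_exp_arg_mul_I]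

@[fun_prop] lemma continuous_ee : Continuous ee := by unfold ee; fun_prop

lemma hasDerivAt_ee (x : ℝ) : HasDerivAt ee (2 * π * I * ee x) x := by
  unfold ee
  have h1 : HasDerivAt (fun x : ℝ => (2 * π * (x : ℂ) * I : ℂ)) (2 * π * I) x := by
    have := ((Complex.ofRealCLM.hasDerivAt (x := x)).const_mul (2 * π : ℂ)).mul_const I
    simpa using this
  have := h1.cexp
  rw [mul_comm (2 * π * I : ℂ)]
  exact this

lemma HasDerivAt.ee_comp {f : ℝ → ℝ} {f' x : ℝ} (hf : HasDerivAt f f' x) :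
    HasDerivAt (fun y => ee (f y)) (2 * π * I * f' * ee (f x)) x := by
  have := (hasDerivAt_ee (f x)).scomp x hf
  have e : (2 * π * I * f' * ee (f x) : ℂ) = f' • (2 * π * I * ee (f x)) := by
    rw [Complex.real_smul]; ring
  rw [e]; exact this

lemma norm_ee_sub_one_le (x : ℝ) : ‖ee x - 1‖ ≤ 2 * π * |x| := by
  unfold ee
  have : (2 * π * x * I : ℂ) = I * ((2 * π * x : ℝ) : ℂ) := by push_cast; ring
  rw [this]
  refine (Real.norm_exp_I_mul_ofReal_sub_one_le).trans (le_of_eq ?_)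
  rw [Real.norm_eq_abs, abs_mul, abs_of_pos (by positivity : 0 < 2 * π)]

lemma norm_ee_sub_le (x y : ℝ) : ‖ee x - ee y‖ ≤ 2 * π * |x - y| := by
  have : ee x - ee y = ee y * (ee (x - y) - 1) := by
    rw [mul_sub, ← ee_add]; simp
  rw [this, norm_mul, norm_ee, one_mul]
  exact norm_ee_sub_one_le _

lemma sum_ee (M : ℕ) (hM : 0 < M) (k : ℤ) :
    ∑ j ∈ range M, ee (k * (j / M)) = if (M : ℤ) ∣ k then (M : ℂ) else 0 := by
  have hM' : (M : ℝ) ≠ 0 := by exact_mod_cast hM.ne'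
  have h1 : ∀ j : ℕ, ee (k * (j / M)) = ee (k / M) ^ j := by
    intro j; rw [← ee_nat_mul]; congr 1; ring
  simp_rw [h1]
  split_ifs with h
  · obtain ⟨c, rfl⟩ := h
    have : ee ((((M : ℤ) * c : ℤ) : ℝ) / M) = 1 := by
      rw [ee_eq_one_iff]; refine ⟨c, ?_⟩; push_cast; field_simp
    rw [this]; simp
  · have h2 : ee (k / M) ≠ 1 := by
      intro h3
      obtain ⟨n, hn⟩ := (ee_eq_one_iff _).mp h3
      apply h
      refine ⟨n, ?_⟩
      have : (k : ℝ) = M * n := by rw [← hn]; field_simp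
      exact_mod_cast this
    rw [geom_sum_eq h2, ← ee_nat_mul]
    have : ee (M * (k / M)) = 1 := by
      rw [ee_eq_one_iff]; refine ⟨k, ?_⟩; field_simp
    rw [this]; simp

/-- discrete Parseval identity -/
lemma parseval_grid {α : Type*} (s : Finset α) (ν : α → ℤ) (c : α → ℂ) (M : ℕ) (hM : 0 < M)
    (hν : ∀ a ∈ s, ∀ b ∈ s, (M : ℤ) ∣ ν a - ν b → a = b) :
    ∑ j ∈ range M, ‖∑ a ∈ s, c a * ee (ν a * (j / M))‖ ^ 2 = M * ∑ a ∈ s, ‖c a‖ ^ 2 := by
  classical
  have h1 : ∀ z : ℂ, ((‖z‖ ^ 2 : ℝ) : ℂ) = z * conj z := by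
    intro z; rw [Complex.mul_conj, Complex.normSq_eq_norm_sq]
  apply Complex.ofReal_injective
  rw [Complex.ofReal_sum, Complex.ofReal_mul, Complex.ofReal_sum]
  simp_rw [h1, map_sum, map_mul, conj_ee, Finset.sum_mul_sum]
  rw [Finset.sum_comm, Finset.mul_sum]
  apply Finset.sum_congr rfl
  intro a ha
  rw [Finset.sum_comm]
  have h2 : ∀ b ∈ s, ∑ j ∈ range M, c a * ee (ν a * (j / M)) * (conj (c b) * ee (-(ν b * (j / M))))
      = if b = a then c a * conj (c a) * M else 0 := by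
    intro b hb
    have h3 : ∀ j : ℕ, c a * ee (ν a * (j / M)) * (conj (c b) * ee (-(ν b * (j / M)))) =
        c a * conj (c b) * ee (((ν a - ν b : ℤ) : ℝ) * (j / M)) := by
      intro j
      have : ((ν a - ν b : ℤ) : ℝ) * (j / M) = ν a * (j / M) + -(ν b * (j / M)) := by
        push_cast; ring
      rw [this, ee_add]; ring
    simp_rw [h3]
    rw [← Finset.mul_sum, sum_ee M hM]
    by_cases hab : b = a
    · subst hab; simp
    · rw [if_neg hab, if_neg (fun h => hab (hν a ha b hb h).symm), mul_zero]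
  rw [Finset.sum_congr rfl h2, Finset.sum_ite_eq' s a, if_pos ha]
  push_cast; ring

lemma eq_of_dvd_of_abs_lt {M : ℕ} {x : ℤ} (h : (M : ℤ) ∣ x) (h2 : |x| < M) : x = 0 :=
  Int.eq_zero_of_abs_lt_dvd h h2

end Crest.Agent.R75
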