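import Crest.Agent.R75.Colour
import Crest.Agent.R75.Basic

set_option autoImplicit false

namespace Crest.Agent.R75

open Finset Real
open scoped ComplexConjugate

theorem grid {ι : Type} [Fintype ι] [DecidableEq ι] (n : ι → ℕ) (μ : ι → ℤ) (hn : ∀ i, 1 ≤ n i)
    (hprop : ∀ i i', i ≠ i' → n i * μ i' ≠ n i' * μ i) {w : ι → ℝ} (hw : ∀ i, 0 < w i)
    (h1 : ∑ i, w i = 1) {η : ℝ} (hη : 0 < η) (nb : ℕ) :
    ∃ (P : ℕ) (Γ : Type) (_ : Fintype Γ) (g₁ g₂ : Γ → ℤ) (X : ι → Γ → ℕ), 0 < P ∧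
      (∀ i γ, (P : ℤ) ∣ n i * g₁ γ + μ i * g₂ γ - X i γ) ∧
      (∀ i γ, nb ≤ X i γ ∧ X i γ + nb ≤ P) ∧
      (∀ i l γ γ', (|(X i γ : ℤ) - X l γ'| ≤ nb ∨ |(X i γ : ℤ) + X l γ' - P| ≤ nb) → i = l) ∧
      (∀ i u, (#{γ | X i γ = u} : ℝ) ≤ (1 + η) * P * ∏ l ∈ univ.erase i, w l) ∧
      (1 - η) * P ^ 2 * ∏ i, w i ≤ Fintype.card Γ ∧
      Fintype.card Γ ≤ (1 + η) * P ^ 2 * ∏ i, w i := by
  classical
  set G : ℝ := (Fintype.card ι : ℝ) with hG
  have hG0 : 0 ≤ G := Nat.cast_nonneg _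
  obtain ⟨Λ, hΛ⟩ := exists_nat_ge (max (16 * G * nb / η) 1)
  have hΛ1 : 16 * G * nb ≤ η * Λ := by
    have := (le_max_left _ _).trans hΛ
    rw [div_le_iff₀ hη] at this; linarith
  have hΛ0 : 0 < Λ := by
    have : (1 : ℝ) ≤ Λ := (le_max_right _ _).trans hΛ
    exact_mod_cast this
  have hΛ0' : (0 : ℝ) < Λ := by exact_mod_cast hΛ0
  obtain ⟨z, hz⟩ : ∃ z : ℕ, ∀ i i', |n i * μ i' - n i' * μ i| < z ∧ n i < z := by
    obtain ⟨z, hz⟩ := (Set.finite_range (fun p : ι × ι =>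
      ((n p.1 : ℤ) * μ p.2 - n p.2 * μ p.1).natAbs + n p.1)).bddAbove
    refine ⟨z + 1, fun i i' => ?_⟩
    have := hz ⟨(i, i'), rfl⟩
    simp only at this
    rw [Int.abs_eq_natAbs]
    constructor <;> omega
  obtain ⟨N₀, hN₀⟩ := exists_nat_ge ((G ^ 2 * (2 * Λ) + 3 * G ^ 3 * (2 * Λ) /
    (η ^ 2 * (∏ i, w i) ^ 3)) / (η / 2))
  obtain ⟨P, hPge, hPp⟩ := Nat.exists_infinite_primes (max (max z Λ) N₀)
  have hPz : z ≤ P := ((le_max_left _ _).trans (le_max_left _ _)).trans hPge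
  have hPΛ : Λ ≤ P := ((le_max_right _ _).trans (le_max_left _ _)).trans hPge
  have hPN : N₀ ≤ P := (le_max_right _ _).trans hPge
  have : Fact P.Prime := ⟨hPp⟩
  have hP0 : (0 : ℝ) < P := by exact_mod_cast hPp.pos
  set x : ι → ZMod P × ZMod P → ZMod P := fun i γ => (n i : ℤ) * γ.1 + (μ i) * γ.2 with hx
  set a : ZMod P → ℕ := fun u => min u.val (P - u.val) with ha
  have haP : ∀ u, a u ≤ P := fun u => (min_le_right _ _).trans (Nat.sub_le _ _)
  set r : ZMod P → Fin (P + 1) := fun u =>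
    ⟨a u / Λ, Nat.lt_succ_of_le ((Nat.div_le_self _ _).trans (haP u))⟩ with hr
  have hne : ∀ d : ℤ, d ≠ 0 → |d| < z → (d : ZMod P) ≠ 0 := by
    intro d h0 h h2
    rw [ZMod.intCast_zmod_eq_zero_iff_dvd] at h2
    exact h0 (Int.eq_zero_of_abs_lt_dvd h2 (by omega))
  have hainj : ∀ u v : ZMod P, a u = a v → (u.val ≤ P - u.val ↔ v.val ≤ P - v.val) → u = v := by
    intro u v h h'
    apply ZMod.val_injective
    have := ZMod.val_lt u
    have := ZMod.val_lt v
    simp only [ha] at h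
    omega
  obtain ⟨κ, Γ, hΓ1, hΓ2, hΓ3, hΓ4⟩ := colouring (Γ₀ := ZMod P × ZMod P) hw h1 x r
    (fun u => nb ≤ a u % Λ ∧ a u % Λ + nb < Λ) (P := P) (L := 2 * Λ) hη hP0 (by simp)
    (by simp [sq]) (by
      intro i u
      have : #{γ | x i γ = u} ≤ #(Finset.univ : Finset (ZMod P)) := by
        apply Finset.card_le_card_of_injOn Prod.snd (fun _ _ => Finset.mem_univ _)
        intro γ hγ γ' hγ' h
        simp only [Finset.coe_filter, Finset.mem_univ, true_and, Set.mem_ofPred_eq, hx] at hγ hγ'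
        have h2 := hne (n i) (by have := hn i; omega) (by simpa using (hz i i).2)
        refine Prod.ext (mul_left_cancel₀ h2 ?_) h
        rw [h] at hγ
        linear_combination hγ - hγ'
      rw [Finset.card_univ, ZMod.card] at this
      exact_mod_cast this) (by
      intro i l hil γ γ' h h'
      have h2 := hne (n i * μ l - n l * μ i) (sub_ne_zero.mpr (hprop i l hil)) (hz i l).1
      simp only [hx] at h h'
      push_cast at h h' h2
      apply Prod.ext
      · apply mul_left_cancel₀ h2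
        linear_combination (μ l : ZMod P) * h - (μ i : ZMod P) * h'
      · apply mul_left_cancel₀ h2
        linear_combination (n i : ZMod P) * h' - (n l : ZMod P) * h) (by
      intro ρ
      have : #{u | r u = ρ} ≤ #(range Λ ×ˢ (Finset.univ : Finset Bool)) := by
        apply Finset.card_le_card_of_injOn (fun u => (a u % Λ, decide (u.val ≤ P - u.val)))
        · intro u _
          simp [Nat.mod_lt _ hΛ0, le_or_gt]
        · intro u hu v hv h
          simp only [Finset.coe_filter, Finset.mem_univ, true_and, Set.mem_ofPred_eq] at hu hv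
          simp only [Prod.mk.injEq, decide_eq_decide] at h
          apply hainj u v _ h.2
          have h3 : a u / Λ = a v / Λ := congrArg Fin.val (hu.trans hv.symm)
          rw [← Nat.div_add_mod (a u) Λ, ← Nat.div_add_mod (a v) Λ, h3, h.1]
      rw [Finset.card_product, Finset.card_range, Finset.card_univ, Fintype.card_bool] at this
      have : (#{u | r u = ρ} : ℝ) ≤ Λ * 2 := by exact_mod_cast this
      linarith) (by
      have : #{u : ZMod P | ¬ (nb ≤ a u % Λ ∧ a u % Λ + nb < Λ)} ≤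
          #(range (P / Λ + 1) ×ˢ (range nb ∪ Ico (Λ - nb) Λ) ×ˢ (Finset.univ : Finset Bool)) := by
        apply Finset.card_le_card_of_injOn
          (fun u => (a u / Λ, a u % Λ, decide (u.val ≤ P - u.val)))
        · intro u hu
          simp only [Finset.coe_filter, Finset.mem_univ, true_and, Set.mem_ofPred_eq] at hu
          have h1 := Nat.mod_lt (a u) hΛ0
          have h2 : a u / Λ ≤ P / Λ := Nat.div_le_div_right (haP u)
          simp only [Finset.coe_product, Set.mem_prod, Finset.mem_coe, Finset.mem_range,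
            Finset.mem_union, Finset.mem_Ico, Finset.mem_univ, and_true]
          omega
        · intro u _ v _ h
          simp only [Prod.mk.injEq, decide_eq_decide] at h
          apply hainj u v _ h.2.2
          rw [← Nat.div_add_mod (a u) Λ, ← Nat.div_add_mod (a v) Λ, h.1, h.2.1]
      rw [Finset.card_product, Finset.card_product, Finset.card_range, Finset.card_univ,
        Fintype.card_bool] at this
      have h2 : #(range nb ∪ Ico (Λ - nb) Λ) ≤ 2 * nb := by
        refine (Finset.card_union_le _ _).trans ?_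
        rw [Finset.card_range, Nat.card_Ico]; omega
      have h3 : #{u : ZMod P | ¬ (nb ≤ a u % Λ ∧ a u % Λ + nb < Λ)} ≤
          (P / Λ + 1) * (2 * nb * 2) := this.trans (by gcongr)
      have h4 : ((P / Λ + 1 : ℕ) : ℝ) ≤ 2 * P / Λ := by
        have h5 : ((P / Λ : ℕ) : ℝ) ≤ P / Λ := Nat.cast_div_le
        have h6 : (1 : ℝ) ≤ P / Λ := by
          rw [le_div_iff₀ hΛ0', one_mul]; exact_mod_cast hPΛ
        push_cast
        rw [mul_div_assoc]; linarith
      have h5 : (#{u : ZMod P | ¬ (nb ≤ a u % Λ ∧ a u % Λ + nb < Λ)} : ℝ) ≤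
          ((P / Λ + 1 : ℕ) : ℝ) * (2 * nb * 2) := by exact_mod_cast h3
      calc G * _ ≤ G * (2 * P / Λ * (2 * nb * 2)) := by
            gcongr; exact h5.trans (by gcongr)
        _ = (16 * G * nb) * P / (2 * Λ) := by field_simp; ring
        _ ≤ (η * Λ) * P / (2 * Λ) := by gcongr
        _ = _ := by field_simp) (by
      have : (N₀ : ℝ) ≤ P := by exact_mod_cast hPN
      have h2 := hN₀.trans this
      rw [div_le_iff₀ (by positivity)] at h2
      linarith)
  refine ⟨P, Γ, inferInstance, fun γ => γ.1.1.val, fun γ => γ.1.2.val, fun i γ => (x i γ.1).val,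
    hPp.pos, fun i γ => ?_, fun i γ => ?_, fun i l γ γ' h => ?_, fun i u => ?_, ?_, ?_⟩
  · rw [← ZMod.intCast_zmod_eq_zero_iff_dvd]
    simp [hx]
  · have h2 := (hΓ1 _ γ.2 i).1.1.trans (Nat.mod_le _ _)
    have := ZMod.val_lt (x i γ.1)
    simp only [ha] at h2 ⊢
    omega
  · obtain ⟨⟨d1, d2⟩, c1⟩ := hΓ1 _ γ.2 i
    have c2 := (hΓ1 _ γ'.2 l).2
    rw [← c1, ← c2]
    congr 1
    apply Fin.ext
    simp only [hr]
    have e1 := Nat.div_add_mod (a (x i γ.1)) Λ
    have e2 : a (x l γ'.1) ≤ a (x i γ.1) + nb ∧ a (x i γ.1) ≤ a (x l γ'.1) + nb := by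
      have := ZMod.val_lt (x i γ.1)
      have := ZMod.val_lt (x l γ'.1)
      simp only [ha, abs_le] at h ⊢
      omega
    symm
    apply Nat.div_eq_of_lt_le
    · rw [mul_comm]; omega
    · rw [add_mul, mul_comm]; omega
  · refine le_trans ?_ (hΓ2 i (u : ZMod P))
    have : #{γ : Γ | (x i γ.1).val = u} ≤ #{γ ∈ Γ | x i γ = (u : ZMod P)} := by
      apply Finset.card_le_card_of_injOn Subtype.val
      · intro γ hγ
        simp only [Finset.coe_filter, Finset.mem_univ, true_and, Set.mem_ofPred_eq] at hγ ⊢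
        exact ⟨γ.2, by rw [← hγ, ZMod.natCast_zmod_val]⟩
      · exact Subtype.val_injective.injOn
    exact_mod_cast this
  · simpa using hΓ3
  · simpa using hΓ4

lemma exists_rank {Γ β : Type*} [Fintype Γ] [DecidableEq β] (f : Γ → β) (m : ℕ)
    (h : ∀ u, #{γ | f γ = u} ≤ m) :
    ∃ rk : Γ → Fin m, ∀ γ γ', f γ = f γ' → rk γ = rk γ' → γ = γ' := by
  have : ∀ u, Nonempty ({γ // f γ = u} ↪ Fin m) := fun u =>
    Function.Embedding.nonempty_of_card_le (by rw [Fintype.card_subtype, Fintype.card_fin]; exact h u)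
  set e := fun u => Classical.choice (this u)
  refine ⟨fun γ => e (f γ) ⟨γ, rfl⟩, fun γ γ' h1 h2 => ?_⟩
  have key : ∀ u (h : f γ' = u), e (f γ') ⟨γ', rfl⟩ = e u ⟨γ', h⟩ := by
    intro u h; subst h; rfl
  simp only at h2
  rw [key (f γ) h1.symm] at h2
  exact congrArg Subtype.val ((e (f γ)).injective h2)

lemma exists_moduli {ι : Type*} [Fintype ι] (Y : ι → ℝ) (hY : ∀ i, 0 < Y i) {η : ℝ} (hη : 0 < η)
    (R : ℕ) (hR : 0 < R) :
    ∃ (W : ℕ) (q : ι → ℕ), 0 < W ∧ (∀ i l, i ≠ l → Nat.Coprime (q i) (q l)) ∧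
      (∀ i, Nat.Coprime (q i) R) ∧ ∀ i, Y i * W + 1 ≤ q i ∧ q i ≤ (1 + η) * (Y i * W) := by
  rcases isEmpty_or_nonempty ι with hι | hι
  · exact ⟨1, fun _ => 1, one_pos, fun i => isEmptyElim i, fun i => isEmptyElim i,
      fun i => isEmptyElim i⟩
  set G : ℕ := Fintype.card ι with hG
  have hG0 : 0 < G := Fintype.card_pos
  obtain ⟨u, hu⟩ := exists_nat_ge (max (∑ i, 2 / (η * Y i)) 1)
  have hu1 : ∀ i, 2 ≤ η * (Y i * u) := by
    intro i
    have h1 : 2 / (η * Y i) ≤ u := (Finset.single_le_sum (f := fun i => 2 / (η * Y i))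
      (fun i _ => by have := hY i; positivity) (Finset.mem_univ i)).trans
      ((le_max_left _ _).trans hu)
    have := hY i
    rw [div_le_iff₀ (by positivity)] at h1
    linarith
  have hu0 : 0 < u := by
    have : (1 : ℝ) ≤ u := (le_max_right _ _).trans hu
    exact_mod_cast this
  set a : ι → ℕ := fun i => G * ⌈Y i * u⌉₊ + (Fintype.equivFin ι i : ℕ) with ha
  have hainj : ∀ i l, a i = a l → i = l := by
    intro i l h
    have h2 := congrArg (· % G) h
    simp only [ha, Nat.mul_add_mod] at h2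
    rw [Nat.mod_eq_of_lt (Fintype.equivFin ι i).2, Nat.mod_eq_of_lt (Fintype.equivFin ι l).2] at h2
    exact (Fintype.equivFin ι).injective (Fin.ext h2)
  set A : ℕ := ∑ i, a i with hA
  have haA : ∀ i, a i ≤ A := fun i =>
    Finset.single_le_sum (f := a) (fun _ _ => Nat.zero_le _) (Finset.mem_univ i)
  set W : ℕ := R * A.factorial with hW
  have hW0 : 0 < W := Nat.mul_pos hR (Nat.factorial_pos _)
  have hcop : ∀ b : ℕ, Nat.Coprime (b * W + 1) W := fun b => by simp
  have key : ∀ b c : ℕ, b < c → c ≤ A → Nat.Coprime (b * W + 1) (c * W + 1) := by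
    intro b c hbc hc
    obtain ⟨d, rfl⟩ := Nat.exists_eq_add_of_lt hbc
    have h1 : (b + d + 1) * W + 1 = (b * W + 1) + (d + 1) * W := by ring
    rw [h1, Nat.coprime_self_add_right]
    apply Nat.Coprime.mul_right _ (hcop b)
    apply (hcop b).coprime_dvd_right
    exact Dvd.dvd.mul_left (Nat.dvd_factorial (by omega) (by omega)) _
  refine ⟨u * G * W, fun i => a i * W + 1, by positivity, fun i l hil => ?_, fun i => ?_,
    fun i => ?_⟩
  · rcases lt_trichotomy (a i) (a l) with h | h | h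
    · exact key _ _ h (haA _)
    · exact absurd (hainj _ _ h) hil
    · exact (key _ _ h (haA _)).symm
  · exact (hcop _).coprime_dvd_right (Dvd.intro _ rfl)
  · have h1 : Y i * u ≤ ⌈Y i * u⌉₊ := Nat.le_ceil _
    have hYi := hY i
    have h2 : (⌈Y i * u⌉₊ : ℝ) < Y i * u + 1 := Nat.ceil_lt_add_one (by positivity)
    have h3 : ((Fintype.equivFin ι i : ℕ) : ℝ) + 1 ≤ G := by
      exact_mod_cast (Fintype.equivFin ι i).2
    have h4 : (0 : ℝ) ≤ ((Fintype.equivFin ι i : ℕ) : ℝ) := Nat.cast_nonneg _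
    have hG' : (0 : ℝ) < G := by exact_mod_cast hG0
    have hW' : (1 : ℝ) ≤ W := by exact_mod_cast hW0
    have h5 : (a i : ℝ) = G * ⌈Y i * u⌉₊ + (Fintype.equivFin ι i : ℕ) := by simp [ha]
    have h6 : G * (Y i * u) ≤ a i := by rw [h5]; nlinarith
    have h7 : (a i : ℝ) + 1 ≤ (1 + η) * (G * (Y i * u)) := by
      have := hu1 i
      rw [h5]; nlinarith
    push_cast
    constructor
    · have : G * (Y i * u) * W ≤ a i * W := by gcongr
      linarith
    · have : ((a i : ℝ) + 1) * W ≤ (1 + η) * (G * (Y i * u)) * W := by gcongr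
      nlinarith

lemma crt {ι : Type*} [Finite ι] (q : ι → ℤ) (hq : ∀ i l, i ≠ l → IsCoprime (q i) (q l))
    (n : ι → ℤ) (hn : ∀ i, IsCoprime (n i) (q i)) (t : ι → ℤ) :
    ∃ y : ℤ, ∀ i, q i ∣ n i * y - t i := by
  choose u v huv using hn
  obtain ⟨y, hy⟩ := Ideal.exists_forall_sub_mem_ideal (I := fun i => Ideal.span {q i})
    (fun i l hil => (Ideal.isCoprime_span_singleton_iff _ _).mpr (hq i l hil))
    (fun i => u i * t i)
  refine ⟨y, fun i => ?_⟩
  obtain ⟨c, hc⟩ := Ideal.mem_span_singleton.mp (hy i)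
  exact ⟨n i * c - v i * t i, by linear_combination n i * hc + t i * huv i⟩

lemma sum_frac {ι : Type*} (s : Finset ι) (q Δ : ι → ℤ) (h0 : ∀ i, q i ≠ 0)
    (hq : ∀ i l, i ≠ l → IsCoprime (q i) (q l)) (hΔ : ∀ i ∈ s, IsCoprime (Δ i) (q i)) :
    ∃ D : ℤ, IsCoprime D (∏ i ∈ s, q i) ∧
      ∑ i ∈ s, (Δ i : ℝ) / q i = D / ((∏ i ∈ s, q i : ℤ) : ℝ) := by
  classical
  induction s using Finset.induction_on with
  | empty => exact ⟨0, by simp [isCoprime_one_right], by simp⟩
  | insert a s ha ih =>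
    obtain ⟨D, hD1, hD2⟩ := ih fun i hi => hΔ i (Finset.mem_insert_of_mem hi)
    have hc : IsCoprime (q a) (∏ i ∈ s, q i) :=
      IsCoprime.prod_right fun i hi => hq a i (fun h => ha (h ▸ hi))
    refine ⟨Δ a * ∏ i ∈ s, q i + q a * D, ?_, ?_⟩
    · rw [Finset.prod_insert ha]
      apply IsCoprime.mul_right
      · exact ((hΔ a (Finset.mem_insert_self _ _)).mul_left hc.symm).add_mul_left_left _
      · rw [add_comm]
        exact (hc.mul_left hD1).add_mul_right_left _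
    · rw [Finset.sum_insert ha, Finset.prod_insert ha, hD2]
      have h1 : (q a : ℝ) ≠ 0 := by exact_mod_cast h0 a
      have h2 : ((∏ i ∈ s, q i : ℤ) : ℝ) ≠ 0 := by
        exact_mod_cast Finset.prod_ne_zero_iff.mpr fun i _ => h0 i
      rw [Int.cast_add, Int.cast_mul, Int.cast_mul, Int.cast_mul]
      field_simp

lemma gauss (Q : ℕ) (hQ : 0 < Q) (D : ℤ) (hD : IsCoprime (2 * D) (Q : ℤ)) :
    ∃ γ : Fin Q → ℂ, (∀ ξ, ‖γ ξ‖ ^ 2 = 1 / Q) ∧
      ∀ k : ℤ, ee (k ^ 2 * (D / Q)) = ∑ ξ, γ ξ * ee (-(k * (ξ / Q))) := by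
  have : NeZero Q := ⟨hQ.ne'⟩
  set ψ : AddChar (ZMod Q) ℂ := ZMod.stdAddChar with hψ
  have hprim : ψ.IsPrimitive := ZMod.isPrimitive_stdAddChar Q
  have hee : ∀ j : ℤ, ψ (j : ZMod Q) = ee (j / Q) := by
    intro j
    rw [hψ, ZMod.stdAddChar_coe]; unfold ee; congr 1; push_cast; ring
  have hunit : IsUnit ((2 * D : ℤ) : ZMod Q) := (ZMod.coe_int_isUnit_iff_isCoprime _ _).mpr hD.symm
  have hQ' : (Q : ℂ) ≠ 0 := by exact_mod_cast hQ.ne'
  have hQ'' : (Q : ℝ) ≠ 0 := by exact_mod_cast hQ.ne'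
  set S : ZMod Q → ℂ := fun ξ => ∑ h : ZMod Q, ψ (D * h ^ 2 + ξ * h) with hS
  have hnorm : ∀ ξ, ‖S ξ‖ ^ 2 = Q := by
    intro ξ
    apply Complex.ofReal_injective
    rw [← Complex.normSq_eq_norm_sq, ← Complex.mul_conj]
    simp only [hS, map_sum, ← AddChar.map_neg_eq_conj]
    rw [Finset.sum_mul_sum, Finset.sum_comm]
    have e1 : ∀ h' : ZMod Q, ∑ h : ZMod Q, ψ (D * h ^ 2 + ξ * h) * ψ (-(D * h' ^ 2 + ξ * h')) =
        ∑ r : ZMod Q, ψ (D * r ^ 2 + ξ * r) * ψ (h' * (((2 * D : ℤ) : ZMod Q) * r)) := by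
      intro h'
      rw [← Equiv.sum_comp (Equiv.addRight h')]
      apply Finset.sum_congr rfl
      intro r _
      rw [← AddChar.map_add_eq_mul, ← AddChar.map_add_eq_mul]
      congr 1
      simp only [Equiv.coe_addRight]
      push_cast; ring
    simp_rw [e1]
    rw [Finset.sum_comm]
    simp_rw [← Finset.mul_sum, AddChar.sum_mulShift _ hprim, hunit.mul_right_eq_zero]
    rw [Finset.sum_eq_single 0]
    · simp
    · intro b _ hb; simp [hb]
    · simp
  have hinv : ∀ k : ℤ, ee (k ^ 2 * (D / Q)) =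
      ∑ ξ : ZMod Q, S ξ / Q * ee (-(k * (ξ.val / Q))) := by
    intro k
    have e1 : ∀ ξ : ZMod Q, ee (-(k * (ξ.val / Q))) = ψ (ξ * -k) := by
      intro ξ
      have := hee (ξ.val * -k)
      push_cast at this
      rw [ZMod.natCast_zmod_val] at this
      rw [this]; congr 1; ring
    have e2 : ee (k ^ 2 * (D / Q)) = ψ (D * k ^ 2) := by
      have := hee (D * k ^ 2)
      push_cast at this
      rw [this]; congr 1; ring
    simp_rw [e1, e2, hS, div_mul_eq_mul_div, Finset.sum_mul]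
    rw [← Finset.sum_div, Finset.sum_comm]
    have e3 : ∀ h ξ : ZMod Q, ψ (D * h ^ 2 + ξ * h) * ψ (ξ * -k) =
        ψ (D * h ^ 2) * ψ (ξ * (h - k)) := by
      intro h ξ
      rw [← AddChar.map_add_eq_mul, ← AddChar.map_add_eq_mul]; congr 1; ring
    simp_rw [e3, ← Finset.mul_sum, AddChar.sum_mulShift _ hprim, sub_eq_zero]
    rw [Finset.sum_eq_single (k : ZMod Q)]
    · simp [hQ']
    · intro b _ hb; simp [hb]
    · simp
  obtain ⟨m, rfl⟩ := Nat.exists_eq_succ_of_ne_zero hQ.ne'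
  refine ⟨fun ξ : ZMod (m + 1) => S ξ / (m + 1 : ℕ), fun ξ => ?_, fun k => hinv k⟩
  rw [norm_div, div_pow, hnorm, Complex.norm_natCast]
  field_simp

end Crest.Agent.R75
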