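import Mathlib

set_option autoImplicit false
set_option linter.unusedSectionVars false

namespace Crest.Agent.R75

open Finset

section prob

variable {ι R : Type*} [Fintype ι] [DecidableEq ι] [Fintype R] [DecidableEq R]

/-- expectation over independent colours with law `w` -/
noncomputable def Ex (w : ι → ℝ) (f : (R → ι) → ℝ) : ℝ := ∑ κ : R → ι, (∏ r, w (κ r)) * f κ

variable {w : ι → ℝ}

lemma Ex_add (f g : (R → ι) → ℝ) : Ex w (fun κ => f κ + g κ) = Ex w f + Ex w g := by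
  simp [Ex, mul_add, Finset.sum_add_distrib]

lemma Ex_sub (f g : (R → ι) → ℝ) : Ex w (fun κ => f κ - g κ) = Ex w f - Ex w g := by
  simp [Ex, mul_sub, Finset.sum_sub_distrib]

lemma Ex_const_mul (c : ℝ) (f : (R → ι) → ℝ) : Ex w (fun κ => c * f κ) = c * Ex w f := by
  simp [Ex, Finset.mul_sum, mul_left_comm]

lemma Ex_sum {α : Type*} (s : Finset α) (f : α → (R → ι) → ℝ) :
    Ex w (fun κ => ∑ a ∈ s, f a κ) = ∑ a ∈ s, Ex w (f a) := by
  simp only [Ex, Finset.mul_sum]; rw [Finset.sum_comm]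

lemma Ex_mono (hw : ∀ i, 0 ≤ w i) {f g : (R → ι) → ℝ} (h : ∀ κ, f κ ≤ g κ) : Ex w f ≤ Ex w g :=
  Finset.sum_le_sum fun κ _ =>
    mul_le_mul_of_nonneg_left (h κ) (Finset.prod_nonneg fun _ _ => hw _)

lemma Ex_const (h1 : ∑ i, w i = 1) (c : ℝ) : Ex w (fun _ : R → ι => c) = c := by
  have h2 := Finset.prod_univ_sum (fun _ : R => (Finset.univ : Finset ι)) (fun _ j => w j)
  rw [Fintype.piFinset_univ] at h2
  simp only [Ex]
  rw [← Finset.sum_mul, ← h2]; simp [h1]

lemma exists_ge_Ex (hw : ∀ i, 0 < w i) (h1 : ∑ i, w i = 1) (f : (R → ι) → ℝ) :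
    ∃ κ, Ex w f ≤ f κ := by
  have hne : Nonempty ι := by
    by_contra h
    rw [not_nonempty_iff] at h
    simp at h1
  obtain ⟨κ, -, hκ⟩ := Finset.exists_max_image (Finset.univ : Finset (R → ι)) f
    Finset.univ_nonempty
  refine ⟨κ, ?_⟩
  rw [← Ex_const (R := R) h1 (f κ)]
  exact Ex_mono (fun i => (hw i).le) fun κ' => hκ κ' (Finset.mem_univ _)

/-- indicator that the runs `ρ a` get the colours `τ a` -/
noncomputable def ind {A : Type*} (s : Finset A) (ρ : A → R) (τ : A → ι) (κ : R → ι) : ℝ :=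
  ∏ a ∈ s, if κ (ρ a) = τ a then 1 else 0

lemma ind_nonneg {A : Type*} (s : Finset A) (ρ : A → R) (τ : A → ι) (κ : R → ι) :
    0 ≤ ind s ρ τ κ := Finset.prod_nonneg fun a _ => by split_ifs <;> norm_num

lemma ind_le_one {A : Type*} (s : Finset A) (ρ : A → R) (τ : A → ι) (κ : R → ι) :
    ind s ρ τ κ ≤ 1 := Finset.prod_le_one (fun a _ => by split_ifs <;> norm_num)
      (fun a _ => by split_ifs <;> norm_num)

lemma ind_eq {A : Type*} (s : Finset A) (ρ : A → R) (τ : A → ι) (κ : R → ι)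
    [Decidable (∀ a ∈ s, κ (ρ a) = τ a)] :
    ind s ρ τ κ = if ∀ a ∈ s, κ (ρ a) = τ a then 1 else 0 := by
  unfold ind
  split_ifs with h
  · exact Finset.prod_eq_one fun a ha => if_pos (h a ha)
  · push Not at h
    obtain ⟨a, ha, h⟩ := h
    exact Finset.prod_eq_zero ha (if_neg h)

lemma Ex_ind (h1 : ∑ i, w i = 1) {A : Type*} (s : Finset A) (ρ : A → R) (τ : A → ι)
    (hρ : Set.InjOn ρ s) : Ex w (ind s ρ τ) = ∏ a ∈ s, w (τ a) := by
  classical
  have h2 := Finset.prod_univ_sum (fun _ : R => (Finset.univ : Finset ι))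
    (fun r j => w j * ∏ a ∈ s with ρ a = r, if j = τ a then (1 : ℝ) else 0)
  rw [Fintype.piFinset_univ] at h2
  have h3 : Ex w (ind s ρ τ) = ∑ κ : R → ι, ∏ r, (w (κ r) *
      ∏ a ∈ s with ρ a = r, if κ r = τ a then (1 : ℝ) else 0) := by
    apply Finset.sum_congr rfl
    intro κ _
    rw [Finset.prod_mul_distrib]
    congr 1
    unfold ind
    rw [← Finset.prod_fiberwise s ρ]
    apply Finset.prod_congr rfl
    intro r _
    apply Finset.prod_congr rfl
    intro a ha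
    rw [(Finset.mem_filter.mp ha).2]
  rw [h3, ← h2, ← Finset.prod_fiberwise s ρ]
  apply Finset.prod_congr rfl
  intro r _
  by_cases h : ∃ a ∈ s, ρ a = r
  · obtain ⟨a, ha, rfl⟩ := h
    have : s.filter (fun b => ρ b = ρ a) = {a} := by
      ext b
      simp only [Finset.mem_filter, Finset.mem_singleton]
      exact ⟨fun hb => hρ hb.1 ha hb.2, fun hb => by subst hb; exact ⟨ha, rfl⟩⟩
    simp [this]
  · push Not at h
    have : s.filter (fun b => ρ b = r) = ∅ := Finset.filter_eq_empty_iff.mpr h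
    simp [this, h1]

lemma Ex_ind_mul (h1 : ∑ i, w i = 1) {A : Type*} (s : Finset A) (ρ ρ' : A → R) (τ : A → ι)
    (hρ : Set.InjOn ρ s) (hρ' : Set.InjOn ρ' s) (hd : ∀ a ∈ s, ∀ b ∈ s, ρ a ≠ ρ' b) :
    Ex w (fun κ => ind s ρ τ κ * ind s ρ' τ κ) = (∏ a ∈ s, w (τ a)) ^ 2 := by
  have := Ex_ind h1 (s.disjSum s) (Sum.elim ρ ρ') (Sum.elim τ τ) (by
    rintro (a | a) ha (b | b) hb h <;>
      simp only [Finset.mem_coe, Finset.inl_mem_disjSum, Finset.inr_mem_disjSum, Sum.elim_inl,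
        Sum.elim_inr] at ha hb h
    · rw [hρ ha hb h]
    · exact absurd h (hd a ha b hb)
    · exact absurd h.symm (hd b hb a ha)
    · rw [hρ' ha hb h])
  rw [Finset.prod_disjSum] at this
  simp only [Sum.elim_inl, Sum.elim_inr] at this
  rw [sq, ← this]
  congr 1; funext κ
  unfold ind
  rw [Finset.prod_disjSum]
  rfl

end prob

lemma card_imp_le {α : Type*} [Fintype α] (p q : α → Prop) [DecidablePred p] [DecidablePred q]
    (h : ∀ a, p a → q a) : (#{a | p a} : ℝ) ≤ #{a | q a} := by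
  exact_mod_cast Finset.card_le_card (Finset.monotone_filter_right _ fun a _ => h a)

lemma card_or_le {α : Type*} [Fintype α] (p q r : α → Prop) [DecidablePred p] [DecidablePred q]
    [DecidablePred r] (h : ∀ a, p a → q a ∨ r a) :
    (#{a | p a} : ℝ) ≤ #{a | q a} + #{a | r a} := by
  classical
  refine (card_imp_le p (fun a => q a ∨ r a) h).trans ?_
  rw [Finset.filter_or]
  exact_mod_cast Finset.card_union_le _ _

lemma card_exists_le_sum {α β : Type*} [Fintype α] [Fintype β] (q : α → Prop) [DecidablePred q]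
    (p : β → α → Prop) [∀ b, DecidablePred (p b)] (hq : ∀ a, q a → ∃ b, p b a) :
    (#{a | q a} : ℝ) ≤ ∑ b, (#{a | p b a} : ℝ) := by
  classical
  have : Finset.univ.filter q ⊆ Finset.univ.biUnion fun b => Finset.univ.filter (p b) := by
    intro a ha
    simpa using hq a (by simpa using ha)
  exact_mod_cast (Finset.card_le_card this).trans Finset.card_biUnion_le

lemma card_exists_le {α β : Type*} [Fintype α] [Fintype β] (q : α → Prop) [DecidablePred q]
    (p : β → α → Prop) [∀ b, DecidablePred (p b)] (hq : ∀ a, q a → ∃ b, p b a) (c : ℝ)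
    (h : ∀ b, (#{a | p b a} : ℝ) ≤ c) : (#{a | q a} : ℝ) ≤ Fintype.card β * c := by
  refine (card_exists_le_sum q p hq).trans ?_
  exact (Finset.sum_le_sum fun b _ => h b).trans (by simp)

theorem colouring {ι Γ₀ X R : Type*} [Fintype ι] [DecidableEq ι] [Fintype Γ₀] [Fintype X]
    [DecidableEq X] [Fintype R] [DecidableEq R] {w : ι → ℝ} (hw : ∀ i, 0 < w i)
    (h1 : ∑ i, w i = 1) (x : ι → Γ₀ → X) (r : X → R) (Dp : X → Prop) [DecidablePred Dp]
    {P L η : ℝ} (hη : 0 < η) (hP : 0 < P) (hX : (Fintype.card X : ℝ) = P)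
    (hΓ : (Fintype.card Γ₀ : ℝ) = P ^ 2) (hfib : ∀ i u, (#{γ | x i γ = u} : ℝ) ≤ P)
    (hpair : ∀ i l, i ≠ l → ∀ γ γ', x i γ = x i γ' → x l γ = x l γ' → γ = γ')
    (hr : ∀ ρ, (#{u | r u = ρ} : ℝ) ≤ L)
    (hD : Fintype.card ι * (#{u | ¬ Dp u} : ℝ) ≤ η / 2 * P)
    (hbig : (Fintype.card ι : ℝ) ^ 2 * L + 3 * (Fintype.card ι : ℝ) ^ 3 * L /
      (η ^ 2 * (∏ i, w i) ^ 3) ≤ η / 2 * P) :
    ∃ (κ : R → ι) (Γ : Finset Γ₀), (∀ γ ∈ Γ, ∀ i, Dp (x i γ) ∧ κ (r (x i γ)) = i) ∧
      (∀ i u, (#{γ ∈ Γ | x i γ = u} : ℝ) ≤ (1 + η) * P * ∏ l ∈ univ.erase i, w l) ∧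
      (1 - η) * P ^ 2 * ∏ i, w i ≤ #Γ ∧ #Γ ≤ (1 + η) * P ^ 2 * ∏ i, w i := by
  classical
  set G : ℝ := (Fintype.card ι : ℝ) with hG
  set pi0 : ℝ := ∏ i, w i with hpi0
  set pi1 : ι → ℝ := fun i => ∏ l ∈ univ.erase i, w l with hpi1
  have hw1 : ∀ i, w i ≤ 1 := fun i => h1 ▸
    Finset.single_le_sum (fun i _ => (hw i).le) (Finset.mem_univ i)
  have hp0 : 0 < pi0 := Finset.prod_pos fun i _ => hw i
  have hp1 : ∀ i, 0 < pi1 i := fun i => Finset.prod_pos fun i _ => hw i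
  have hp2 : ∀ i, pi1 i ≤ 1 := fun i =>
    Finset.prod_le_one (fun i _ => (hw i).le) (fun i _ => hw1 i)
  have hp3 : ∀ i, w i * pi1 i = pi0 := fun i => Finset.mul_prod_erase _ _ (Finset.mem_univ i)
  have hp4 : ∀ i, pi0 ≤ pi1 i := fun i => by
    rw [← hp3 i]; exact mul_le_of_le_one_left (hp1 i).le (hw1 i)
  have hG0 : 0 ≤ G := Nat.cast_nonneg _
  have hL0 : 0 ≤ L := by
    have : Nonempty X := by
      rw [← Fintype.card_pos_iff]
      have : (0 : ℝ) < Fintype.card X := hX ▸ hP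
      exact_mod_cast this
    obtain ⟨u⟩ := this
    exact (Nat.cast_nonneg _).trans (hr (r u))
  have c2 : ∀ i l, i ≠ l → ∀ u ρ, (#{γ | x i γ = u ∧ r (x l γ) = ρ} : ℝ) ≤ L := by
    intro i l hil u ρ
    refine le_trans ?_ (hr ρ)
    have : #{γ | x i γ = u ∧ r (x l γ) = ρ} ≤ #{u | r u = ρ} := by
      apply Finset.card_le_card_of_injOn (x l)
      · intro γ hγ
        simp only [Finset.coe_filter, Finset.mem_univ, true_and, Set.mem_ofPred_eq] at hγ ⊢
        exact hγ.2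
      · intro γ hγ γ' hγ' h
        simp only [Finset.coe_filter, Finset.mem_univ, true_and, Set.mem_ofPred_eq] at hγ hγ'
        exact hpair i l hil γ γ' (hγ.1.trans hγ'.1.symm) h
    exact_mod_cast this
  have hfw : ∀ (i : ι) (p : Γ₀ → Prop) [DecidablePred p],
      (#{γ | p γ} : ℝ) = ∑ u, (#{γ | p γ ∧ x i γ = u} : ℝ) := by
    intro i p _
    rw [Finset.card_eq_sum_card_fiberwise (f := x i) (t := Finset.univ)
      (fun _ _ => Finset.mem_univ _)]
    push_cast
    simp_rw [Finset.filter_filter]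
  set ND : Γ₀ → Prop := fun γ => Function.Injective fun l => r (x l γ) with hND
  have c1 : (#{γ | ¬ ND γ} : ℝ) ≤ G ^ 2 * (P * L) := by
    refine (card_exists_le _ (fun (b : ι × ι) γ => b.1 ≠ b.2 ∧ r (x b.1 γ) = r (x b.2 γ))
      (fun γ hγ => ?_) (P * L) fun b => ?_).trans (le_of_eq ?_)
    · simp only [hND, Function.Injective, not_forall] at hγ
      obtain ⟨a, b, h, h'⟩ := hγ
      exact ⟨(a, b), h', h⟩
    · by_cases hb : b.1 = b.2
      · simp [hb]; positivity
      · rw [hfw b.1, ← hX]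
        refine (Finset.sum_le_card_nsmul _ _ L fun u _ => ?_).trans (by simp)
        refine le_trans ?_ (c2 b.1 b.2 hb u (r u))
        exact card_imp_le _ _ fun γ hγ => ⟨hγ.2, by rw [← hγ.1.2, hγ.2]⟩
    · rw [Fintype.card_prod]; push_cast; ring
  have c3 : (#{γ | ∃ l, ¬ Dp (x l γ)} : ℝ) ≤ η / 2 * P ^ 2 := by
    refine (card_exists_le _ (fun l γ => ¬ Dp (x l γ)) (fun _ h => h) (#{u | ¬ Dp u} * P)
      fun l => ?_).trans ?_
    · rw [Finset.card_eq_sum_card_fiberwise (f := x l) (t := {u | ¬ Dp u})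
        (fun γ hγ => by simpa using hγ)]
      push_cast
      refine (Finset.sum_le_card_nsmul _ _ P fun u _ => ?_).trans (by simp)
      refine le_trans ?_ (hfib l u)
      exact_mod_cast Finset.card_le_card
        (Finset.filter_subset_filter _ (Finset.filter_subset _ _))
    · calc _ = (G * #{u | ¬ Dp u}) * P := by ring
        _ ≤ (η / 2 * P) * P := by gcongr
        _ = _ := by ring
  set a : ι → Γ₀ → (R → ι) → ℝ := fun i γ κ =>
    if ND γ then ind (univ.erase i) (fun l => r (x l γ)) id κ else 0 with ha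
  have ha0 : ∀ i γ κ, 0 ≤ a i γ κ := fun i γ κ => by
    simp only [ha]; split_ifs; exacts [ind_nonneg _ _ _ _, le_rfl]
  have ha1 : ∀ i γ κ, a i γ κ ≤ 1 := fun i γ κ => by
    simp only [ha]; split_ifs; exacts [ind_le_one _ _ _ _, zero_le_one]
  have Ea : ∀ i γ, Ex w (a i γ) = if ND γ then pi1 i else 0 := by
    intro i γ
    simp only [ha]
    split_ifs with h
    · exact Ex_ind h1 _ _ _ h.injOn
    · exact Ex_const h1 0
  have Eaa : ∀ i γ γ', Ex w (fun κ => a i γ κ * a i γ' κ) ≤ pi1 i ^ 2 +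
      if ∃ b : ι × ι, b.2 ≠ i ∧ r (x b.2 γ') = r (x b.1 γ) then 1 else 0 := by
    intro i γ γ'
    split_ifs with h
    · refine (Ex_mono (fun i => (hw i).le) (g := fun _ => 1) fun κ =>
        mul_le_one₀ (ha1 _ _ _) (ha0 _ _ _) (ha1 _ _ _)).trans ?_
      rw [Ex_const h1]; linarith [sq_nonneg (pi1 i)]
    · push Not at h
      rw [add_zero]
      by_cases h2 : ND γ ∧ ND γ'
      · simp only [ha, if_pos h2.1, if_pos h2.2]
        exact (Ex_ind_mul h1 _ _ _ _ h2.1.injOn h2.2.injOn fun l _ l' hl' =>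
          (h (l, l') (Finset.ne_of_mem_erase hl')).symm).le
      · have : (fun κ => a i γ κ * a i γ' κ) = fun _ => 0 := by
          funext κ
          simp only [ha]
          rcases not_and_or.mp h2 with h3 | h3 <;> simp [h3]
        rw [this, Ex_const h1]; positivity
  set Z : ι → X → (R → ι) → ℝ := fun i u κ => ∑ γ with x i γ = u, a i γ κ with hZ
  have hNDc : P ^ 2 - G ^ 2 * (P * L) ≤ (#{γ | ND γ} : ℝ) := by
    have := Finset.card_filter_add_card_filter_not (s := (Finset.univ : Finset Γ₀)) ND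
    rw [Finset.card_univ] at this
    have : (#{γ | ND γ} : ℝ) + #{γ | ¬ ND γ} = P ^ 2 := by rw [← hΓ]; exact_mod_cast this
    linarith
  have EV : ∀ i, Ex w (fun κ => ∑ u, (Z i u κ - P * pi1 i) ^ 2) ≤ 3 * P ^ 2 * G ^ 2 * L := by
    intro i
    have e1 : ∀ κ, ∑ u, (Z i u κ - P * pi1 i) ^ 2 =
        ∑ γ, ∑ γ' with x i γ' = x i γ, a i γ κ * a i γ' κ - (2 * P * pi1 i) * ∑ γ, a i γ κ +
          P * (P * pi1 i) ^ 2 := by
      intro κ
      have f1 : ∑ u, Z i u κ = ∑ γ, a i γ κ := Finset.sum_fiberwise _ _ _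
      have f2 : ∑ u, Z i u κ ^ 2 = ∑ γ, ∑ γ' with x i γ' = x i γ, a i γ κ * a i γ' κ := by
        rw [← Finset.sum_fiberwise (g := x i)]
        apply Finset.sum_congr rfl
        intro u _
        simp only [hZ]
        rw [sq, Finset.sum_mul_sum]
        apply Finset.sum_congr rfl
        intro γ hγ
        rw [(Finset.mem_filter.mp hγ).2]
      rw [← f1, ← f2, Finset.mul_sum, ← Finset.sum_sub_distrib]
      have : P * (P * pi1 i) ^ 2 = ∑ _u : X, (P * pi1 i) ^ 2 := by simp [hX]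
      rw [this, ← Finset.sum_add_distrib]
      apply Finset.sum_congr rfl
      intro u _; ring
    simp_rw [e1]
    rw [Ex_add, Ex_sub, Ex_const_mul, Ex_const h1, Ex_sum, Ex_sum]
    simp_rw [Ea]
    have e2 : ∀ γ, Ex w (fun κ => ∑ γ' with x i γ' = x i γ, a i γ κ * a i γ' κ) ≤
        P * pi1 i ^ 2 + G ^ 2 * L := by
      intro γ
      rw [Ex_sum]
      refine (Finset.sum_le_sum fun γ' _ => Eaa i γ γ').trans ?_
      rw [Finset.sum_add_distrib, Finset.sum_const, nsmul_eq_mul]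
      apply add_le_add (mul_le_mul_of_nonneg_right (hfib _ _) (sq_nonneg _))
      rw [Finset.sum_boole, Finset.filter_filter]
      refine (card_exists_le _
        (fun (b : ι × ι) γ' => b.2 ≠ i ∧ x i γ' = x i γ ∧ r (x b.2 γ') = r (x b.1 γ))
        (fun γ' ⟨h, b, h1, h2⟩ => ⟨b, h1, h, h2⟩) L fun b => ?_).trans (le_of_eq ?_)
      · by_cases hb : b.2 = i
        · simp [hb, hL0]
        · simpa [hb] using c2 i b.2 (Ne.symm hb) (x i γ) (r (x b.1 γ))
      · rw [Fintype.card_prod]; push_cast; ring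
    have e3 := Finset.sum_le_card_nsmul Finset.univ _ _ fun γ _ => e2 γ
    rw [Finset.card_univ, nsmul_eq_mul, hΓ] at e3
    have e4 : ∑ γ, (if ND γ then pi1 i else 0) = #{γ | ND γ} * pi1 i := by
      rw [← Finset.sum_filter, Finset.sum_const, nsmul_eq_mul]
    rw [e4]
    have e5 : (2 * P * pi1 i) * ((P ^ 2 - G ^ 2 * (P * L)) * pi1 i) ≤
        (2 * P * pi1 i) * (#{γ | ND γ} * pi1 i) := by
      have := hp1 i
      gcongr
    have e6 : pi1 i ^ 2 ≤ 1 := pow_le_one₀ (hp1 i).le (hp2 i)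
    have e7 : P ^ 2 * G ^ 2 * L * pi1 i ^ 2 ≤ P ^ 2 * G ^ 2 * L * 1 := by gcongr
    nlinarith
  set Φ : (R → ι) → ℝ := fun κ =>
    (∑ γ with (ND γ ∧ ∀ l, Dp (x l γ)), ind univ (fun l => r (x l γ)) id κ) -
      ∑ i, (P / (η * P * pi1 i) ^ 2) * ∑ u, (Z i u κ - P * pi1 i) ^ 2 with hΦ
  have EΦ : (1 - η) * P ^ 2 * pi0 ≤ Ex w Φ := by
    simp only [hΦ]
    rw [Ex_sub, Ex_sum, Ex_sum]
    have e1 : ∑ γ with (ND γ ∧ ∀ l, Dp (x l γ)), Ex w (ind univ (fun l => r (x l γ)) id) =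
        #{γ | ND γ ∧ ∀ l, Dp (x l γ)} * pi0 := by
      rw [← nsmul_eq_mul, ← Finset.sum_const]
      apply Finset.sum_congr rfl
      intro γ hγ
      exact Ex_ind h1 _ _ _ (Finset.mem_filter.mp hγ).2.1.injOn
    have e2 : P ^ 2 - G ^ 2 * (P * L) - η / 2 * P ^ 2 ≤ (#{γ | ND γ ∧ ∀ l, Dp (x l γ)} : ℝ) := by
      have f2 : (#{γ | ND γ} : ℝ) ≤ #{γ | ND γ ∧ ∀ l, Dp (x l γ)} + #{γ | ∃ l, ¬ Dp (x l γ)} := by
        apply card_or_le
        intro γ hγ
        by_cases h : ∀ l, Dp (x l γ)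
        · exact Or.inl ⟨hγ, h⟩
        · exact Or.inr (not_forall.mp h)
      linarith
    have e3 : ∀ i, Ex w (fun κ => (P / (η * P * pi1 i) ^ 2) * ∑ u, (Z i u κ - P * pi1 i) ^ 2) ≤
        3 * P * G ^ 2 * L / (η ^ 2 * pi0 ^ 2) := by
      intro i
      rw [Ex_const_mul]
      have := hp1 i
      calc _ ≤ (P / (η * P * pi1 i) ^ 2) * (3 * P ^ 2 * G ^ 2 * L) := by gcongr; exact EV i
        _ = 3 * P * G ^ 2 * L / (η ^ 2 * pi1 i ^ 2) := by field_simp
        _ ≤ _ := by gcongr; exact hp4 i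
    have e4 := Finset.sum_le_card_nsmul Finset.univ _ _ fun i _ => e3 i
    rw [Finset.card_univ, nsmul_eq_mul, ← hG] at e4
    rw [e1]
    have e5 := mul_le_mul_of_nonneg_right e2 hp0.le
    have e6 := mul_le_mul_of_nonneg_right hbig (mul_pos hP hp0).le
    have e7 : 3 * G ^ 3 * L / (η ^ 2 * pi0 ^ 3) * (P * pi0) =
        G * (3 * P * G ^ 2 * L / (η ^ 2 * pi0 ^ 2)) := by field_simp
    rw [add_mul, e7] at e6
    nlinarith
  obtain ⟨κ, hκ⟩ := exists_ge_Ex hw h1 Φ
  set Γ : Finset Γ₀ := {γ | (ND γ ∧ ∀ l, Dp (x l γ)) ∧ (∀ l, κ (r (x l γ)) = l) ∧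
    ∀ i, Z i (x i γ) κ ≤ (1 + η) * P * pi1 i} with hΓdef
  have hload : ∀ i u, (#{γ ∈ Γ | x i γ = u} : ℝ) ≤ (1 + η) * P * pi1 i := by
    intro i u
    rcases Finset.eq_empty_or_nonempty {γ ∈ Γ | x i γ = u} with h | ⟨γ₀, h⟩
    · rw [h]; have := hp1 i; simp; positivity
    · simp only [hΓdef, Finset.mem_filter, Finset.mem_univ, true_and] at h
      refine le_trans ?_ (h.1.2.2 i)
      rw [h.2]
      simp only [hZ]
      rw [Finset.card_eq_sum_ones]
      push_cast
      calc ∑ _γ ∈ Γ with x i _γ = u, (1 : ℝ) = ∑ γ ∈ Γ with x i γ = u, a i γ κ := by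
            apply Finset.sum_congr rfl
            intro γ hγ
            simp only [hΓdef, Finset.mem_filter, Finset.mem_univ, true_and] at hγ
            simp only [ha, if_pos hγ.1.1.1]
            rw [ind_eq, if_pos]
            exact fun l _ => hγ.1.2.1 l
        _ ≤ _ := Finset.sum_le_sum_of_subset_of_nonneg
            (Finset.filter_subset_filter _ (Finset.subset_univ _)) fun _ _ _ => ha0 _ _ _
  refine ⟨κ, Γ, fun γ hγ i => ?_, hload, ?_, ?_⟩
  · simp only [hΓdef, Finset.mem_filter, Finset.mem_univ, true_and] at hγ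
    exact ⟨hγ.1.2 i, hγ.2.1 i⟩
  · refine EΦ.trans (hκ.trans ?_)
    simp only [hΦ]
    have e1 : ∑ γ with (ND γ ∧ ∀ l, Dp (x l γ)), ind univ (fun l => r (x l γ)) id κ =
        #{γ | (ND γ ∧ ∀ l, Dp (x l γ)) ∧ ∀ l, κ (r (x l γ)) = l} := by
      simp_rw [ind_eq]
      rw [Finset.sum_boole, Finset.filter_filter]
      simp
    have e3 : (#{γ | (ND γ ∧ ∀ l, Dp (x l γ)) ∧ ∀ l, κ (r (x l γ)) = l} : ℝ) ≤
        #Γ + #{γ | ∃ i, (1 + η) * P * pi1 i < Z i (x i γ) κ} := by
      apply card_or_le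
      intro γ hγ
      by_cases h : ∀ i, Z i (x i γ) κ ≤ (1 + η) * P * pi1 i
      · exact Or.inl ⟨hγ.1, hγ.2, h⟩
      · push Not at h; exact Or.inr h
    have e4 : (#{γ | ∃ i, (1 + η) * P * pi1 i < Z i (x i γ) κ} : ℝ) ≤
        ∑ i, (P / (η * P * pi1 i) ^ 2) * ∑ u, (Z i u κ - P * pi1 i) ^ 2 := by
      calc _ ≤ ∑ i, (#{γ | (1 + η) * P * pi1 i < Z i (x i γ) κ} : ℝ) :=
            card_exists_le_sum _ _ fun _ h => h
        _ ≤ _ := by
          apply Finset.sum_le_sum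
          intro i _
          rw [hfw i, Finset.mul_sum]
          apply Finset.sum_le_sum
          intro u _
          have hpi := hp1 i
          by_cases h : (1 + η) * P * pi1 i < Z i u κ
          · have f1 : (#{γ | (1 + η) * P * pi1 i < Z i (x i γ) κ ∧ x i γ = u} : ℝ) ≤ P := by
              refine le_trans ?_ (hfib i u)
              exact card_imp_le _ _ fun γ hγ => hγ.2
            refine f1.trans ?_
            rw [div_mul_eq_mul_div, le_div_iff₀ (by positivity)]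
            gcongr
            linarith
          · have : Finset.univ.filter
                (fun γ => (1 + η) * P * pi1 i < Z i (x i γ) κ ∧ x i γ = u) = ∅ := by
              apply Finset.filter_eq_empty_iff.mpr
              rintro γ - ⟨h2, h3⟩
              exact h (h3 ▸ h2)
            rw [this]; simp only [Finset.card_empty, Nat.cast_zero]; positivity
    rw [e1]; linarith
  · have e1 : ∀ i, w i * #Γ ≤ #{u | κ (r u) = i} * ((1 + η) * P * pi0) := by
      intro i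
      have f1 : (#Γ : ℝ) ≤ #{u | κ (r u) = i} * ((1 + η) * P * pi1 i) := by
        rw [Finset.card_eq_sum_card_fiberwise (f := x i) (t := {u | κ (r u) = i}) (fun γ hγ => by
          simp only [hΓdef, Finset.coe_filter, Finset.mem_univ, true_and, Set.mem_ofPred_eq]
            at hγ ⊢
          exact hγ.2.1 i)]
        push_cast
        exact (Finset.sum_le_card_nsmul _ _ _ fun u _ => hload i u).trans (by simp)
      calc _ ≤ w i * (#{u | κ (r u) = i} * ((1 + η) * P * pi1 i)) := by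
            have := hw i; gcongr
        _ = _ := by rw [← hp3 i]; ring
    have e2 := Finset.sum_le_sum fun i (_ : i ∈ Finset.univ) => e1 i
    rw [← Finset.sum_mul, ← Finset.sum_mul, h1, one_mul] at e2
    have e3 : ∑ i, (#{u | κ (r u) = i} : ℝ) = P := by
      rw [← hX, ← Finset.card_univ, Finset.card_eq_sum_card_fiberwise (f := fun u => κ (r u))
        (t := Finset.univ) (fun _ _ => Finset.mem_univ _)]
      push_cast; rfl
    rw [e3] at e2
    linarith

end Crest.Agent.R75
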