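import Crest.Agent.R75.Basic

set_option autoImplicit false

namespace Crest.Agent.R75

open Real Complex Finset MeasureTheory
open scoped ComplexConjugate

lemma sum_Icc_sym {M : Type*} [AddCommMonoid M] (f : ℤ → M) (D : ℕ) :
    ∑ ν ∈ Finset.Icc (-(D : ℤ)) D, f ν =
      f 0 + ∑ n ∈ range D, (f ((n + 1 : ℕ) : ℤ) + f (-((n + 1 : ℕ) : ℤ))) := by
  induction D with
  | zero => simp
  | succ D ih =>
    have : Finset.Icc (-((D + 1 : ℕ) : ℤ)) ((D + 1 : ℕ) : ℤ) =
        insert ((D + 1 : ℕ) : ℤ) (insert (-((D + 1 : ℕ) : ℤ)) (Finset.Icc (-(D : ℤ)) D)) := by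
      ext x; simp only [Finset.mem_Icc, Finset.mem_insert]; omega
    rw [this, Finset.sum_insert, Finset.sum_insert, ih, Finset.sum_range_succ]
    · abel
    · simp only [Finset.mem_Icc]; omega
    · simp only [Finset.mem_Icc, Finset.mem_insert]; omega

lemma fejer (t : ℝ) (D : ℕ) :
    ∑ ν ∈ Finset.Icc (-(D : ℤ)) D, (((D : ℝ) - |(ν : ℝ)| : ℝ) : ℂ) * ee (ν * t) =
      ((‖∑ j ∈ range D, ee (j * t)‖ ^ 2 : ℝ) : ℂ) := by
  have h1 : ∀ z : ℂ, ((‖z‖ ^ 2 : ℝ) : ℂ) = z * conj z := by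
    intro z; rw [Complex.mul_conj, Complex.normSq_eq_norm_sq]
  rw [h1, sum_Icc_sym]
  have h2 : ∀ (D n : ℕ), ((((D : ℝ) - |((((n + 1 : ℕ) : ℤ)) : ℝ)| : ℝ) : ℂ) *
      ee ((((n + 1 : ℕ) : ℤ)) * t) + (((D : ℝ) - |(((-((n + 1 : ℕ) : ℤ) : ℤ)) : ℝ)| : ℝ) : ℂ) *
      ee (((-((n + 1 : ℕ) : ℤ) : ℤ)) * t)) =
      ((D : ℂ) - (n + 1)) * (ee ((n + 1) * t) + ee (-((n + 1) * t))) := by
    intro D n
    have : |((n : ℝ) + 1)| = n + 1 := abs_of_pos (by positivity)
    push_cast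
    rw [abs_neg, this, neg_mul]
    push_cast; ring
  simp_rw [h2]
  simp only [Int.cast_zero, abs_zero, sub_zero, zero_mul, ee_zero, mul_one, map_sum, conj_ee]
  induction D with
  | zero => simp
  | succ D ih =>
    rw [Finset.sum_range_succ, Finset.sum_range_succ, Finset.sum_range_succ]
    have e1 : ∑ n ∈ range D, (((D + 1 : ℕ) : ℂ) - (n + 1)) * (ee ((n + 1) * t) + ee (-((n + 1) * t)))
        = ∑ n ∈ range D, ((D : ℂ) - (n + 1)) * (ee ((n + 1) * t) + ee (-((n + 1) * t))) +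
          ∑ n ∈ range D, (ee ((n + 1) * t) + ee (-((n + 1) * t))) := by
      rw [← Finset.sum_add_distrib]
      apply Finset.sum_congr rfl
      intro n _; push_cast; ring
    have e2 : ∑ n ∈ range D, (ee ((n + 1) * t) + ee (-((n + 1) * t))) =
        (∑ j ∈ range D, ee (j * t)) * ee (-(D * t)) + ee (D * t) * ∑ j ∈ range D, ee (-(j * t)) := by
      rw [← Finset.sum_range_reflect, Finset.sum_mul, Finset.mul_sum, ← Finset.sum_add_distrib]
      apply Finset.sum_congr rfl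
      intro j hj
      rw [Finset.mem_range] at hj
      have : ((D - 1 - j : ℕ) : ℝ) + 1 = D - j := by
        have : D - 1 - j + 1 + j = D := by omega
        have : ((D - 1 - j : ℕ) : ℝ) + 1 + j = D := by exact_mod_cast this
        linarith
      rw [this, ← ee_add, ← ee_add, add_comm]
      congr 2 <;> ring
    have e3 : ee (D * t) * ee (-(D * t)) = 1 := by rw [← ee_add]; simp
    rw [e1, e2]
    push_cast at ih ⊢
    linear_combination ih - e3

lemma int_ee_lin {ν : ℝ} (hν : ν ≠ 0) (a b : ℝ) :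
    ∫ u in a..b, ee (ν * u) = (ee (ν * b) - ee (ν * a)) / (2 * π * I * ν) := by
  have hn : (2 * π * I * ν : ℂ) ≠ 0 := by simp [Real.pi_ne_zero, hν]
  have := intervalIntegral.integral_eq_sub_of_hasDerivAt (a := a) (b := b)
    (f := fun u => ee (ν * u) / (2 * π * I * ν)) (f' := fun u => ee (ν * u))
    (fun x _ => by
      have := (HasDerivAt.ee_comp ((hasDerivAt_id x).const_mul ν)).div_const
        (2 * π * I * ν : ℂ)
      refine HasDerivAt.congr_deriv this ?_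
      simp only [id, mul_one]
      have hν' : (ν : ℂ) ≠ 0 := by exact_mod_cast hν
      field_simp)
    (by apply Continuous.intervalIntegrable; fun_prop)
  rw [this, sub_div]

lemma parseval_ind {r : ℝ} (h0 : 0 < r) (h1 : r ≤ 1) :
    HasSum (fun ν : ℤ => ‖∫ u in (0 : ℝ)..r, ee (-ν * u)‖ ^ 2) r := by
  set f : ℝ → ℂ := (Set.Ioc 0 r).indicator (fun _ => 1) with hf
  have hL2 : MemLp f 2 (volume.restrict (Set.Ioc (0 : ℝ) 1)) :=
    (memLp_const (1 : ℂ)).indicator measurableSet_Ioc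
  have H := hasSum_sq_fourierCoeffOn (by norm_num : (0 : ℝ) < 1) hL2
  have key : ∀ {E : Type} [NormedAddCommGroup E] [NormedSpace ℝ E] (g : ℝ → E),
      ∫ x in (0 : ℝ)..1, (Set.Ioc 0 r).indicator g x = ∫ x in (0 : ℝ)..r, g x := by
    intro E _ _ g
    rw [intervalIntegral.integral_of_le zero_le_one, intervalIntegral.integral_of_le h0.le,
      setIntegral_indicator measurableSet_Ioc,
      Set.inter_eq_right.mpr (Set.Ioc_subset_Ioc_right h1)]
  have e1 : ∀ ν : ℤ, fourierCoeffOn (by norm_num : (0 : ℝ) < 1) f ν =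
      ∫ u in (0 : ℝ)..r, ee (-ν * u) := by
    intro ν
    rw [fourierCoeffOn_eq_integral, ← key]
    simp only [sub_zero, div_one, one_smul]
    congr 1; funext x
    rw [fourier_coe_apply]
    simp only [hf, Set.indicator]
    split_ifs
    · simp only [ee, smul_eq_mul, mul_one]; congr 1; push_cast; ring
    · simp
  have e2 : ∫ x in (0 : ℝ)..1, ‖f x‖ ^ 2 = r := by
    have : (fun x => ‖f x‖ ^ 2) = (Set.Ioc 0 r).indicator (fun _ => (1 : ℝ)) := by
      funext x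
      simp only [hf, Set.indicator]
      split_ifs <;> simp
    rw [this, key]; simp
  simp_rw [e1, e2] at H
  simpa using H

/-- a trigonometric partition of unity close to indicator functions -/
lemma exists_eta (q : ℕ) (hq : 0 < q) {δ : ℝ} (hδ : 0 < δ) :
    ∃ (D : ℕ) (h : ℤ → ℂ) (η : ℝ → ℝ),
      (∀ t, (η t : ℂ) = ∑ ν ∈ Finset.Icc (-(D : ℤ)) D, h ν * ee (ν * t)) ∧ (∀ t, 0 ≤ η t) ∧
      (∀ t, ∑ a ∈ range q, η (t - a / q) = 1) ∧ (∀ ν, h (-ν) = conj (h ν)) ∧
      1 - δ ≤ q * ∑ ν ∈ Finset.Icc (-(D : ℤ)) D, ‖h ν‖ ^ 2 := by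
  have hq' : (0 : ℝ) < q := by exact_mod_cast hq
  have hq1 : (1 : ℝ) ≤ q := by exact_mod_cast hq
  set g : ℤ → ℂ := fun ν => ∫ u in (0 : ℝ)..(1 / q), ee (-ν * u) with hg
  have HS := parseval_ind (r := 1 / q) (by positivity) (by rw [div_le_one hq']; exact hq1)
  obtain ⟨s₀, hs₀⟩ : ∃ s₀ : Finset ℤ, (1 - δ / 2) / q < ∑ ν ∈ s₀, ‖g ν‖ ^ 2 := by
    have : (1 - δ / 2) / q < 1 / q := by gcongr; linarith
    exact (HS.eventually (lt_mem_nhds this)).exists
  obtain ⟨R, hR⟩ : ∃ R : ℕ, ∀ ν ∈ s₀, |(ν : ℝ)| ≤ R := by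
    refine ⟨s₀.sup Int.natAbs, fun ν hν => ?_⟩
    have : ν.natAbs ≤ s₀.sup Int.natAbs := Finset.le_sup (f := Int.natAbs) hν
    rw [← Int.cast_abs, ← Nat.cast_natAbs]
    exact_mod_cast this
  obtain ⟨D, hD⟩ := exists_nat_ge (max (4 * R / δ) (R + 1))
  have hD1 : (R : ℝ) + 1 ≤ D := (le_max_right _ _).trans hD
  have hD0 : (0 : ℝ) < D := by have : (0 : ℝ) ≤ R := Nat.cast_nonneg _; linarith
  have hD2 : 4 * R ≤ δ * D := by
    have := (le_max_left _ _).trans hD
    rw [div_le_iff₀ hδ] at this; linarith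
  set η : ℝ → ℝ := fun t => ∫ u in (0 : ℝ)..(1 / q), ‖∑ j ∈ range D, ee (j * (t - u))‖ ^ 2 / D
    with hη
  set h : ℤ → ℂ := fun ν => ((((D : ℝ) - |(ν : ℝ)|) / D : ℝ) : ℂ) * g ν with hh
  have hexp : ∀ t, (η t : ℂ) = ∑ ν ∈ Finset.Icc (-(D : ℤ)) D, h ν * ee (ν * t) := by
    intro t
    simp only [hη, hh, hg]
    rw [← intervalIntegral.integral_ofReal]
    simp_rw [Complex.ofReal_div, ← fejer, Finset.sum_div]
    rw [intervalIntegral.integral_finsetSum]
    · apply Finset.sum_congr rfl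
      intro ν _
      rw [← intervalIntegral.integral_const_mul, ← intervalIntegral.integral_mul_const]
      congr 1; funext u
      have : ee (ν * (t - u)) = ee (-ν * u) * ee (ν * t) := by
        rw [← ee_add]; congr 1; ring
      rw [this]; ring
    · intro ν _
      apply Continuous.intervalIntegrable; fun_prop
  refine ⟨D, h, η, hexp, fun t => ?_, fun t => ?_, fun ν => ?_, ?_⟩
  · exact intervalIntegral.integral_nonneg (by positivity) fun u _ => by positivity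
  · apply Complex.ofReal_injective
    rw [Complex.ofReal_sum]
    simp_rw [hexp]
    rw [Finset.sum_comm]
    have e1 : ∀ ν : ℤ, ∑ a ∈ range q, h ν * ee (ν * (t - a / q)) = if ν = 0 then 1 else 0 := by
      intro ν
      have e2 : ∀ a : ℕ, h ν * ee (ν * (t - a / q)) =
          h ν * ee (ν * t) * ee (((-ν : ℤ) : ℝ) * (a / q)) := by
        intro a
        rw [mul_assoc (h ν), ← ee_add]; congr 2; push_cast; ring
      simp_rw [e2]
      rw [← Finset.mul_sum, sum_ee q hq]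
      by_cases h0 : ν = 0
      · subst h0
        have hq'' : (q : ℂ) ≠ 0 := by exact_mod_cast hq.ne'
        have hD'' : (D : ℂ) ≠ 0 := by exact_mod_cast hD0.ne'
        simp [hh, hg, hq'', hD'']
      · rw [if_neg h0]
        split_ifs with hd
        · have : g ν = 0 := by
            simp only [hg]
            rw [int_ee_lin (by simpa using h0)]
            obtain ⟨c, hc⟩ := hd
            have : -(ν : ℝ) * (1 / q) = c := by
              have : (-ν : ℝ) = q * c := by exact_mod_cast hc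
              rw [this]; field_simp
            rw [this, ee_int]; simp
          simp [hh, this]
        · simp
    simp_rw [e1]
    rw [Finset.sum_ite_eq', if_pos (by simp)]; simp
  · simp only [hh, hg, map_mul, Complex.conj_ofReal, Int.cast_neg, abs_neg]
    congr 1
    simp only [intervalIntegral, map_sub, ← integral_conj, conj_ee]
    simp
  · have e1 : ∑ ν ∈ s₀, (1 - δ / 2) * ‖g ν‖ ^ 2 ≤ ∑ ν ∈ Finset.Icc (-(D : ℤ)) D, ‖h ν‖ ^ 2 := by
      calc _ ≤ ∑ ν ∈ s₀, ‖h ν‖ ^ 2 := by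
            apply Finset.sum_le_sum
            intro ν hν
            simp only [hh]
            rw [norm_mul, mul_pow, Complex.norm_real, Real.norm_eq_abs, sq_abs]
            gcongr
            have f1 : ((D : ℝ) - |(ν : ℝ)|) / D = 1 - |(ν : ℝ)| / D := by field_simp
            have f2 : |(ν : ℝ)| / D ≤ δ / 4 := by
              rw [div_le_iff₀ hD0]; linarith [hR ν hν]
            rw [f1]; nlinarith [sq_nonneg (|(ν : ℝ)| / D)]
        _ ≤ _ := by
            apply Finset.sum_le_sum_of_subset_of_nonneg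
            · intro ν hν
              have := abs_le.mp (hR ν hν)
              rw [Finset.mem_Icc]
              have f1 : -(D : ℝ) ≤ ν := by linarith [this.1]
              have f2 : (ν : ℝ) ≤ D := by linarith [this.2]
              exact ⟨by exact_mod_cast f1, by exact_mod_cast f2⟩
            · intro _ _ _; positivity
    rw [← Finset.mul_sum] at e1
    by_cases hδ1 : 1 ≤ δ
    · have : 0 ≤ (q : ℝ) * ∑ ν ∈ Finset.Icc (-(D : ℤ)) D, ‖h ν‖ ^ 2 :=
        mul_nonneg hq'.le (Finset.sum_nonneg fun _ _ => by positivity)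
      linarith
    · push Not at hδ1
      rw [div_lt_iff₀ hq'] at hs₀
      calc 1 - δ ≤ (1 - δ / 2) * (1 - δ / 2) := by nlinarith
        _ ≤ (1 - δ / 2) * ((∑ ν ∈ s₀, ‖g ν‖ ^ 2) * q) := by gcongr; linarith
        _ = q * ((1 - δ / 2) * ∑ ν ∈ s₀, ‖g ν‖ ^ 2) := by ring
        _ ≤ _ := by gcongr

lemma norm_sq_unimod {s : Finset ℕ} {η : ℕ → ℝ} {ω : ℕ → ℂ} (h0 : ∀ a, 0 ≤ η a)
    (h1 : ∑ a ∈ s, η a = 1) (hω : ∀ a, ‖ω a‖ = 1) :
    2 * ∑ a ∈ s, η a ^ 2 - 1 ≤ ‖∑ a ∈ s, ω a * η a‖ ^ 2 := by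
  have e1 : ‖∑ a ∈ s, ω a * η a‖ ^ 2 =
      ∑ a ∈ s, ∑ b ∈ s, η a * η b * (ω a * conj (ω b)).re := by
    rw [← Complex.normSq_eq_norm_sq, ← Complex.ofReal_re (Complex.normSq _), ← Complex.mul_conj,
      map_sum, Finset.sum_mul_sum, Complex.re_sum]
    apply Finset.sum_congr rfl; intro a _
    rw [Complex.re_sum]
    apply Finset.sum_congr rfl; intro b _
    rw [map_mul, Complex.conj_ofReal, ← Complex.re_ofReal_mul]
    congr 1; push_cast; ring
  have e2 : 2 * ∑ a ∈ s, η a ^ 2 - 1 =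
      ∑ a ∈ s, ∑ b ∈ s, η a * η b * ((if b = a then 2 else 0) - 1) := by
    have : ∀ a ∈ s, ∑ b ∈ s, η a * η b * ((if b = a then 2 else 0) - 1) = 2 * η a ^ 2 - η a := by
      intro a ha
      simp_rw [mul_sub, mul_ite, mul_zero, mul_one]
      rw [Finset.sum_sub_distrib, Finset.sum_ite_eq', if_pos ha, ← Finset.mul_sum, h1]; ring
    rw [Finset.sum_congr rfl this, Finset.sum_sub_distrib, h1, Finset.mul_sum]
  rw [e1, e2]
  apply Finset.sum_le_sum; intro a _
  apply Finset.sum_le_sum; intro b _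
  apply mul_le_mul_of_nonneg_left _ (mul_nonneg (h0 a) (h0 b))
  split_ifs with h
  · subst h
    rw [Complex.mul_conj, Complex.normSq_eq_norm_sq, hω]; norm_num
  · have := Complex.abs_re_le_norm (ω a * conj (ω b))
    rw [norm_mul, Complex.norm_conj, hω, hω] at this
    linarith [(abs_le.mp this).1]

lemma eta_energy {q D : ℕ} {h : ℤ → ℂ} {η : ℝ → ℝ} {δ : ℝ}
    (hexp : ∀ t, (η t : ℂ) = ∑ ν ∈ Finset.Icc (-(D : ℤ)) D, h ν * ee (ν * t)) (h0 : ∀ t, 0 ≤ η t)
    (h1 : ∀ t, ∑ a ∈ range q, η (t - a / q) = 1)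
    (hE : 1 - δ ≤ q * ∑ ν ∈ Finset.Icc (-(D : ℤ)) D, ‖h ν‖ ^ 2) {ω : ℕ → ℂ} (hω : ∀ a, ‖ω a‖ = 1) :
    1 - 2 * δ ≤ ∑ ν ∈ Finset.Icc (-(D : ℤ)) D,
      ‖h ν * ∑ a ∈ range q, ω a * ee (-(ν * (a / q)))‖ ^ 2 := by
  set M : ℕ := 2 * D + 1 with hM
  have hM0 : 0 < M := by omega
  have hM' : (0 : ℝ) < M := by exact_mod_cast hM0
  have hinj : ∀ a ∈ Finset.Icc (-(D : ℤ)) D, ∀ b ∈ Finset.Icc (-(D : ℤ)) D,
      (M : ℤ) ∣ a - b → a = b := by
    intro a ha b hb hd
    rw [Finset.mem_Icc] at ha hb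
    have := eq_of_dvd_of_abs_lt hd (by rw [abs_lt]; omega)
    omega
  have hsh : ∀ (a : ℕ) (t : ℝ), (η (t - a / q) : ℂ) =
      ∑ ν ∈ Finset.Icc (-(D : ℤ)) D, h ν * ee (-(ν * (a / q))) * ee (ν * t) := by
    intro a t
    rw [hexp]
    apply Finset.sum_congr rfl; intro ν _
    rw [mul_assoc, ← ee_add]; congr 2; ring
  have p1 := parseval_grid _ (fun ν => ν)
    (fun ν => h ν * ∑ a ∈ range q, ω a * ee (-(ν * (a / q)))) M hM0 hinj
  have p2 : ∀ a : ℕ, ∑ j ∈ range M, η (j / M - a / q) ^ 2 =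
      M * ∑ ν ∈ Finset.Icc (-(D : ℤ)) D, ‖h ν‖ ^ 2 := by
    intro a
    have := parseval_grid _ (fun ν => ν) (fun ν => h ν * ee (-(ν * (a / q)))) M hM0 hinj
    simp only [← hsh, Complex.norm_real, Real.norm_eq_abs, sq_abs, norm_mul, norm_ee,
      mul_one] at this
    exact this
  have p3 : ∀ t : ℝ, ∑ ν ∈ Finset.Icc (-(D : ℤ)) D,
      (h ν * ∑ a ∈ range q, ω a * ee (-(ν * (a / q)))) * ee (ν * t) =
        ∑ a ∈ range q, ω a * η (t - a / q) := by
    intro t
    simp_rw [hsh, Finset.mul_sum, Finset.sum_mul]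
    rw [Finset.sum_comm]
    apply Finset.sum_congr rfl; intro a _
    apply Finset.sum_congr rfl; intro ν _
    ring
  simp only [p3] at p1
  apply le_of_mul_le_mul_left _ hM'
  rw [← p1]
  calc M * (1 - 2 * δ) ≤ 2 * (M * (q * ∑ ν ∈ Finset.Icc (-(D : ℤ)) D, ‖h ν‖ ^ 2)) - M := by
        nlinarith
    _ = ∑ j ∈ range M, (2 * ∑ a ∈ range q, η (j / M - a / q) ^ 2 - 1) := by
        rw [Finset.sum_sub_distrib, ← Finset.mul_sum, Finset.sum_comm]
        simp_rw [p2]
        simp; ring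
    _ ≤ _ := Finset.sum_le_sum fun j _ =>
        norm_sq_unimod (η := fun a => η (j / M - a / q)) (fun a => h0 _) (h1 _) hω

end Crest.Agent.R75
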