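import Crest.Agent.R75.Eta

set_option autoImplicit false

namespace Crest.Agent.R75

open Real Complex Finset
open scoped ComplexConjugate

/-- a bounded real trigonometric polynomial in two variables, with modes of level at most `lev`
pairwise non-proportional -/
def Fam (lev nmax : ℕ) (E : ℝ) : Prop :=
  ∃ (ι : Type) (_ : Fintype ι) (n : ι → ℕ) (μ : ι → ℤ) (c : ι → ℂ),
    (∀ i, 1 ≤ n i ∧ n i ≤ nmax) ∧
    (∀ i i', i ≠ i' → (n i = n i' ∨ (n i ≤ lev ∧ n i' ≤ lev)) → n i * μ i' ≠ n i' * μ i) ∧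
    (∀ x y : ℝ, |∑ i, 2 * (c i * ee (n i * x + μ i * y)).re| ≤ 1) ∧
    E ≤ ∑ i, 2 * ‖c i‖ ^ 2

lemma fam_base {δ : ℝ} (hδ : 0 < δ) : ∃ nmax, Fam 0 nmax (1 - δ) := by
  obtain ⟨D, h, η, hexp, h0, h1, hsym, hE⟩ := exists_eta 2 (by norm_num) (half_pos hδ)
  have hen := eta_energy hexp h0 h1 hE (ω := fun a => (-1) ^ a) (fun a => by simp)
  set G : ℤ → ℂ := fun ν => h ν * ∑ a ∈ range 2, (-1) ^ a * ee (-(ν * (a / (2 : ℕ)))) with hG
  have hG0 : G 0 = 0 := by simp [hG, Finset.sum_range_succ]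
  have hGs : ∀ ν, G (-ν) = conj (G ν) := by
    intro ν
    simp [hG, Finset.sum_range_succ, hsym, conj_ee]
  refine ⟨D, Fin D, inferInstance, fun i => i + 1, fun _ => 0, fun i => G ((i + 1 : ℕ) : ℤ),
    fun i => ⟨Nat.le_add_left _ _, i.2⟩, fun i i' hne hc => ?_, fun x y => ?_, ?_⟩
  · exfalso
    rcases hc with hc | hc
    · exact hne (Fin.ext (by simpa using hc))
    · simp at hc
  · have e1 : ((η x - η (x - 1 / 2) : ℝ) : ℂ) =
        ∑ ν ∈ Finset.Icc (-(D : ℤ)) D, G ν * ee (ν * x) := by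
      rw [Complex.ofReal_sub, hexp, hexp, ← Finset.sum_sub_distrib]
      apply Finset.sum_congr rfl; intro ν _
      have : ee (ν * (x - 1 / 2)) = ee (-(ν * (1 / 2))) * ee (ν * x) := by
        rw [← ee_add]; congr 1; ring
      simp only [hG, Finset.sum_range_succ, this]
      simp; ring
    have e2 : ∑ i : Fin D, 2 * (G ((i + 1 : ℕ) : ℤ) * ee (((i + 1 : ℕ) : ℝ) * x +
        ((0 : ℤ) : ℝ) * y)).re = η x - η (x - 1 / 2) := by
      apply Complex.ofReal_injective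
      rw [e1, sum_Icc_sym, hG0, zero_mul, zero_add, Complex.ofReal_sum,
        ← Fin.sum_univ_eq_sum_range (fun n => G ((n + 1 : ℕ) : ℤ) * ee (((n + 1 : ℕ) : ℤ) * x) +
          G (-((n + 1 : ℕ) : ℤ)) * ee ((-((n + 1 : ℕ) : ℤ) : ℤ) * x)) D]
      apply Finset.sum_congr rfl; intro i _
      rw [← Complex.add_conj, hGs, map_mul, conj_ee]
      congr 3 <;> push_cast <;> ring
    rw [e2]
    have f1 := h1 x
    simp only [Finset.sum_range_succ, Finset.sum_range_zero] at f1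
    norm_num at f1
    have f2 := h0 x
    have f3 := h0 (x - 1 / 2)
    rw [abs_le]; constructor <;> linarith
  · have e1 : ∑ ν ∈ Finset.Icc (-(D : ℤ)) D, ‖G ν‖ ^ 2 =
        ∑ i : Fin D, 2 * ‖G ((i + 1 : ℕ) : ℤ)‖ ^ 2 := by
      rw [sum_Icc_sym, hG0, Fin.sum_univ_eq_sum_range (fun n => 2 * ‖G ((n + 1 : ℕ) : ℤ)‖ ^ 2) D]
      simp only [norm_zero, hGs, Complex.norm_conj]
      simp [two_mul]
    rw [← e1]
    simp only [hG]
    linarith

lemma fam_step {lev nmax : ℕ} {E E' : ℝ} (H : Fam lev nmax E) (hE : E' < E) :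
    Fam (lev + 1) nmax E' := by
  classical
  obtain ⟨ι, _, n, μ, c, hn, hprop, hsup, hen⟩ := H
  set S : ℝ := ∑ i, 2 * ‖c i‖ ^ 2 with hS
  have hS0 : 0 ≤ S := Finset.sum_nonneg fun _ _ => by positivity
  set l : ℕ := lev + 1 with hl
  have hl0 : 0 < l := by omega
  have hl' : (0 : ℝ) < l := by exact_mod_cast hl0
  obtain ⟨δ, hδ0, hδ⟩ : ∃ δ : ℝ, 0 < δ ∧ E' ≤ (1 - 2 * δ) * S := by
    refine ⟨(E - E') / (2 * (S + 1)), by apply div_pos <;> linarith, ?_⟩
    have : 2 * ((E - E') / (2 * (S + 1))) * S ≤ E - E' := by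
      rw [show 2 * ((E - E') / (2 * (S + 1))) * S = (E - E') * (S / (S + 1)) by field_simp]
      apply mul_le_of_le_one_right (by linarith)
      rw [div_le_one (by linarith)]; linarith
    linarith
  obtain ⟨D, h, η, hexp, h0, h1, -, hE⟩ := exists_eta l hl0 hδ0
  obtain ⟨z, hz⟩ : ∃ z : ℤ, ∀ i i', |n i * μ i' - n i' * μ i| < z := by
    obtain ⟨z, hz⟩ := (Set.finite_range (fun p : ι × ι =>
      |(n p.1 : ℤ) * μ p.2 - n p.2 * μ p.1|)).bddAbove
    exact ⟨z + 1, fun i i' => Int.lt_add_one_iff.mpr (hz ⟨(i, i'), rfl⟩)⟩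
  set I : Finset ℤ := Finset.Icc (-(D : ℤ)) D with hI
  set A : ι → ℤ → ℂ := fun i ν =>
    h ν * ∑ a ∈ range l, ee (n i * (a / l ^ 2)) * ee (-(ν * (a / l))) with hA
  have hA0 : ∀ i ν, ¬ (n i = l → (l : ℤ) ∣ ν - 1) → A i ν = 0 := by
    intro i ν hc
    push Not at hc
    have : ∀ a : ℕ, ee (n i * (a / l ^ 2)) * ee (-(ν * (a / l))) =
        ee (((1 - ν : ℤ) : ℝ) * (a / l)) := by
      intro a
      rw [← ee_add, hc.1]; congr 1; push_cast; field_simp; ring
    simp only [hA, this]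
    rw [sum_ee l hl0, if_neg, mul_zero]
    intro hd; apply hc.2
    have := hd.neg_right
    rwa [neg_sub] at this
  have hsum : ∀ (f : ι → ℤ → ℝ), (∀ i ν, A i ν = 0 → f i ν = 0) →
      ∑ p : {p : ι × I // n p.1 = l → (l : ℤ) ∣ p.2.1 - 1}, f p.1.1 p.1.2.1 =
        ∑ i, ∑ ν ∈ I, f i ν := by
    intro f hf
    have e1 := Fintype.sum_subtype_add_sum_subtype
      (fun p : ι × I => n p.1 = l → (l : ℤ) ∣ p.2.1 - 1) (fun p => f p.1 p.2.1)
    have e2 : ∑ p : {p : ι × I // ¬ (n p.1 = l → (l : ℤ) ∣ p.2.1 - 1)}, f p.1.1 p.1.2.1 = 0 :=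
      Finset.sum_eq_zero fun p _ => hf _ _ (hA0 _ _ p.2)
    rw [e2, add_zero] at e1
    rw [e1, Fintype.sum_prod_type]
    apply Finset.sum_congr rfl; intro i _
    exact Finset.sum_coe_sort I (f i)
  refine ⟨{p : ι × I // n p.1 = l → (l : ℤ) ∣ p.2.1 - 1}, inferInstance, fun p => n p.1.1,
    fun p => μ p.1.1 + z * p.1.2.1, fun p => c p.1.1 * A p.1.1 p.1.2.1, fun p => hn _,
    ?_, fun x y => ?_, ?_⟩
  · rintro ⟨⟨i, ν, hν⟩, hp⟩ ⟨⟨i', ν', hν'⟩, hp'⟩ hne hc heq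
    simp only at hp hp' hc heq
    have e1 : (n i : ℤ) * μ i' - n i' * μ i = z * (n i' * ν - n i * ν') := by linarith
    have hz0 : 0 < z := (abs_nonneg _).trans_lt (hz i i')
    have e2 : (n i : ℤ) * μ i' - n i' * μ i = 0 :=
      Int.eq_zero_of_abs_lt_dvd ⟨_, e1⟩ (hz i i')
    have e3 : (n i' : ℤ) * ν - n i * ν' = 0 := by
      rw [e2] at e1
      exact (mul_eq_zero.mp e1.symm).resolve_left hz0.ne'
    have key : ∀ (a b : ℕ) (u v : ℤ), a = l → 1 ≤ b → b < l → (l : ℤ) ∣ u - 1 →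
        (b : ℤ) * u - a * v = 0 → False := by
      intro a b u v ha hb1 hb2 hd h3
      obtain ⟨w, hw⟩ := hd
      have : (l : ℤ) ∣ b := ⟨v - b * w, by rw [ha] at h3; linear_combination h3 - b * hw⟩
      have := Int.le_of_dvd (by exact_mod_cast hb1) this
      omega
    by_cases hii : i = i'
    · subst hii
      have : (n i : ℤ) * (ν - ν') = 0 := by linarith
      have hn0 : (n i : ℤ) ≠ 0 := by have := (hn i).1; omega
      have : ν = ν' := by
        have := (mul_eq_zero.mp this).resolve_left hn0; omega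
      subst this
      exact hne rfl
    · by_cases hold : n i = n i' ∨ (n i ≤ lev ∧ n i' ≤ lev)
      · exact hprop i i' hii hold (by linarith)
      · by_cases hi : n i = l
        · exact key (n i) (n i') ν ν' hi (hn i').1 (by omega) (hp hi) e3
        · have hi' : n i' = l := by omega
          exact key (n i') (n i) ν' ν hi' (hn i).1 (by omega) (hp' hi') (by linarith)
  · rw [hsum (fun i ν => 2 * (c i * A i ν * ee (n i * x + ((μ i + z * ν : ℤ) : ℝ) * y)).re)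
      (fun i ν h => by simp [h])]
    have e1 : ∀ i, ∑ ν ∈ I, c i * A i ν * ee (n i * x + ((μ i + z * ν : ℤ) : ℝ) * y) =
        ∑ a ∈ range l, (η (z * y - a / l) : ℂ) * (c i * ee (n i * (x + a / l ^ 2) + μ i * y)) := by
      intro i
      simp only [hA, hexp]
      simp_rw [Finset.mul_sum, Finset.sum_mul]
      rw [Finset.sum_comm]
      apply Finset.sum_congr rfl; intro a _
      apply Finset.sum_congr rfl; intro ν _
      have : ee (n i * (a / l ^ 2)) * ee (-(ν * (a / l))) *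
          ee (n i * x + ((μ i + z * ν : ℤ) : ℝ) * y) =
          ee (ν * (z * y - a / l)) * ee (n i * (x + a / l ^ 2) + μ i * y) := by
        rw [← ee_add, ← ee_add, ← ee_add]; congr 1; push_cast; ring
      linear_combination (c i * h ν) * this
    have e2 : ∑ i, ∑ ν ∈ I, 2 * (c i * A i ν * ee (n i * x + ((μ i + z * ν : ℤ) : ℝ) * y)).re =
        ∑ a ∈ range l, η (z * y - a / l) *
          ∑ i, 2 * (c i * ee (n i * (x + a / l ^ 2) + μ i * y)).re := by
      simp_rw [← Finset.mul_sum, ← Complex.re_sum, e1, Complex.re_sum, Complex.re_ofReal_mul]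
      rw [Finset.sum_comm, Finset.mul_sum]
      apply Finset.sum_congr rfl; intro a _
      rw [← Finset.mul_sum]; ring
    rw [e2, ← h1 (z * y)]
    refine (Finset.abs_sum_le_sum_abs _ _).trans (Finset.sum_le_sum fun a _ => ?_)
    rw [abs_mul, abs_of_nonneg (h0 _)]
    exact mul_le_of_le_one_right (h0 _) (hsup _ _)
  · rw [hsum (fun i ν => 2 * ‖c i * A i ν‖ ^ 2) (fun i ν h => by simp [h])]
    refine hδ.trans ?_
    rw [hS, Finset.mul_sum]
    apply Finset.sum_le_sum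
    intro i _
    have := eta_energy hexp h0 h1 hE (ω := fun a => ee (n i * (a / l ^ 2))) (fun a => norm_ee _)
    simp_rw [norm_mul (c i), mul_pow, ← mul_assoc]
    rw [← Finset.mul_sum]
    calc _ = 2 * ‖c i‖ ^ 2 * (1 - 2 * δ) := by ring
      _ ≤ _ := by gcongr

lemma fam_all {nmax : ℕ} {E : ℝ} (H : Fam 0 nmax E) (lev : ℕ) : ∀ E' < E, Fam lev nmax E' := by
  induction lev with
  | zero =>
    intro E' hE
    obtain ⟨ι, _, n, μ, c, h1, h2, h3, h4⟩ := H
    exact ⟨ι, inferInstance, n, μ, c, h1, h2, h3, hE.le.trans h4⟩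
  | succ lev ih =>
    intro E' hE
    exact fam_step (ih ((E' + E) / 2) (by linarith)) (by linarith)

theorem exists_family {δ : ℝ} (hδ : 0 < δ) :
    ∃ (ι : Type) (_ : Fintype ι) (n : ι → ℕ) (μ : ι → ℤ) (c : ι → ℂ),
      (∀ i, 1 ≤ n i) ∧ (∀ i i', i ≠ i' → n i * μ i' ≠ n i' * μ i) ∧ (∀ i, c i ≠ 0) ∧
      (∀ x y : ℝ, |∑ i, 2 * (c i * ee (n i * x + μ i * y)).re| ≤ 1 + δ) ∧
      ∑ i, 2 * ‖c i‖ ^ 2 = 1 := by
  classical
  have h1 : 1 / (1 + δ) < 1 := by rw [div_lt_one (by linarith)]; linarith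
  obtain ⟨nmax, H⟩ := fam_base (δ := (1 - 1 / (1 + δ)) / 2) (by linarith)
  obtain ⟨ι, _, n, μ, c, hn, hprop, hsup, hen⟩ := fam_all H nmax (1 / (1 + δ)) (by linarith)
  set S : ℝ := ∑ i, 2 * ‖c i‖ ^ 2 with hS
  have hS0 : 0 < S := lt_of_lt_of_le (by positivity) hen
  have hr : 0 < √S := Real.sqrt_pos.mpr hS0
  have hr1 : 1 / √S ≤ 1 + δ := by
    rw [div_le_iff₀ hr, ← div_le_iff₀' (by positivity)]
    apply Real.le_sqrt_of_sq_le
    refine le_trans ?_ hen
    rw [sq]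
    exact mul_le_of_le_one_right (by positivity) h1.le
  have hsum : ∀ f : ι → ℝ, (∀ i, c i = 0 → f i = 0) → ∑ i : {i // c i ≠ 0}, f i.1 = ∑ i, f i := by
    intro f hf
    have e1 := Fintype.sum_subtype_add_sum_subtype (fun i => c i ≠ 0) f
    have e2 : ∑ i : {i // ¬ c i ≠ 0}, f i.1 = 0 :=
      Finset.sum_eq_zero fun p _ => hf _ (not_not.mp p.2)
    rwa [e2, add_zero] at e1
  refine ⟨{i // c i ≠ 0}, inferInstance, fun i => n i.1, fun i => μ i.1,
    fun i => ((1 / √S : ℝ) : ℂ) * c i.1, fun i => (hn _).1, fun i i' hne => ?_, fun i => ?_,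
    fun x y => ?_, ?_⟩
  · exact hprop _ _ (fun h => hne (Subtype.ext h)) (Or.inr ⟨(hn _).2, (hn _).2⟩)
  · apply mul_ne_zero _ i.2
    exact_mod_cast (by positivity : (1 / √S : ℝ) ≠ 0)
  · rw [hsum (fun i => 2 * (((1 / √S : ℝ) : ℂ) * c i * ee (n i * x + μ i * y)).re)
      (fun i h => by simp [h])]
    simp_rw [mul_assoc, Complex.re_ofReal_mul, mul_left_comm (2 : ℝ)]
    rw [← Finset.mul_sum, abs_mul, abs_of_pos (by positivity)]
    exact (mul_le_of_le_one_right (by positivity) (hsup x y)).trans hr1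
  · rw [hsum (fun i => 2 * ‖((1 / √S : ℝ) : ℂ) * c i‖ ^ 2) (fun i h => by simp [h])]
    simp_rw [norm_mul, mul_pow, mul_left_comm (2 : ℝ)]
    rw [← Finset.mul_sum, ← hS, Complex.norm_real, Real.norm_eq_abs, sq_abs, div_pow,
      Real.sq_sqrt hS0.le]
    field_simp

end Crest.Agent.R75
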