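import Crest.Agent.R75.Stat

set_option autoImplicit false

namespace Crest.Agent.R75

open Real Complex Set MeasureTheory Filter Topology
open scoped ComplexConjugate

/-- accumulated phase -/
noncomputable def phA (ψ : ℝ → ℝ) (a b : ℝ) : ℝ := ∫ t in a..b, ψ t

/-- oscillatory integral of the unimodular function with instantaneous frequency `ψ` -/
noncomputable def osc (ψ : ℝ → ℝ) (a b k : ℝ) : ℂ := ∫ θ in a..b, ee (phA ψ a θ - k * θ)

structure Adm (ψ : ℝ → ℝ) (C lo hi : ℝ) : Prop where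
  lip : ∀ x y, |ψ y - ψ x| ≤ C * |y - x|
  rng : ∀ x, lo ≤ ψ x ∧ ψ x ≤ hi

lemma Adm.nonneg {ψ : ℝ → ℝ} {C lo hi : ℝ} (H : Adm ψ C lo hi) : 0 ≤ C := by
  have := (abs_nonneg _).trans (H.lip 0 1)
  simpa using this

lemma Adm.cont {ψ : ℝ → ℝ} {C lo hi : ℝ} (H : Adm ψ C lo hi) : Continuous ψ := by
  have : LipschitzWith ⟨C, H.nonneg⟩ ψ :=
    LipschitzWith.of_dist_le_mul fun x y => by
      rw [Real.dist_eq, Real.dist_eq]; exact H.lip y x
  exact this.continuous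

lemma Adm.mono {ψ : ℝ → ℝ} {C lo hi C' lo' hi' : ℝ} (H : Adm ψ C lo hi) (h1 : C ≤ C')
    (h2 : lo' ≤ lo) (h3 : hi ≤ hi') : Adm ψ C' lo' hi' :=
  ⟨fun x y => (H.lip x y).trans (by gcongr), fun x => ⟨h2.trans (H.rng x).1, (H.rng x).2.trans h3⟩⟩

lemma hasDerivAt_phA {ψ : ℝ → ℝ} (h : Continuous ψ) (a x : ℝ) :
    HasDerivAt (phA ψ a) (ψ x) x := (h.integral_hasStrictDerivAt a x).hasDerivAt

lemma continuous_phA {ψ : ℝ → ℝ} (h : Continuous ψ) (a : ℝ) : Continuous (phA ψ a) :=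
  continuous_iff_continuousAt.mpr fun x => (hasDerivAt_phA h a x).continuousAt

lemma phA_congr {ψ φ : ℝ → ℝ} {a b x : ℝ} (h : EqOn ψ φ (Icc a b)) (hx : x ∈ Icc a b) :
    phA ψ a x = phA φ a x := by
  apply intervalIntegral.integral_congr
  intro t ht
  rw [uIcc_of_le hx.1] at ht
  exact h ⟨ht.1, ht.2.trans hx.2⟩

lemma osc_congr {ψ φ : ℝ → ℝ} {a b : ℝ} (hab : a ≤ b) (h : EqOn ψ φ (Icc a b)) (k : ℝ) :
    osc ψ a b k = osc φ a b k := by
  apply intervalIntegral.integral_congr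
  intro t ht
  rw [uIcc_of_le hab] at ht
  simp only [phA_congr h ht]

lemma phA_add {ψ : ℝ → ℝ} (h : Continuous ψ) (a b c : ℝ) :
    phA ψ a c = phA ψ a b + phA ψ b c :=
  (intervalIntegral.integral_add_adjacent_intervals (h.intervalIntegrable _ _)
    (h.intervalIntegrable _ _)).symm

lemma osc_add {ψ : ℝ → ℝ} (h : Continuous ψ) (a b c k : ℝ) :
    osc ψ a c k = osc ψ a b k + ee (phA ψ a b) * osc ψ b c k := by
  have c1 : Continuous fun θ => ee (phA ψ a θ - k * θ) := by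
    have := continuous_phA h a
    fun_prop
  unfold osc
  rw [← intervalIntegral.integral_add_adjacent_intervals (b := b) (c1.intervalIntegrable _ _)
    (c1.intervalIntegrable _ _), ← intervalIntegral.integral_const_mul]
  congr 2; funext θ
  rw [← ee_add, phA_add h a b θ]; congr 1; ring

lemma glue {ψ₁ ψ₂ : ℝ → ℝ} {C₁ C₂ lo hi a b c : ℝ} (H₁ : Adm ψ₁ C₁ lo hi) (H₂ : Adm ψ₂ C₂ lo hi)
    (hab : a ≤ b) (hbc : b ≤ c) (h : ψ₁ b = ψ₂ b) :
    ∃ ψ, Adm ψ (C₁ + C₂) lo hi ∧ ψ a = ψ₁ a ∧ ψ c = ψ₂ c ∧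
      phA ψ a c = phA ψ₁ a b + phA ψ₂ b c ∧
      ∀ k, osc ψ a c k = osc ψ₁ a b k + ee (phA ψ₁ a b) * osc ψ₂ b c k := by
  set ψ : ℝ → ℝ := fun x => ψ₁ (min x b) + ψ₂ (max x b) - ψ₁ b with hψ
  have e1 : ∀ x, x ≤ b → ψ x = ψ₁ x := by
    intro x hx; simp only [hψ, min_eq_left hx, max_eq_right hx, h]; ring
  have e2 : ∀ x, b ≤ x → ψ x = ψ₂ x := by
    intro x hx; simp only [hψ, min_eq_right hx, max_eq_left hx]; ring
  have H : Adm ψ (C₁ + C₂) lo hi := by
    constructor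
    · intro x y
      have f1 := H₁.lip (min x b) (min y b)
      have f2 := H₂.lip (max x b) (max y b)
      have f3 : |min y b - min x b| ≤ |y - x| := by
        simpa using abs_min_sub_min_le_max y b x b
      have f4 : |max y b - max x b| ≤ |y - x| := abs_max_sub_max_le_abs y x b
      have f5 : ψ y - ψ x = (ψ₁ (min y b) - ψ₁ (min x b)) + (ψ₂ (max y b) - ψ₂ (max x b)) := by
        simp only [hψ]; ring
      rw [f5]
      refine (abs_add_le _ _).trans ?_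
      have := mul_le_mul_of_nonneg_left f3 H₁.nonneg
      have := mul_le_mul_of_nonneg_left f4 H₂.nonneg
      linarith
    · intro x
      rcases le_total x b with hx | hx
      · rw [e1 x hx]; exact H₁.rng x
      · rw [e2 x hx]; exact H₂.rng x
  have q1 : EqOn ψ ψ₁ (Icc a b) := fun x hx => e1 x hx.2
  have q2 : EqOn ψ ψ₂ (Icc b c) := fun x hx => e2 x hx.1
  refine ⟨ψ, H, e1 a hab, e2 c hbc, ?_, fun k => ?_⟩
  · rw [phA_add H.cont a b c, phA_congr q1 ⟨hab, le_rfl⟩, phA_congr q2 ⟨hbc, le_rfl⟩]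
  · rw [osc_add H.cont a b c, phA_congr q1 ⟨hab, le_rfl⟩, osc_congr hab q1, osc_congr hbc q2]

lemma adm_clamp {φ : ℝ → ℝ} {a b C lo hi : ℝ} (hab : a ≤ b) (hC : 0 ≤ C)
    (h1 : ∀ x ∈ Icc a b, ∀ y ∈ Icc a b, |φ y - φ x| ≤ C * |y - x|)
    (h2 : ∀ x ∈ Icc a b, lo ≤ φ x ∧ φ x ≤ hi) :
    ∃ ψ, Adm ψ C lo hi ∧ EqOn ψ φ (Icc a b) := by
  have hm : ∀ x, max (min x b) a ∈ Icc a b := fun x =>
    ⟨le_max_right _ _, max_le (min_le_right _ _) hab⟩
  refine ⟨fun x => φ (max (min x b) a), ⟨fun x y => ?_, fun x => h2 _ (hm x)⟩, fun x hx => ?_⟩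
  · refine (h1 _ (hm x) _ (hm y)).trans (mul_le_mul_of_nonneg_left ?_ hC)
    refine (abs_max_sub_max_le_abs _ _ _).trans ?_
    simpa using abs_min_sub_min_le_max y b x b
  · simp only [min_eq_left hx.2, max_eq_left hx.1]

lemma linear_seg {a b v₁ v₂ lo hi : ℝ} (hab : a < b) (h1 : lo ≤ v₁ ∧ v₁ ≤ hi)
    (h2 : lo ≤ v₂ ∧ v₂ ≤ hi) :
    ∃ ψ, Adm ψ ((hi - lo) / (b - a)) lo hi ∧ ψ a = v₁ ∧ ψ b = v₂ ∧
      phA ψ a b = (b - a) * (v₁ + v₂) / 2 ∧
      (∀ k r, 0 < r → b - a ≤ r ^ 2 * |v₂ - v₁| → ‖osc ψ a b k‖ ≤ 4 * r) ∧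
      (∀ k d, 0 < d → (k + d ≤ v₁ ∧ k + d ≤ v₂) ∨ (v₁ + d ≤ k ∧ v₂ + d ≤ k) →
        ‖osc ψ a b k‖ ≤ 1 / d) := by
  have hba : 0 < b - a := by linarith
  set m : ℝ := (v₂ - v₁) / (b - a) with hm
  have hm' : m * (b - a) = v₂ - v₁ := by rw [hm]; field_simp
  set φ : ℝ → ℝ := fun x => v₁ + m * (x - a) with hφ
  have hbet : ∀ x ∈ Icc a b, min v₁ v₂ ≤ φ x ∧ φ x ≤ max v₁ v₂ := by
    intro x hx
    have f1 : 0 ≤ x - a := by linarith [hx.1]
    have f2 : 0 ≤ b - x := by linarith [hx.2]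
    simp only [hφ]
    rcases le_total 0 m with h | h
    · have g1 := mul_nonneg h f1
      have g2 := mul_nonneg h f2
      exact ⟨(min_le_left _ _).trans (by linarith), le_trans (by linarith) (le_max_right _ _)⟩
    · have g1 := mul_nonpos_of_nonpos_of_nonneg h f1
      have g2 := mul_nonpos_of_nonpos_of_nonneg h f2
      exact ⟨(min_le_right _ _).trans (by linarith), le_trans (by linarith) (le_max_left _ _)⟩
  obtain ⟨ψ, H, hE⟩ := adm_clamp (φ := φ) (C := (hi - lo) / (b - a)) (lo := lo) (hi := hi) hab.le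
    (div_nonneg (by linarith [h1.1, h1.2]) hba.le) (by
      intro x _ y _
      have : φ y - φ x = m * (y - x) := by simp only [hφ]; ring
      rw [this, abs_mul]
      gcongr
      rw [hm, abs_div, abs_of_pos hba]
      gcongr
      rw [abs_le]; constructor <;> linarith [h1.1, h1.2, h2.1, h2.2]) (by
      intro x hx
      exact ⟨(le_min h1.1 h2.1).trans (hbet x hx).1, (hbet x hx).2.trans (max_le h1.2 h2.2)⟩)
  have hph : ∀ x, phA φ a x = v₁ * (x - a) + m * (x - a) ^ 2 / 2 := by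
    intro x
    have := intervalIntegral.integral_eq_sub_of_hasDerivAt
      (f := fun x => v₁ * (x - a) + m * (x - a) ^ 2 / 2) (f' := φ) (a := a) (b := x)
      (fun t _ => by
        have := (((hasDerivAt_id t).sub_const a).const_mul v₁).add
          (((((hasDerivAt_id t).sub_const a).pow 2).const_mul m).div_const 2)
        refine HasDerivAt.congr_deriv this ?_
        simp [hφ]; ring)
      (by apply Continuous.intervalIntegrable; simp only [hφ]; fun_prop)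
    unfold phA
    rw [this]; ring
  have cφ : Continuous φ := by simp only [hφ]; fun_prop
  have HC : ∀ k, C2 (fun θ => phA φ a θ - k * θ) (fun θ => φ θ - k) (fun _ => m) := by
    intro k
    refine ⟨fun x => ?_, fun x => ?_, continuous_const⟩
    · have := (hasDerivAt_phA cφ a x).sub ((hasDerivAt_id x).const_mul k)
      refine HasDerivAt.congr_deriv this ?_
      simp
    · have := ((((hasDerivAt_id x).sub_const a).const_mul m).const_add v₁).sub_const k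
      refine HasDerivAt.congr_deriv this ?_
      simp
  refine ⟨ψ, H, ?_, ?_, ?_, fun k r hr h => ?_, fun k d hd h => ?_⟩
  · rw [hE ⟨le_rfl, hab.le⟩]; simp [hφ]
  · rw [hE ⟨hab.le, le_rfl⟩]; simp only [hφ]; linarith
  · rw [phA_congr hE ⟨hab.le, le_rfl⟩, hph]
    have : m * (b - a) ^ 2 = (v₂ - v₁) * (b - a) := by rw [← hm']; ring
    rw [this]; ring
  · rw [osc_congr hab.le hE]
    apply vdc (HC k) hab.le hr
    have h3 : 1 / r ^ 2 ≤ |m| := by
      rw [hm, abs_div, abs_of_pos hba, div_le_div_iff₀ (by positivity) hba]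
      linarith
    rcases le_abs.mp h3 with h4 | h4
    · exact Or.inl fun _ _ => h4
    · exact Or.inr fun _ _ => h4
  · rw [osc_congr hab.le hE]
    apply first_deriv (HC k) hab.le hd
    · rcases le_total 0 m with h | h
      · exact Or.inl fun _ _ => h
      · exact Or.inr fun _ _ => h
    · intro x hx
      rw [le_abs]
      rcases h with h | h
      · left
        have := (le_min h.1 h.2).trans (hbet x hx).1
        linarith
      · right
        have := (hbet x hx).2.trans (max_le (show v₁ ≤ k - d by linarith [h.1])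
          (show v₂ ≤ k - d by linarith [h.2]))
        linarith

open Classical in
lemma bridge {a b η w w' ε : ℝ} (hab : a < b) (hη : 0 < η) (hw : w ≤ w')
    (hw' : w' + 66 * (b - a) ≤ 1 - η) (hε : 0 < ε) :
    ∃ C q₀ : ℝ, ∀ q, q₀ ≤ q → ∀ ta tb φ : ℝ, (η * q ^ 2 ≤ ta ∧ ta ≤ (w - η) * q ^ 2) →
      (η * q ^ 2 ≤ tb ∧ tb ≤ (w - η) * q ^ 2) →
      ∃ ψ, Adm ψ (C * q ^ 2) (η * q ^ 2) ((1 - η) * q ^ 2) ∧ ψ a = ta ∧ ψ b = tb ∧
        ee (phA ψ a b) = ee φ ∧ ∀ k, q * ‖osc ψ a b k‖ ≤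
          ε + if w' * q ^ 2 < k ∧ k < (w' + 66 * (b - a)) * q ^ 2 then 1 / 2 else 0 := by
  obtain ⟨g, hg⟩ : ∃ g : ℝ, g = b - a := ⟨_, rfl⟩
  rw [← hg] at hw' ⊢
  have hg0 : 0 < g := by linarith
  obtain ⟨ζ, hζ⟩ : ∃ ζ : ℝ, ζ = min (g / 4) (η * (ε / 16) ^ 2) := ⟨_, rfl⟩
  have hζ0 : 0 < ζ := hζ ▸ lt_min (by positivity) (by positivity)
  have hζ1 : ζ ≤ g / 4 := hζ ▸ min_le_left _ _
  have hζ2 : ζ ≤ η * (ε / 16) ^ 2 := hζ ▸ min_le_right _ _
  refine ⟨3 / ζ, max (4 / (g * ε)) (2 / g), fun q hq ta tb φ hta htb => ?_⟩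
  have hq1 : 4 / (g * ε) ≤ q := (le_max_left _ _).trans hq
  have hq2 : 2 / g ≤ q := (le_max_right _ _).trans hq
  have hq0 : 0 < q := lt_of_lt_of_le (by positivity) hq2
  obtain ⟨N, hN⟩ : ∃ N : ℝ, N = q ^ 2 := ⟨_, rfl⟩
  rw [← hN] at hta htb ⊢
  have hN0 : 0 < N := by rw [hN]; positivity
  obtain ⟨c₀, hc₀⟩ : ∃ c₀ : ℝ, c₀ =
    ζ * ta / 2 + ζ * tb / 2 + (g - ζ) * (32 * g * N) + (w' + g / 2) * N * (g - ζ) := ⟨_, rfl⟩
  have hgζ : 0 < g - ζ := by linarith
  obtain ⟨ϑ, hϑ⟩ : ∃ ϑ : ℝ, ϑ = Int.fract (φ - c₀) / (g - ζ) := ⟨_, rfl⟩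
  have hϑ0 : 0 ≤ ϑ := hϑ ▸ div_nonneg (Int.fract_nonneg _) hgζ.le
  have hϑ1 : ϑ ≤ g / 2 * N := by
    have f1 : ϑ ≤ 1 / (g / 2) := by
      rw [hϑ]
      exact div_le_div₀ zero_le_one (Int.fract_lt_one _).le (by positivity) (by linarith)
    have f2 : (2 / g) ^ 2 ≤ N := by rw [hN]; gcongr
    calc ϑ ≤ 1 / (g / 2) := f1
      _ = g / 2 * (2 / g) ^ 2 := by field_simp
      _ ≤ _ := by gcongr
  obtain ⟨v, hv⟩ : ∃ v : ℝ, v = (w' + g / 2) * N + ϑ := ⟨_, rfl⟩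
  have hwN : w * N ≤ w' * N := by gcongr
  have hgN : 0 < g * N := by positivity
  have hηN : 0 < η * N := by positivity
  have htop : (w' + 66 * g) * N ≤ (1 - η) * N := by gcongr
  have r1 : η * N ≤ ta ∧ ta ≤ (1 - η) * N := ⟨hta.1, by linarith [hta.2]⟩
  have r2 : η * N ≤ v ∧ v ≤ (1 - η) * N := ⟨by linarith [hta.1, hta.2], by linarith⟩
  have r3 : η * N ≤ v + 64 * g * N ∧ v + 64 * g * N ≤ (1 - η) * N :=
    ⟨by linarith [hta.1, hta.2], by linarith⟩
  have r4 : η * N ≤ tb ∧ tb ≤ (1 - η) * N := ⟨htb.1, by linarith [htb.2]⟩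
  obtain ⟨ψ₁, A1, a1, b1, p1, V1, -⟩ := linear_seg (a := a) (b := a + ζ) (by linarith) r1 r2
  obtain ⟨ψ₂, A2, a2, b2, p2, V2, F2⟩ := linear_seg (a := a + ζ) (b := b - ζ) (by linarith) r2 r3
  obtain ⟨ψ₃, A3, a3, b3, p3, V3, -⟩ := linear_seg (a := b - ζ) (b := b) (by linarith) r3 r4
  obtain ⟨ψ₄, A4, a4, b4, p4, o4⟩ := glue A1 A2 (a := a) (b := a + ζ) (c := b - ζ) (by linarith)
    (by linarith) (b1.trans a2.symm)
  obtain ⟨ψ, A5, a5, b5, p5, o5⟩ := glue A4 A3 (a := a) (b := b - ζ) (c := b) (by linarith)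
    (by linarith) (b4.trans (b2.trans a3.symm))
  refine ⟨ψ, A5.mono ?_ le_rfl le_rfl, a5.trans (a4.trans a1), b5.trans b3, ?_, fun k => ?_⟩
  · have f0 : (1 - η) * N - η * N ≤ N := by linarith
    have f00 : 0 ≤ (1 - η) * N - η * N := by linarith [r1.1, r1.2]
    have f1 : ((1 - η) * N - η * N) / (a + ζ - a) ≤ N / ζ :=
      div_le_div₀ hN0.le f0 hζ0 (by linarith)
    have f2 : ((1 - η) * N - η * N) / (b - ζ - (a + ζ)) ≤ N / ζ :=
      div_le_div₀ hN0.le f0 hζ0 (by linarith)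
    have f3 : ((1 - η) * N - η * N) / (b - (b - ζ)) ≤ N / ζ :=
      div_le_div₀ hN0.le f0 hζ0 (by linarith)
    have f4 : 3 / ζ * N = N / ζ + N / ζ + N / ζ := by ring
    linarith
  · rw [p5, p4, p1, p2, p3]
    have f1 : ϑ * (g - ζ) = Int.fract (φ - c₀) := by rw [hϑ]; field_simp
    have f2 : (a + ζ - a) * (ta + v) / 2 + (b - ζ - (a + ζ)) * (v + (v + 64 * g * N)) / 2 +
        (b - (b - ζ)) * (v + 64 * g * N + tb) / 2 = c₀ + ϑ * (g - ζ) := by
      have : b = a + g := by rw [hg]; ring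
      rw [hc₀, hv, this]; ring
    rw [f2, f1, ← Int.self_sub_floor]
    have : c₀ + (φ - c₀ - ⌊φ - c₀⌋) = φ + ((-⌊φ - c₀⌋ : ℤ) : ℝ) := by push_cast; ring
    rw [this, ee_add_int]
  · rw [o5, o4]
    have hr : 0 < ε / 16 / q := by positivity
    have hrr : ζ ≤ (ε / 16 / q) ^ 2 * (η * N) := by
      refine hζ2.trans (le_of_eq ?_); rw [hN]; field_simp
    have f1 := V1 k (ε / 16 / q) hr (by
      refine le_trans (by linarith) (hrr.trans ?_)
      gcongr
      rw [le_abs]; left; linarith [hta.2])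
    have f3 := V3 k (ε / 16 / q) hr (by
      refine le_trans (by linarith) (hrr.trans ?_)
      gcongr
      rw [le_abs]; right; linarith [htb.2])
    have f2 : q * ‖osc ψ₂ (a + ζ) (b - ζ) k‖ ≤
        ε / 2 + if w' * N < k ∧ k < (w' + 66 * g) * N then 1 / 2 else 0 := by
      split_ifs with h
      · have := V2 k (1 / (8 * q)) (by positivity) (by
          have e : v + 64 * g * N - v = 64 * g * N := by ring
          rw [e, abs_of_pos (by positivity)]
          have e2 : (1 / (8 * q)) ^ 2 * (64 * g * N) = g := by rw [hN]; field_simp; norm_num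
          rw [e2]; linarith)
        have e3 : q * (4 * (1 / (8 * q))) = 1 / 2 := by field_simp; norm_num
        have := mul_le_mul_of_nonneg_left this hq0.le
        linarith
      · have := F2 k (g / 2 * N) (by positivity) (by
          rw [not_and_or, not_lt, not_lt] at h
          rcases h with h | h
          · left; constructor <;> linarith
          · right; constructor <;> linarith)
        have e3 : q * (1 / (g / 2 * N)) ≤ ε / 2 := by
          rw [div_le_iff₀ (by positivity)] at hq1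
          have : q * (1 / (g / 2 * N)) = 2 / (g * q) := by rw [hN]; field_simp
          rw [this, div_le_iff₀ (by positivity)]
          linarith
        have := mul_le_mul_of_nonneg_left this hq0.le
        linarith
    have e4 : q * (4 * (ε / 16 / q)) = ε / 4 := by field_simp; norm_num
    have g1 := mul_le_mul_of_nonneg_left f1 hq0.le
    have g3 := mul_le_mul_of_nonneg_left f3 hq0.le
    have g4 : ‖osc ψ₁ a (a + ζ) k + ee (phA ψ₁ a (a + ζ)) * osc ψ₂ (a + ζ) (b - ζ) k +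
        ee (phA ψ₄ a (b - ζ)) * osc ψ₃ (b - ζ) b k‖ ≤
        ‖osc ψ₁ a (a + ζ) k‖ + ‖osc ψ₂ (a + ζ) (b - ζ) k‖ + ‖osc ψ₃ (b - ζ) b k‖ := by
      refine (norm_add_le _ _).trans (add_le_add ((norm_add_le _ _).trans ?_) ?_) <;>
        simp
    have g5 := mul_le_mul_of_nonneg_left g4 hq0.le
    rw [mul_add, mul_add] at g5
    linarith

lemma sum_len_le {Λ : Type*} (α β : Λ → ℝ) (hαβ : ∀ l, α l < β l) (h0 : ∀ l, 0 < α l)
    (disj : ∀ l l', l ≠ l' → β l < α l' ∨ β l' < α l) (S : Finset Λ) :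
    ∀ x, 0 < x → (∀ l ∈ S, β l < x) → ∑ l ∈ S, (β l - α l) ≤ x := by
  classical
  induction S using Finset.induction_on_max_value α with
  | empty => intro x hx _; simpa using hx.le
  | insert a s has hmax ih =>
    intro x _ hx
    rw [Finset.sum_insert has]
    have h1 := ih (α a) (h0 a) (fun l hl => by
      rcases disj l a (fun h => has (h ▸ hl)) with h | h
      · exact h
      · linarith [hmax l hl, hαβ a])
    have := hx a (Finset.mem_insert_self _ _)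
    linarith

open Classical in
lemma ite_add_le {a b c : ℝ} (k : ℝ) (hab : a ≤ b) (hbc : b ≤ c) :
    ((if a < k ∧ k < b then 1 / 2 else 0) + if b < k ∧ k < c then 1 / 2 else 0 : ℝ) ≤
      if a < k ∧ k < c then 1 / 2 else 0 := by
  by_cases h1 : a < k ∧ k < b
  · rw [if_pos h1, if_neg (fun h => by linarith [h.1, h1.2]), if_pos ⟨h1.1, by linarith [h1.2]⟩]
    simp
  · rw [if_neg h1, zero_add]
    by_cases h2 : b < k ∧ k < c
    · rw [if_pos h2, if_pos ⟨by linarith [h2.1], h2.2⟩]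
    · rw [if_neg h2]; split_ifs <;> norm_num

open Classical in
theorem assemble {Λ : Type*} (α β : Λ → ℝ) (hαβ : ∀ l, α l < β l) (h0 : ∀ l, 0 < α l)
    (disj : ∀ l l', l ≠ l' → β l < α l' ∨ β l' < α l) {η w C₀ : ℝ} (hη : 0 < η)
    (S : Finset Λ) :
    ∀ x, 0 < x → (∀ l ∈ S, β l < x) → w + 66 * (x - ∑ l ∈ S, (β l - α l)) ≤ 1 - η →
    ∀ ε, 0 < ε → ∃ C q₀ : ℝ, ∀ q, q₀ ≤ q → ∀ (ψs : Λ → ℝ → ℝ) (φs : Λ → ℝ),
      (∀ l, Adm (ψs l) (C₀ * q ^ 2) (η * q ^ 2) ((w - η) * q ^ 2)) →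
      ∀ tx φ : ℝ, (η * q ^ 2 ≤ tx ∧ tx ≤ (w - η) * q ^ 2) →
      ∃ ψ, Adm ψ (C * q ^ 2) (η * q ^ 2) ((1 - η) * q ^ 2) ∧ ψ x = tx ∧
        ee (phA ψ 0 x) = ee φ ∧ ∀ k,
          q * ‖osc ψ 0 x k - ∑ l ∈ S, ee (φs l) * osc (ψs l) (α l) (β l) k‖ ≤
          ε + if w * q ^ 2 < k ∧ k < (w + 66 * (x - ∑ l ∈ S, (β l - α l))) * q ^ 2
            then 1 / 2 else 0 := by
  induction S using Finset.induction_on_max_value α with
  | empty =>
    intro x hx _ hb ε hε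
    simp only [Finset.sum_empty, sub_zero] at hb ⊢
    obtain ⟨C, q₀, H⟩ := bridge (a := 0) (b := x) (w := w) (w' := w) hx hη le_rfl
      (by linarith) hε
    refine ⟨C, q₀, fun q hq _ _ _ tx φ htx => ?_⟩
    obtain ⟨ψ, A, -, b, p, o⟩ := H q hq tx tx φ htx htx
    refine ⟨ψ, A, b, p, fun k => ?_⟩
    simpa using o k
  | insert a s has hmax ih =>
    intro x _ hx hb ε hε
    have hlt : ∀ l ∈ s, β l < α a := fun l hl => by
      rcases disj l a (fun h => has (h ▸ hl)) with h | h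
      · exact h
      · linarith [hmax l hl, hαβ a]
    have hax := hx a (Finset.mem_insert_self _ _)
    have hsum := sum_len_le α β hαβ h0 disj s (α a) (h0 a) hlt
    simp only [Finset.sum_insert has] at hb ⊢
    set w₁ : ℝ := w + 66 * (α a - ∑ l ∈ s, (β l - α l)) with hw₁
    have hw₂ : w + 66 * (x - (β a - α a + ∑ l ∈ s, (β l - α l))) = w₁ + 66 * (x - β a) := by
      rw [hw₁]; ring
    rw [hw₂] at hb ⊢
    have hww : w ≤ w₁ := by rw [hw₁]; linarith
    obtain ⟨C₁, q₁, H₁⟩ := ih (α a) (h0 a) hlt (by linarith) (ε / 2) (by positivity)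
    obtain ⟨C₂, q₂, H₂⟩ := bridge (a := β a) (b := x) (w := w) (w' := w₁) hax hη hww hb
      (half_pos hε)
    refine ⟨C₁ + C₀ + C₂, max (max q₁ q₂) 0, fun q hq ψs φs hψ tx φ htx => ?_⟩
    have hq1 : q₁ ≤ q := ((le_max_left _ _).trans (le_max_left _ _)).trans hq
    have hq2 : q₂ ≤ q := ((le_max_right _ _).trans (le_max_left _ _)).trans hq
    have hq0 : 0 ≤ q := (le_max_right _ _).trans hq
    obtain ⟨ψ₁, A1, b1, p1, o1⟩ := H₁ q hq1 ψs φs hψ (ψs a (α a)) (φs a) ((hψ a).rng _)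
    obtain ⟨ψ₃, A3, a3, b3, p3, o3⟩ := H₂ q hq2 (ψs a (β a)) tx
      (φ - φs a - phA (ψs a) (α a) (β a)) ((hψ a).rng _) htx
    have hN : 0 ≤ q ^ 2 := sq_nonneg q
    have A2 : Adm (ψs a) (C₀ * q ^ 2) (η * q ^ 2) ((1 - η) * q ^ 2) :=
      (hψ a).mono le_rfl le_rfl (by gcongr; linarith)
    obtain ⟨ψ₄, A4, -, b4, p4, o4⟩ := glue A1 A2 (a := 0) (b := α a) (c := β a) (h0 a).le
      (hαβ a).le b1
    obtain ⟨ψ, A5, -, b5, p5, o5⟩ := glue A4 A3 (a := 0) (b := β a) (c := x)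
      (by linarith [h0 a, hαβ a]) hax.le (b4.trans a3.symm)
    refine ⟨ψ, A5.mono (le_of_eq (by ring)) le_rfl le_rfl, b5.trans b3, ?_, fun k => ?_⟩
    · rw [p5, p4, ee_add, ee_add, p1, p3, ← ee_add, ← ee_add]; congr 1; ring
    · rw [o5, o4, p1]
      have e : osc ψ₁ 0 (α a) k + ee (φs a) * osc (ψs a) (α a) (β a) k +
          ee (phA ψ₄ 0 (β a)) * osc ψ₃ (β a) x k - (ee (φs a) * osc (ψs a) (α a) (β a) k +
            ∑ l ∈ s, ee (φs l) * osc (ψs l) (α l) (β l) k) =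
          (osc ψ₁ 0 (α a) k - ∑ l ∈ s, ee (φs l) * osc (ψs l) (α l) (β l) k) +
            ee (phA ψ₄ 0 (β a)) * osc ψ₃ (β a) x k := by ring
      rw [e]
      have g1 := norm_add_le (osc ψ₁ 0 (α a) k - ∑ l ∈ s, ee (φs l) * osc (ψs l) (α l) (β l) k)
        (ee (phA ψ₄ 0 (β a)) * osc ψ₃ (β a) x k)
      rw [norm_mul, norm_ee, one_mul] at g1
      have g2 := mul_le_mul_of_nonneg_left g1 hq0
      rw [mul_add] at g2
      have g3 := o1 k
      have g4 := o3 k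
      have g5 : w * q ^ 2 ≤ w₁ * q ^ 2 := by gcongr
      have g6 : w₁ * q ^ 2 ≤ (w₁ + 66 * (x - β a)) * q ^ 2 := by gcongr; linarith
      have g7 := ite_add_le k g5 g6
      rw [← hw₁] at g3
      linarith

end Crest.Agent.R75
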