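import Crest.Agent.R75.Glue

set_option autoImplicit false

namespace Crest.Agent.R75

open Real Complex Set MeasureTheory Filter Topology
open scoped ComplexConjugate

/-- distance to the nearest integer -/
noncomputable def dz (x : ℝ) : ℝ := |x - round x|

lemma dz_le (x : ℝ) (n : ℤ) : dz x ≤ |x - n| := round_le x n

lemma dz_lip (x y : ℝ) : |dz y - dz x| ≤ |y - x| := by
  have key : ∀ x y : ℝ, dz y - dz x ≤ |y - x| := by
    intro x y
    have h1 := dz_le y (round x)
    have h2 := abs_sub_le y x (round x)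
    unfold dz at *
    linarith
  rw [abs_le]
  constructor
  · have := key y x; rw [abs_sub_comm] at this; linarith
  · exact key x y

lemma dz_neg (x : ℝ) : dz (-x) = dz x := by
  have key : ∀ x : ℝ, dz (-x) ≤ dz x := by
    intro x
    refine (dz_le (-x) (-round x)).trans (le_of_eq ?_)
    unfold dz
    rw [← abs_neg]; congr 1; push_cast; ring
  apply le_antisymm (key x)
  simpa using key (-x)

lemma dz_add_one (x : ℝ) : dz (x + 1) = dz x := by
  unfold dz; rw [round_add_one]; congr 1; push_cast; ring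

lemma dz_of_mem {x : ℝ} (hx : x ∈ Icc (0 : ℝ) (1 / 2)) : dz x = x := by
  apply le_antisymm
  · simpa [abs_of_nonneg hx.1] using dz_le x 0
  · unfold dz
    by_cases h : round x = 0
    · rw [h]; simp [le_abs_self]
    · have h1 : (1 : ℝ) ≤ |((round x : ℤ) : ℝ)| := by
        rw [← Int.cast_abs]; exact_mod_cast Int.one_le_abs h
      have h2 := abs_sub_abs_le_abs_sub ((round x : ℤ) : ℝ) x
      rw [abs_sub_comm, abs_of_nonneg hx.1] at h2
      linarith [hx.2]

lemma norm_dirichlet_le (A : ℕ) (u : ℝ) : ‖∑ a ∈ Finset.range A, ee (a * u)‖ ≤ A := by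
  refine (norm_sum_le _ _).trans ?_
  simp

lemma norm_dirichlet_mul_le (A : ℕ) {u : ℝ} (hu : |u| ≤ 1 / 2) :
    ‖∑ a ∈ Finset.range A, ee (a * u)‖ * |u| ≤ 1 / 2 := by
  have h1 : 4 * |u| ≤ ‖ee u - 1‖ := by
    unfold ee
    have : (2 * π * u * I : ℂ) = I * ((2 * π * u : ℝ) : ℂ) := by push_cast; ring
    rw [this, Complex.norm_exp_I_mul_ofReal_sub_one]
    have h2 := Real.mul_abs_le_abs_sin (x := π * u) (by
      rw [abs_mul, abs_of_pos Real.pi_pos]
      have := Real.pi_pos
      nlinarith)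
    rw [abs_mul, abs_of_pos Real.pi_pos] at h2
    have h3 : 2 / π * (π * |u|) = 2 * |u| := by field_simp
    rw [h3] at h2
    have h4 : 2 * π * u / 2 = π * u := by ring
    rw [h4, Real.norm_eq_abs, abs_mul, abs_two]
    linarith
  have h2 : ‖∑ a ∈ Finset.range A, ee (a * u)‖ * ‖ee u - 1‖ ≤ 2 := by
    simp_rw [ee_nat_mul]
    rw [← norm_mul, geom_sum_mul]
    refine (norm_sub_le _ _).trans ?_
    simp; norm_num
  have := mul_le_mul_of_nonneg_left h1 (norm_nonneg (∑ a ∈ Finset.range A, ee (a * u)))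
  linarith

lemma int_ee_int (n : ℤ) : ∫ u in (-(1 / 2) : ℝ)..(1 / 2), ee (n * u) = if n = 0 then 1 else 0 := by
  split_ifs with h
  · subst h; simp; norm_num
  · have hn : (2 * π * I * n : ℂ) ≠ 0 := by simp [Real.pi_ne_zero, h]
    have := intervalIntegral.integral_eq_sub_of_hasDerivAt (a := -(1 / 2)) (b := 1 / 2)
      (f := fun u => ee (n * u) / (2 * π * I * n)) (f' := fun u => ee (n * u))
      (fun x _ => by
        have := (HasDerivAt.ee_comp ((hasDerivAt_id x).const_mul (n : ℝ))).div_const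
          (2 * π * I * n : ℂ)
        refine HasDerivAt.congr_deriv this ?_
        simp only [id, mul_one, Complex.ofReal_intCast]
        field_simp)
      (by apply Continuous.intervalIntegrable; fun_prop)
    rw [this]
    have e : ee (n * (1 / 2)) = ee (n * -(1 / 2)) := by
      rw [← ee_add_int (n * -(1 / 2)) n]; congr 1; ring
    rw [e, sub_self]

lemma int_inv_sq_le {ρ : ℝ} (hρ : 0 < ρ) :
    ∫ u in (-(1 / 2) : ℝ)..(1 / 2), 1 / (u ^ 2 + ρ ^ 2) ≤ π / ρ := by
  have := intervalIntegral.integral_eq_sub_of_hasDerivAt (a := -(1 / 2)) (b := 1 / 2)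
    (f := fun u => Real.arctan (u / ρ) / ρ) (f' := fun u => 1 / (u ^ 2 + ρ ^ 2))
    (fun x _ => by
      have := (((hasDerivAt_id x).div_const ρ).arctan).div_const ρ
      refine HasDerivAt.congr_deriv this ?_
      simp only [id]
      field_simp; ring)
    (by
      apply Continuous.intervalIntegrable
      exact continuous_const.div (by fun_prop) (fun x => by positivity))
  rw [this, ← sub_div]
  gcongr
  have h1 := Real.arctan_lt_pi_div_two (1 / 2 / ρ)
  have h2 := Real.neg_pi_div_two_lt_arctan (-(1 / 2) / ρ)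
  linarith

theorem kernel (C η ε : ℝ) (hη : 0 < η) (hε : 0 < ε) :
    ∃ N₀ : ℕ, ∀ N ≥ N₀, ∀ ψ : ℝ → ℝ, Adm ψ (C * N) (η * N) ((1 - η) * N) →
      ee (phA ψ 0 (1 / 2)) = 1 → ∃ m : ℕ → ℝ, (∀ k, 0 ≤ m k ∧ m k ≤ 1) ∧ ∀ θ : ℝ,
        |‖∑ k ∈ Finset.range N, ((m k * (2 * (osc ψ 0 (1 / 2) k).re) : ℝ) : ℂ) * ee (k * θ)‖ - 1|
          ≤ ε := by
  set c₁ : ℝ := 2 * π * (|C| / (2 * η) + 1 / 2) with hc₁
  have hc₁0 : 0 < c₁ := by positivity
  obtain ⟨N₀, hN₀⟩ := exists_nat_ge (max (2 / η) ((π * (1 / η + c₁) / ε) ^ 2))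
  refine ⟨N₀, fun N hN ψ H hph => ?_⟩
  have hN' : (N₀ : ℝ) ≤ N := by exact_mod_cast hN
  have hN1 : 2 ≤ η * N := by
    have : 2 / η ≤ N := ((le_max_left _ _).trans hN₀).trans hN'
    rw [div_le_iff₀ hη] at this; linarith
  have hN0 : (0 : ℝ) < N := by
    by_contra h; push Not at h; nlinarith
  obtain ⟨q, hq0, hq⟩ : ∃ q : ℝ, 0 < q ∧ q ^ 2 = N := ⟨√N, Real.sqrt_pos.mpr hN0, Real.sq_sqrt hN0.le⟩
  have hq1 : π * (1 / η + c₁) / ε ≤ q := by
    have : (π * (1 / η + c₁) / ε) ^ 2 ≤ q ^ 2 := by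
      rw [hq]; exact ((le_max_right _ _).trans hN₀).trans hN'
    exact le_of_sq_le_sq this hq0.le
  set A : ℕ := ⌊η * N⌋₊ with hA
  have hA1 : (A : ℝ) ≤ η * N := Nat.floor_le (by linarith)
  have hA2 : η * N / 2 ≤ A := by have := Nat.lt_floor_add_one (η * N); linarith
  have hA0 : (0 : ℝ) < A := by linarith
  have hAN : A ≤ N := by
    have := (H.rng 0).1.trans (H.rng 0).2
    have : (A : ℝ) ≤ N := by linarith
    exact_mod_cast this
  set B : ℕ := N - A + 1 with hB
  set m : ℕ → ℝ := fun k => (∑ a ∈ Finset.range A, if a ≤ k ∧ k < a + B then (1 : ℝ) else 0) / A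
    with hm
  set K : ℝ → ℂ := fun u => ∑ k ∈ Finset.range N, (m k : ℂ) * ee (k * u) with hK
  have hKD : ∀ u, K u = (∑ a ∈ Finset.range A, ee (a * u)) * (∑ b ∈ Finset.range B, ee (b * u)) / A := by
    intro u
    simp only [hK, hm]
    push_cast
    simp_rw [div_mul_eq_mul_div, Finset.sum_mul]
    rw [← Finset.sum_div, Finset.sum_comm]
    congr 1
    apply Finset.sum_congr rfl
    intro a ha
    rw [Finset.mem_range] at ha
    have e1 : ∀ k : ℕ, ((if a ≤ k ∧ k < a + B then (1 : ℝ) else 0 : ℝ) : ℂ) * ee (k * u) =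
        if k ∈ Finset.Ico a (a + B) then ee (k * u) else 0 := by
      intro k
      simp only [Finset.mem_Ico]
      split_ifs <;> simp
    simp_rw [e1]
    rw [Finset.sum_ite_mem, Finset.inter_eq_right.mpr, Finset.sum_Ico_eq_sum_range,
      Nat.add_sub_cancel_left, Finset.mul_sum]
    · apply Finset.sum_congr rfl
      intro b _
      rw [← ee_add]; congr 1; push_cast; ring
    · intro k hk
      rw [Finset.mem_Ico] at hk
      rw [Finset.mem_range]; omega
  have cK : Continuous K := by simp only [hK]; fun_prop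
  have pK : Function.Periodic K 1 := by
    intro u
    simp only [hK]
    apply Finset.sum_congr rfl
    intro k _
    rw [← ee_add_int (k * u) k]; congr 2; push_cast; ring
  refine ⟨m, fun k => ⟨?_, ?_⟩, fun θ => ?_⟩
  · exact div_nonneg (Finset.sum_nonneg fun a _ => by split_ifs <;> norm_num) hA0.le
  · simp only [hm]
    rw [div_le_one hA0]
    refine (Finset.sum_le_card_nsmul _ _ 1 fun a _ => by split_ifs <;> norm_num).trans ?_
    simp
  set χ : ℝ → ℝ := fun x => ψ (dz x) with hχ
  have Hχ : Adm χ (C * N) (η * N) ((1 - η) * N) :=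
    ⟨fun x y => (H.lip _ _).trans (mul_le_mul_of_nonneg_left (dz_lip x y) H.nonneg),
      fun x => H.rng _⟩
  have hE : EqOn χ ψ (Icc 0 (1 / 2)) := fun x hx => by simp only [hχ, dz_of_mem hx]
  have cχ := Hχ.cont
  set Φ : ℝ → ℝ := phA χ 0 with hΦ
  have cΦ : Continuous Φ := continuous_phA cχ 0
  have hodd : ∀ x, Φ (-x) = -Φ x := by
    intro x
    simp only [hΦ, phA]
    have := intervalIntegral.integral_comp_neg (a := 0) (b := x) χ
    simp only [hχ, dz_neg, neg_zero] at this ⊢
    rw [this, intervalIntegral.integral_symm]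
  have hper : ∀ x, ee (Φ (x + 1)) = ee (Φ x) := by
    intro x
    have pχ : Function.Periodic χ 1 := fun x => by simp only [hχ, dz_add_one]
    have e1 : phA χ x (x + 1) = phA χ (-(1 / 2)) (1 / 2) := by
      have := pχ.intervalIntegral_add_eq x (-(1 / 2))
      rw [show (-(1 / 2) + 1 : ℝ) = 1 / 2 by norm_num] at this
      exact this
    have e2 := phA_add cχ 0 (-(1 / 2)) (1 / 2)
    have e3 := hodd (1 / 2)
    have e4 : Φ (x + 1) = Φ x + Φ (1 / 2) + Φ (1 / 2) := by
      simp only [hΦ] at e3 ⊢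
      rw [phA_add cχ 0 x (x + 1), e1]; linarith
    have e5 : ee (Φ (1 / 2)) = 1 := by
      simp only [hΦ]; rw [phA_congr hE ⟨by norm_num, le_rfl⟩, hph]
    rw [e4, ee_add, ee_add, e5, mul_one, mul_one]
  have hcoef : ∀ k : ℕ, (((2 * (osc ψ 0 (1 / 2) k).re) : ℝ) : ℂ) =
      ∫ t in (-(1 / 2) : ℝ)..(1 / 2), ee (Φ t - k * t) := by
    intro k
    have c1 : Continuous fun t => ee (Φ t - k * t) := by fun_prop
    rw [← intervalIntegral.integral_add_adjacent_intervals (b := 0) (c1.intervalIntegrable _ _)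
      (c1.intervalIntegrable _ _), ← osc_congr (by norm_num) hE]
    have e1 := intervalIntegral.integral_comp_neg (a := 0) (b := 1 / 2)
      (fun t => ee (Φ t - k * t))
    rw [neg_zero] at e1
    rw [← e1]
    have e2 : ∀ x, ee (Φ (-x) - k * -x) = ee (-(Φ x - k * x)) := by
      intro x; rw [hodd]; congr 1; ring
    simp_rw [e2]
    rw [int_ee_neg, add_comm]
    exact (Complex.add_conj _).symm
  have hconv : ∑ k ∈ Finset.range N, ((m k * (2 * (osc ψ 0 (1 / 2) k).re) : ℝ) : ℂ) * ee (k * θ) =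
      ∫ u in (-(1 / 2) : ℝ)..(1 / 2), ee (Φ (θ - u)) * K u := by
    have e1 : ∑ k ∈ Finset.range N, ((m k * (2 * (osc ψ 0 (1 / 2) k).re) : ℝ) : ℂ) * ee (k * θ) =
        ∫ t in (-(1 / 2) : ℝ)..(1 / 2), ee (Φ t) * K (θ - t) := by
      simp only [hK]
      simp_rw [Finset.mul_sum]
      rw [intervalIntegral.integral_finsetSum]
      · apply Finset.sum_congr rfl
        intro k _
        rw [Complex.ofReal_mul, hcoef, ← intervalIntegral.integral_const_mul,
          ← intervalIntegral.integral_mul_const]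
        congr 1; funext t
        have : ee (Φ t - k * t) * ee (k * θ) = ee (Φ t) * ee (k * (θ - t)) := by
          rw [← ee_add, ← ee_add]; congr 1; ring
        linear_combination (m k : ℂ) * this
      · intro k _
        apply Continuous.intervalIntegrable; fun_prop
    have e2 := intervalIntegral.integral_comp_sub_left (a := -(1 / 2)) (b := 1 / 2)
      (fun u => ee (Φ (θ - u)) * K u) θ
    simp only [sub_sub_cancel] at e2
    have pp : Function.Periodic (fun u => ee (Φ (θ - u)) * K u) 1 := by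
      intro u
      simp only
      rw [pK u, ← hper (θ - (u + 1))]; congr 3; ring
    have e3 := pp.intervalIntegral_add_eq (θ - 1 / 2) (-(1 / 2))
    rw [show (-(1 / 2) + 1 : ℝ) = 1 / 2 by norm_num,
      show (θ - 1 / 2 + 1 : ℝ) = θ - -(1 / 2) by ring] at e3
    rw [e1, e2, e3]
  set k₀ : ℕ := ⌊χ θ⌋₊ with hk₀
  have hχ0 : 0 ≤ χ θ := by linarith [(Hχ.rng θ).1]
  have hk1 : (k₀ : ℝ) ≤ χ θ := Nat.floor_le hχ0
  have hk2 : χ θ < k₀ + 1 := Nat.lt_floor_add_one _
  have hk3 : A ≤ k₀ := Nat.floor_le_floor (Hχ.rng θ).1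
  have hk4 : k₀ + A ≤ N := by
    have : (k₀ : ℝ) + A ≤ N := by linarith [(Hχ.rng θ).2]
    exact_mod_cast this
  have hA0' : 0 < A := by exact_mod_cast hA0
  have hmk : m k₀ = 1 := by
    simp only [hm]
    rw [div_eq_one_iff_eq hA0.ne', Finset.sum_congr rfl (g := fun _ => 1)]
    · simp
    · intro a ha
      rw [Finset.mem_range] at ha
      rw [if_pos (by omega)]
  have hone : ∫ u in (-(1 / 2) : ℝ)..(1 / 2), ee (Φ θ - k₀ * u) * K u = ee (Φ θ) := by
    simp only [hK]
    simp_rw [Finset.mul_sum]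
    rw [intervalIntegral.integral_finsetSum]
    · have e1 : ∀ k : ℕ, ∫ u in (-(1 / 2) : ℝ)..(1 / 2), ee (Φ θ - k₀ * u) * ((m k : ℂ) * ee (k * u))
          = if k = k₀ then ee (Φ θ) else 0 := by
        intro k
        have e2 : ∀ u, ee (Φ θ - k₀ * u) * ((m k : ℂ) * ee (k * u)) =
            ee (Φ θ) * m k * ee (((k - k₀ : ℤ) : ℝ) * u) := by
          intro u
          have : ee (Φ θ - k₀ * u) * ee (k * u) = ee (Φ θ) * ee (((k - k₀ : ℤ) : ℝ) * u) := by
            rw [← ee_add, ← ee_add]; congr 1; push_cast; ring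
          linear_combination (m k : ℂ) * this
        simp_rw [e2]
        rw [intervalIntegral.integral_const_mul, int_ee_int]
        by_cases h : k = k₀
        · subst h; simp [hmk]
        · rw [if_neg h, if_neg (by omega), mul_zero]
      simp_rw [e1]
      rw [Finset.sum_ite_eq', if_pos (Finset.mem_range.mpr (by omega))]
    · intro k _
      apply Continuous.intervalIntegrable; fun_prop
  have hdiff : ‖(∫ u in (-(1 / 2) : ℝ)..(1 / 2), ee (Φ (θ - u)) * K u) - ee (Φ θ)‖ ≤ ε := by
    rw [← hone, ← intervalIntegral.integral_sub (by apply Continuous.intervalIntegrable; fun_prop)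
      (by apply Continuous.intervalIntegrable; fun_prop)]
    set ρ : ℝ := 1 / q with hρ
    have hρ0 : 0 < ρ := by positivity
    refine (intervalIntegral.norm_integral_le_of_norm_le (by norm_num)
      (g := fun u => (1 / (2 * A) + c₁ * ρ ^ 2) * (1 / (u ^ 2 + ρ ^ 2)))
      (Eventually.of_forall fun u hu => ?_) ?_).trans ?_
    · have hu' : |u| ≤ 1 / 2 := abs_le.mpr ⟨hu.1.le, hu.2⟩
      rw [← sub_mul, norm_mul, mul_one_div, le_div_iff₀ (by positivity)]
      have d1 : ‖ee (Φ (θ - u)) - ee (Φ θ - k₀ * u)‖ ≤ 2 := by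
        refine (norm_sub_le _ _).trans ?_; simp; norm_num
      have d2 : ‖ee (Φ (θ - u)) - ee (Φ θ - k₀ * u)‖ ≤ 2 * π * ((|C| * N * |u| + 1) * |u|) := by
        refine (norm_ee_sub_le _ _).trans ?_
        gcongr
        have := abs_sub_le_of_deriv (f := fun x => Φ x - k₀ * x) (f' := fun x => χ x - k₀)
          (a := θ - |u|) (b := θ + |u|) (x := θ) (y := θ - u) (c := |C| * N * |u| + 1)
          ⟨by linarith [abs_nonneg u], by linarith [abs_nonneg u]⟩
          ⟨by linarith [le_abs_self u], by linarith [neg_abs_le u]⟩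
          (fun t _ => by
            have := (hasDerivAt_phA cχ 0 t).sub ((hasDerivAt_id t).const_mul (k₀ : ℝ))
            refine HasDerivAt.congr_deriv this ?_
            simp)
          (fun t ht => by
            have f1 := Hχ.lip θ t
            have f2 : |t - θ| ≤ |u| := abs_le.mpr ⟨by linarith [ht.1], by linarith [ht.2]⟩
            have f3 : C * N * |t - θ| ≤ |C| * N * |u| := by
              gcongr; exact le_abs_self C
            have f4 := abs_le.mp (f1.trans f3)
            rw [abs_le]; constructor <;> linarith [f4.1, f4.2])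
        have e1 : Φ (θ - u) - (Φ θ - k₀ * u) = Φ (θ - u) - k₀ * (θ - u) - (Φ θ - k₀ * θ) := by ring
        have e2 : |θ - u - θ| = |u| := by rw [← abs_neg]; congr 1; ring
        rw [e1]; rw [e2] at this; exact this
      have k1 := norm_dirichlet_le A u
      have k2 := norm_dirichlet_mul_le A hu'
      have k3 := norm_dirichlet_mul_le B hu'
      set a := ‖∑ a ∈ Finset.range A, ee (a * u)‖ with ha
      set b := ‖∑ b ∈ Finset.range B, ee (b * u)‖ with hb
      have ha0 : 0 ≤ a := norm_nonneg _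
      have hb0 : 0 ≤ b := norm_nonneg _
      have hKn : ‖K u‖ = a * b / A := by rw [hKD, norm_div, norm_mul, Complex.norm_natCast]
      have k4 : ‖K u‖ * |u| ≤ 1 / 2 := by
        rw [hKn]
        calc a * b / A * |u| = (a / A) * (b * |u|) := by ring
          _ ≤ 1 * (1 / 2) := by
            apply mul_le_mul _ k3 (by positivity) zero_le_one
            rw [div_le_one hA0]; exact k1
          _ = _ := by ring
      have k5 : ‖K u‖ * |u| ^ 2 ≤ 1 / (4 * A) := by
        rw [hKn]
        calc a * b / A * |u| ^ 2 = (a * |u|) * (b * |u|) / A := by ring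
          _ ≤ (1 / 2) * (1 / 2) / A := by gcongr
          _ = _ := by field_simp; norm_num
      have hK0 := norm_nonneg (K u)
      have k6 : ‖ee (Φ (θ - u)) - ee (Φ θ - k₀ * u)‖ * ‖K u‖ ≤ c₁ := by
        calc _ ≤ 2 * π * ((|C| * N * |u| + 1) * |u|) * ‖K u‖ := by gcongr
          _ = 2 * π * (|C| * N * (‖K u‖ * |u| ^ 2) + ‖K u‖ * |u|) := by ring
          _ ≤ 2 * π * (|C| * N * (1 / (4 * A)) + 1 / 2) := by gcongr
          _ ≤ 2 * π * (|C| * N * (1 / (4 * (η * N / 2))) + 1 / 2) := by gcongr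
          _ = c₁ := by rw [hc₁]; field_simp; ring
      have k7 : ‖ee (Φ (θ - u)) - ee (Φ θ - k₀ * u)‖ * ‖K u‖ * u ^ 2 ≤ 1 / (2 * A) := by
        calc _ ≤ 2 * ‖K u‖ * u ^ 2 := by gcongr
          _ = 2 * (‖K u‖ * |u| ^ 2) := by rw [sq_abs]; ring
          _ ≤ 2 * (1 / (4 * A)) := by gcongr
          _ = _ := by field_simp; norm_num
      have k8 := mul_le_mul_of_nonneg_right k6 (sq_nonneg ρ)
      rw [mul_add]; linarith
    · apply Continuous.intervalIntegrable
      exact continuous_const.mul (continuous_const.div (by fun_prop) (fun x => by positivity))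
    · rw [intervalIntegral.integral_const_mul]
      calc _ ≤ (1 / (2 * A) + c₁ * ρ ^ 2) * (π / ρ) := by
            gcongr; exact int_inv_sq_le hρ0
        _ ≤ (1 / (2 * (η * N / 2)) + c₁ * ρ ^ 2) * (π / ρ) := by gcongr
        _ = π * (1 / η + c₁) / q := by rw [hρ, ← hq]; field_simp
        _ ≤ ε := by
            rw [div_le_iff₀ hε] at hq1
            rw [div_le_iff₀ hq0]; linarith
  rw [hconv]
  have := abs_norm_sub_norm_le (∫ u in (-(1 / 2) : ℝ)..(1 / 2), ee (Φ (θ - u)) * K u) (ee (Φ θ))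
  rw [norm_ee] at this
  exact this.trans hdiff

end Crest.Agent.R75
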