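import Crest.Agent.R75.Basic

set_option autoImplicit false

namespace Crest.Agent.R75

open Real Complex Set MeasureTheory Filter Topology
open scoped ComplexConjugate

lemma sub_ge_of_deriv {f f' : ℝ → ℝ} {x y c : ℝ} (hxy : x ≤ y)
    (hf : ∀ t ∈ Icc x y, HasDerivAt f (f' t) t) (hc : ∀ t ∈ Icc x y, c ≤ f' t) :
    c * (y - x) ≤ f y - f x := by
  rcases hxy.eq_or_lt with rfl | hlt
  · simp
  obtain ⟨t, ht, h⟩ := exists_hasDerivAt_eq_slope f f' hlt
    (fun t ht => (hf t ht).continuousAt.continuousWithinAt)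
    (fun t ht => hf t (Ioo_subset_Icc_self ht))
  have := hc t (Ioo_subset_Icc_self ht)
  rw [h, le_div_iff₀ (by linarith)] at this
  exact this

lemma abs_sub_le_of_deriv {f f' : ℝ → ℝ} {a b x y c : ℝ} (hx : x ∈ Icc a b) (hy : y ∈ Icc a b)
    (hf : ∀ t ∈ Icc a b, HasDerivAt f (f' t) t) (hc : ∀ t ∈ Icc a b, |f' t| ≤ c) :
    |f y - f x| ≤ c * |y - x| := by
  have := (convex_Icc a b).norm_image_sub_le_of_norm_hasDerivWithin_le
    (fun t ht => (hf t ht).hasDerivWithinAt) (fun t ht => by simpa using hc t ht) hx hy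
  simpa using this

lemma mono_ibp {Φ Φ' h h' : ℝ → ℝ} {a b M : ℝ} (hab : a ≤ b)
    (hΦ : ∀ x ∈ Icc a b, HasDerivAt Φ (Φ' x) x) (hh : ∀ x ∈ Icc a b, HasDerivAt h (h' x) x)
    (cΦ : ContinuousOn Φ' (Icc a b)) (ch : ContinuousOn h' (Icc a b))
    (hs : (∀ x ∈ Icc a b, 0 ≤ h' x) ∨ (∀ x ∈ Icc a b, h' x ≤ 0))
    (ha : |h a| ≤ M) (hb : |h b| ≤ M) :
    ‖∫ x in a..b, ((h x * Φ' x : ℝ) : ℂ) * ee (Φ x)‖ ≤ M := by
  have cΦ0 : ContinuousOn Φ (Icc a b) := fun x hx => (hΦ x hx).continuousAt.continuousWithinAt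
  have ch0 : ContinuousOn h (Icc a b) := fun x hx => (hh x hx).continuousAt.continuousWithinAt
  have ce : ContinuousOn (fun x => ee (Φ x)) (Icc a b) := continuous_ee.comp_continuousOn cΦ0
  have c1 : ContinuousOn (fun x => ((h x * Φ' x : ℝ) : ℂ) * ee (Φ x)) (Icc a b) :=
    (Complex.continuous_ofReal.comp_continuousOn (ch0.mul cΦ)).mul ce
  have c2 : ContinuousOn (fun x => ((h' x : ℝ) : ℂ) * ee (Φ x)) (Icc a b) :=
    (Complex.continuous_ofReal.comp_continuousOn ch).mul ce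
  have i1 : IntervalIntegrable (fun x => ((h x * Φ' x : ℝ) : ℂ) * ee (Φ x)) volume a b :=
    c1.intervalIntegrable_of_Icc hab
  have i2 : IntervalIntegrable (fun x => ((h' x : ℝ) : ℂ) * ee (Φ x)) volume a b :=
    c2.intervalIntegrable_of_Icc hab
  have hd : ∀ x ∈ uIcc a b, HasDerivAt (fun x => (h x : ℂ) * ee (Φ x))
      ((h' x : ℂ) * ee (Φ x) + 2 * π * I * (((h x * Φ' x : ℝ) : ℂ) * ee (Φ x))) x := by
    intro x hx
    rw [uIcc_of_le hab] at hx
    have := (hh x hx).ofReal_comp.mul (HasDerivAt.ee_comp (hΦ x hx))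
    refine HasDerivAt.congr_deriv this ?_
    push_cast; ring
  have ftc := intervalIntegral.integral_eq_sub_of_hasDerivAt hd (i2.add (i1.const_mul _))
  rw [intervalIntegral.integral_add i2 (i1.const_mul _), intervalIntegral.integral_const_mul]
    at ftc
  have hvar : ‖∫ x in a..b, ((h' x : ℝ) : ℂ) * ee (Φ x)‖ ≤ 2 * M := by
    refine (intervalIntegral.norm_integral_le_integral_norm hab).trans ?_
    have ftc2 := intervalIntegral.integral_eq_sub_of_hasDerivAt
      (fun x hx => hh x (by rwa [uIcc_of_le hab] at hx)) (ch.intervalIntegrable_of_Icc hab)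
    rw [abs_le] at ha hb
    rcases hs with hs | hs
    · rw [intervalIntegral.integral_congr (g := h'), ftc2]
      · linarith
      · intro x hx
        rw [uIcc_of_le hab] at hx
        simp [abs_of_nonneg (hs x hx)]
    · rw [intervalIntegral.integral_congr (g := fun x => - h' x), intervalIntegral.integral_neg,
        ftc2]
      · linarith
      · intro x hx
        rw [uIcc_of_le hab] at hx
        simp [abs_of_nonpos (hs x hx)]
  have e1 : 2 * π * I * ∫ x in a..b, ((h x * Φ' x : ℝ) : ℂ) * ee (Φ x) =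
      (h b : ℂ) * ee (Φ b) - (h a : ℂ) * ee (Φ a) - ∫ x in a..b, ((h' x : ℝ) : ℂ) * ee (Φ x) := by
    rw [← ftc]; ring
  have e2 : 2 * π * ‖∫ x in a..b, ((h x * Φ' x : ℝ) : ℂ) * ee (Φ x)‖ ≤ 4 * M := by
    have := congrArg norm e1
    rw [norm_mul] at this
    have e3 : ‖(2 * π * I : ℂ)‖ = 2 * π := by simp [abs_of_pos Real.pi_pos]
    rw [e3] at this
    rw [this]
    refine (norm_sub_le _ _).trans ?_
    have e4 := norm_sub_le ((h b : ℂ) * ee (Φ b)) ((h a : ℂ) * ee (Φ a))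
    simp only [norm_mul, norm_ee, mul_one, Complex.norm_real, Real.norm_eq_abs] at e4
    linarith
  have := Real.pi_gt_three
  have hM : 0 ≤ M := (abs_nonneg _).trans ha
  nlinarith [norm_nonneg (∫ x in a..b, ((h x * Φ' x : ℝ) : ℂ) * ee (Φ x))]

/-- twice continuously differentiable phase -/
structure C2 (Φ Φ' Φ'' : ℝ → ℝ) : Prop where
  d1 : ∀ x, HasDerivAt Φ (Φ' x) x
  d2 : ∀ x, HasDerivAt Φ' (Φ'' x) x
  c3 : Continuous Φ''

lemma C2.c1 {Φ Φ' Φ'' : ℝ → ℝ} (H : C2 Φ Φ' Φ'') : Continuous Φ :=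
  continuous_iff_continuousAt.mpr fun x => (H.d1 x).continuousAt

lemma C2.c2 {Φ Φ' Φ'' : ℝ → ℝ} (H : C2 Φ Φ' Φ'') : Continuous Φ' :=
  continuous_iff_continuousAt.mpr fun x => (H.d2 x).continuousAt

lemma C2.ii {Φ Φ' Φ'' : ℝ → ℝ} (H : C2 Φ Φ' Φ'') (a b : ℝ) :
    IntervalIntegrable (fun x => ee (Φ x)) volume a b :=
  (continuous_ee.comp H.c1).intervalIntegrable a b

/-- first derivative test -/
lemma first_deriv {Φ Φ' Φ'' : ℝ → ℝ} (H : C2 Φ Φ' Φ'') {a b d : ℝ} (hab : a ≤ b) (hd : 0 < d)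
    (hs : (∀ x ∈ Icc a b, 0 ≤ Φ'' x) ∨ (∀ x ∈ Icc a b, Φ'' x ≤ 0))
    (hΦ : ∀ x ∈ Icc a b, d ≤ |Φ' x|) : ‖∫ x in a..b, ee (Φ x)‖ ≤ 1 / d := by
  have hne : ∀ x ∈ Icc a b, Φ' x ≠ 0 := by
    intro x hx h; have := hΦ x hx; rw [h, abs_zero] at this; linarith
  have hb : ∀ x ∈ Icc a b, |(Φ' x)⁻¹| ≤ 1 / d := by
    intro x hx; rw [abs_inv, one_div]; exact inv_anti₀ hd (hΦ x hx)
  have := mono_ibp (Φ := Φ) (Φ' := Φ') (h := fun x => (Φ' x)⁻¹)
    (h' := fun x => -Φ'' x / (Φ' x) ^ 2) (M := 1 / d) hab (fun x _ => H.d1 x)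
    (fun x hx => (H.d2 x).inv (hne x hx)) H.c2.continuousOn
    (H.c3.neg.continuousOn.div (H.c2.pow 2).continuousOn fun x hx => pow_ne_zero _ (hne x hx))
    (by
      rcases hs with hs | hs
      · right; intro x hx
        exact div_nonpos_of_nonpos_of_nonneg (by linarith [hs x hx]) (sq_nonneg _)
      · left; intro x hx
        exact div_nonneg (by linarith [hs x hx]) (sq_nonneg _))
    (hb a ⟨le_rfl, hab⟩) (hb b ⟨hab, le_rfl⟩)
  rw [intervalIntegral.integral_congr (g := fun x => ee (Φ x))] at this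
  · exact this
  · intro x hx
    rw [uIcc_of_le hab] at hx
    simp [inv_mul_cancel₀ (hne x hx)]

lemma norm_int_ee_le (Φ : ℝ → ℝ) {a b : ℝ} (hab : a ≤ b) : ‖∫ x in a..b, ee (Φ x)‖ ≤ b - a := by
  have := intervalIntegral.norm_integral_le_of_norm_le_const (a := a) (b := b) (C := 1)
    (f := fun x => ee (Φ x)) (fun x _ => (norm_ee _).le)
  rwa [one_mul, abs_of_nonneg (by linarith)] at this

/-- second derivative test, convex phase -/
lemma vdc_pos {Φ Φ' Φ'' : ℝ → ℝ} (H : C2 Φ Φ' Φ'') {a b r : ℝ} (hab : a ≤ b) (hr : 0 < r)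
    (hΦ : ∀ x ∈ Icc a b, 1 / r ^ 2 ≤ Φ'' x) : ‖∫ x in a..b, ee (Φ x)‖ ≤ 4 * r := by
  have hl : 0 < 1 / r ^ 2 := by positivity
  have hgrow : ∀ x ∈ Icc a b, ∀ y ∈ Icc a b, x ≤ y → 1 / r ^ 2 * (y - x) ≤ Φ' y - Φ' x := by
    intro x hx y hy hxy
    exact sub_ge_of_deriv hxy (fun t _ => H.d2 t)
      (fun t ht => hΦ t ⟨hx.1.trans ht.1, ht.2.trans hy.2⟩)
  obtain ⟨u, hu, hu1, hu2⟩ : ∃ u ∈ Icc a b, (u < b → 0 ≤ Φ' u) ∧ (a < u → Φ' u ≤ 0) := by
    by_cases h1 : 0 ≤ Φ' a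
    · exact ⟨a, ⟨le_rfl, hab⟩, fun _ => h1, fun h => absurd h (lt_irrefl _)⟩
    by_cases h2 : Φ' b ≤ 0
    · exact ⟨b, ⟨hab, le_rfl⟩, fun h => absurd h (lt_irrefl _), fun _ => h2⟩
    push Not at h1 h2
    obtain ⟨u, hu, h0⟩ := intermediate_value_Icc hab H.c2.continuousOn ⟨h1.le, h2.le⟩
    exact ⟨u, hu, fun _ => h0.ge, fun _ => h0.le⟩
  have e0 : 1 / r ^ 2 * r = 1 / r := by field_simp
  have e1 : 1 / (1 / r) = r := by field_simp
  have hL : ‖∫ x in a..u, ee (Φ x)‖ ≤ 2 * r := by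
    by_cases h : u - r ≤ a
    · exact (norm_int_ee_le Φ hu.1).trans (by linarith)
    · push Not at h
      rw [← intervalIntegral.integral_add_adjacent_intervals (b := u - r) (H.ii _ _) (H.ii _ _)]
      refine (norm_add_le _ _).trans ?_
      have f1 := norm_int_ee_le Φ (a := u - r) (b := u) (by linarith)
      have f2 := first_deriv H (a := a) (b := u - r) (d := 1 / r) h.le (by positivity)
        (Or.inl fun x hx => hl.le.trans (hΦ x ⟨hx.1, by linarith [hx.2, hu.2]⟩)) (by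
          intro x hx
          have g1 := hgrow x ⟨hx.1, by linarith [hx.2, hu.2]⟩ u hu (by linarith [hx.2])
          have g2 := hu2 (by linarith)
          have g3 : 1 / r ^ 2 * r ≤ 1 / r ^ 2 * (u - x) := by gcongr; linarith [hx.2]
          rw [le_abs]; right; linarith)
      linarith
  have hR : ‖∫ x in u..b, ee (Φ x)‖ ≤ 2 * r := by
    by_cases h : b ≤ u + r
    · exact (norm_int_ee_le Φ hu.2).trans (by linarith)
    · push Not at h
      rw [← intervalIntegral.integral_add_adjacent_intervals (b := u + r) (H.ii _ _) (H.ii _ _)]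
      refine (norm_add_le _ _).trans ?_
      have f1 := norm_int_ee_le Φ (a := u) (b := u + r) (by linarith)
      have f2 := first_deriv H (a := u + r) (b := b) (d := 1 / r) h.le (by positivity)
        (Or.inl fun x hx => hl.le.trans (hΦ x ⟨by linarith [hx.1, hu.1], hx.2⟩)) (by
          intro x hx
          have g1 := hgrow u hu x ⟨by linarith [hx.1, hu.1], hx.2⟩ (by linarith [hx.1])
          have g2 := hu1 (by linarith)
          have g3 : 1 / r ^ 2 * r ≤ 1 / r ^ 2 * (x - u) := by gcongr; linarith [hx.1]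
          rw [le_abs]; left; linarith)
      linarith
  rw [← intervalIntegral.integral_add_adjacent_intervals (b := u) (H.ii _ _) (H.ii _ _)]
  refine (norm_add_le _ _).trans ?_
  linarith

lemma int_ee_neg (Φ : ℝ → ℝ) (a b : ℝ) :
    ∫ x in a..b, ee (-Φ x) = conj (∫ x in a..b, ee (Φ x)) := by
  simp_rw [← conj_ee]
  simp only [intervalIntegral, integral_conj, map_sub]

lemma C2.neg {Φ Φ' Φ'' : ℝ → ℝ} (H : C2 Φ Φ' Φ'') :
    C2 (fun x => -Φ x) (fun x => -Φ' x) (fun x => -Φ'' x) :=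
  ⟨fun x => (H.d1 x).neg, fun x => (H.d2 x).neg, H.c3.neg⟩

/-- second derivative test -/
lemma vdc {Φ Φ' Φ'' : ℝ → ℝ} (H : C2 Φ Φ' Φ'') {a b r : ℝ} (hab : a ≤ b) (hr : 0 < r)
    (hΦ : (∀ x ∈ Icc a b, 1 / r ^ 2 ≤ Φ'' x) ∨ (∀ x ∈ Icc a b, 1 / r ^ 2 ≤ -Φ'' x)) :
    ‖∫ x in a..b, ee (Φ x)‖ ≤ 4 * r := by
  rcases hΦ with h | h
  · exact vdc_pos H hab hr h
  · have := vdc_pos H.neg hab hr h
    rwa [int_ee_neg, Complex.norm_conj] at this

/-- truncated Fresnel integral -/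
noncomputable def fres (R : ℝ) : ℂ := ∫ v in (-R)..R, ee (v ^ 2 / 2)

lemma gauss_tail (η : ℝ) (hη : 0 ≤ η) {a b R : ℝ} (hR : 0 < R) (hab : a ≤ b)
    (h : ∀ x ∈ Icc a b, R ≤ |x|) :
    ‖∫ v in a..b, ((Real.exp (-η * v ^ 2) : ℝ) : ℂ) * ee (v ^ 2 / 2)‖ ≤ 1 / R := by
  have hne : ∀ x ∈ Icc a b, x ≠ 0 := by
    intro x hx h0; have := h x hx; rw [h0, abs_zero] at this; linarith
  have hb : ∀ x ∈ Icc a b, |Real.exp (-η * x ^ 2) / x| ≤ 1 / R := by
    intro x hx
    rw [abs_div, abs_of_pos (Real.exp_pos _)]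
    have : Real.exp (-η * x ^ 2) ≤ 1 := Real.exp_le_one_iff.mpr (by nlinarith [sq_nonneg x])
    gcongr
    exact h x hx
  have := mono_ibp (Φ := fun v => v ^ 2 / 2) (Φ' := fun v => v)
    (h := fun v => Real.exp (-η * v ^ 2) / v)
    (h' := fun v => -(Real.exp (-η * v ^ 2) * (2 * η * v ^ 2 + 1) / v ^ 2)) (M := 1 / R) hab
    (fun x _ => by
      have := (hasDerivAt_pow 2 x).div_const 2
      refine HasDerivAt.congr_deriv this ?_
      simp)
    (fun x hx => by
      have h1 : HasDerivAt (fun v : ℝ => Real.exp (-η * v ^ 2))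
          (Real.exp (-η * x ^ 2) * (-η * (2 * x))) x := by
        have := ((hasDerivAt_pow 2 x).const_mul (-η)).exp
        refine HasDerivAt.congr_deriv this ?_
        simp
      have := h1.div (hasDerivAt_id x) (hne x hx)
      refine HasDerivAt.congr_deriv this ?_
      simp only [id]; ring)
    continuousOn_id
    (by
      apply ContinuousOn.neg
      apply ContinuousOn.div (by fun_prop) (by fun_prop)
      intro x hx; exact pow_ne_zero _ (hne x hx))
    (Or.inr fun x _ => by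
      have : 0 ≤ Real.exp (-η * x ^ 2) * (2 * η * x ^ 2 + 1) / x ^ 2 := by positivity
      linarith)
    (hb a ⟨le_rfl, hab⟩) (hb b ⟨hab, le_rfl⟩)
  rw [intervalIntegral.integral_congr
    (g := fun v => ((Real.exp (-η * v ^ 2) : ℝ) : ℂ) * ee (v ^ 2 / 2))] at this
  · exact this
  · intro x hx
    rw [uIcc_of_le hab] at hx
    simp only
    rw [div_mul_cancel₀ _ (hne x hx)]

lemma gauss_mid (η : ℝ) (hη : 0 < η) {R : ℝ} (hR : 0 < R) :
    ‖∫ v in (-R)..R, ((Real.exp (-η * v ^ 2) : ℝ) : ℂ) * ee (v ^ 2 / 2)‖ ≤ 1 + 2 / R := by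
  set F : ℝ → ℂ := fun v => ((Real.exp (-η * v ^ 2) : ℝ) : ℂ) * ee (v ^ 2 / 2) with hF
  set b : ℂ := η - π * I with hb
  have hbre : 0 < b.re := by simp [hb, hη]
  have hFe : F = fun x : ℝ => cexp (-b * (x : ℂ) ^ 2) := by
    funext x
    simp only [hF, ee, hb]
    rw [Complex.ofReal_exp, ← Complex.exp_add]; congr 1; push_cast; ring
  have hint : Integrable F := hFe ▸ integrable_cexp_neg_mul_sq hbre
  have hval : ‖∫ x, F x‖ ≤ 1 := by
    rw [hFe, integral_gaussian_complex hbre]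
    have : (1 / 2 : ℂ) = ((1 / 2 : ℝ) : ℂ) := by push_cast; ring
    rw [this, Complex.norm_cpow_real]
    apply Real.rpow_le_one (norm_nonneg _) _ (by norm_num)
    have h1 : π ≤ ‖b‖ := by
      have := Complex.abs_im_le_norm b
      simpa [hb, abs_of_pos Real.pi_pos] using this
    rw [norm_div, Complex.norm_real, Real.norm_eq_abs, abs_of_pos Real.pi_pos,
      div_le_one (Real.pi_pos.trans_le h1)]
    exact h1
  have hlim : Tendsto (fun S : ℝ => ‖∫ v in (-S)..S, F v‖ + 2 / R) atTop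
      (𝓝 (‖∫ x, F x‖ + 2 / R)) :=
    ((intervalIntegral_tendsto_integral hint tendsto_neg_atTop_atBot tendsto_id).norm).add_const _
  have hev : ∀ᶠ S in atTop, ‖∫ v in (-R)..R, F v‖ ≤ ‖∫ v in (-S)..S, F v‖ + 2 / R := by
    filter_upwards [eventually_ge_atTop R] with S hS
    have t1 := gauss_tail η hη.le (a := -S) (b := -R) hR (by linarith)
      (fun x hx => by rw [le_abs]; right; linarith [hx.2])
    have t2 := gauss_tail η hη.le (a := R) (b := S) hR hS
      (fun x hx => by rw [le_abs]; left; linarith [hx.1])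
    have ii : ∀ a b : ℝ, IntervalIntegrable F volume a b := fun a b => hint.intervalIntegrable
    have e : ∫ v in (-R)..R, F v = (∫ v in (-S)..S, F v) - (∫ v in (-S)..(-R), F v) -
        ∫ v in R..S, F v := by
      rw [← intervalIntegral.integral_add_adjacent_intervals (a := -S) (b := -R) (c := S)
        (ii _ _) (ii _ _), ← intervalIntegral.integral_add_adjacent_intervals (a := -R) (b := R)
        (c := S) (ii _ _) (ii _ _)]
      ring
    rw [e]
    refine (norm_sub_le _ _).trans ?_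
    have := norm_sub_le (∫ v in (-S)..S, F v) (∫ v in (-S)..(-R), F v)
    have e2 : 2 / R = 1 / R + 1 / R := by ring
    simp only [hF] at this ⊢
    linarith
  have := ge_of_tendsto hlim hev
  linarith

lemma norm_fres_le {R : ℝ} (hR : 0 < R) : ‖fres R‖ ≤ 1 + 2 / R := by
  apply le_of_forall_pos_le_add
  intro ε hε
  set η : ℝ := ε / (2 * R ^ 3) with hη
  have hη0 : 0 < η := by positivity
  have h1 := gauss_mid η hη0 hR
  have c1 : Continuous fun v : ℝ => ee (v ^ 2 / 2) := by fun_prop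
  have c2 : Continuous fun v : ℝ => ((Real.exp (-η * v ^ 2) : ℝ) : ℂ) * ee (v ^ 2 / 2) := by
    fun_prop
  have h2 : ‖fres R - ∫ v in (-R)..R, ((Real.exp (-η * v ^ 2) : ℝ) : ℂ) * ee (v ^ 2 / 2)‖ ≤ ε := by
    unfold fres
    rw [← intervalIntegral.integral_sub (c1.intervalIntegrable _ _) (c2.intervalIntegrable _ _)]
    refine (intervalIntegral.norm_integral_le_of_norm_le_const (C := η * R ^ 2) ?_).trans ?_
    · intro x hx
      rw [uIoc_of_le (by linarith)] at hx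
      have e : ee (x ^ 2 / 2) - ((Real.exp (-η * x ^ 2) : ℝ) : ℂ) * ee (x ^ 2 / 2) =
          ((1 - Real.exp (-η * x ^ 2) : ℝ) : ℂ) * ee (x ^ 2 / 2) := by push_cast; ring
      rw [e, norm_mul, norm_ee, mul_one, Complex.norm_real, Real.norm_eq_abs]
      have g1 : Real.exp (-η * x ^ 2) ≤ 1 := Real.exp_le_one_iff.mpr (by nlinarith [sq_nonneg x])
      have g2 := Real.add_one_le_exp (-η * x ^ 2)
      have g3 : x ^ 2 ≤ R ^ 2 := by nlinarith [hx.1, hx.2]
      rw [abs_of_nonneg (by linarith)]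
      nlinarith
    · rw [abs_of_pos (by linarith), hη]; apply le_of_eq; field_simp; ring
  have := norm_sub_norm_le (fres R)
    (∫ v in (-R)..R, ((Real.exp (-η * v ^ 2) : ℝ) : ℂ) * ee (v ^ 2 / 2))
  linarith

end Crest.Agent.R75
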