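import Crest.Agent.R75.Arith
import Crest.Agent.R75.Family
import Crest.Agent.R75.Analysis

set_option autoImplicit false

namespace Crest.Agent.R75

open Finset Real
open scoped ComplexConjugate

open Classical in
lemma packing_of_circle {δ : ℝ} {Λ Bk : Type} [Fintype Λ] [Fintype Bk] (blk : Λ → Bk)
    (p l φ : Λ → ℝ) (hJ : 0 < Fintype.card Bk) (hl : ∀ i, 0 < l i)
    (hsep : ∀ i i' (e m : ℤ), (e = 1 ∨ e = -1) → |p i - e * p i' - m| ≤ (l i + l i') / 2 →
      i = i' ∧ e = 1)
    (hcov : (1 - δ) / 2 ≤ ∑ i, l i)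
    (hsup : ∀ (j : Bk) (k : ℤ) (H : ℝ), |∑ i with blk i = j,
      2 * √(Fintype.card Bk * l i) * Real.cos (2 * π * (φ i - k * p i + l i * H))| ≤ 1 + δ) :
    Packing δ := by
  set s : Λ → ℤ := fun i => if 0 ≤ p i - round (p i) then 1 else -1 with hs
  have hs1 : ∀ i, s i = 1 ∨ s i = -1 := fun i => by simp only [hs]; split_ifs <;> simp
  have hs2 : ∀ i, 0 ≤ (s i : ℝ) * (p i - round (p i)) := fun i => by
    simp only [hs]; split_ifs with h
    · simpa using h
    · push Not at h; push_cast; linarith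
  have hs3 : ∀ i, (s i : ℝ) * (p i - round (p i)) ≤ 1 / 2 := fun i => by
    have := abs_le.mp (abs_sub_round (p i))
    rcases hs1 i with h | h <;> rw [h] <;> push_cast <;> linarith [this.1, this.2]
  have habs : ∀ i, |(s i : ℝ) * l i| = l i := fun i => by
    rcases hs1 i with h | h <;> simp [h, abs_of_pos (hl i)]
  refine ⟨Λ, Bk, inferInstance, inferInstance, blk, fun i => s i * (p i - round (p i)),
    fun i => s i * l i, fun i => s i * φ i, hJ, fun i => ?_, fun i => ?_, fun i => ?_,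
    fun i i' hne => ?_, by simpa only [habs] using hcov, fun j k H => ?_⟩
  · rw [← abs_pos, habs]; exact hl i
  · rw [habs]
    by_contra h
    push Not at h
    have := (hsep i i (-1) (2 * round (p i)) (Or.inr rfl) (by
      have h2 := hs2 i
      rw [abs_le]
      rcases hs1 i with h1 | h1 <;> rw [h1] at h h2 <;> push_cast at h h2 ⊢ <;>
        constructor <;> linarith [hl i])).2
    omega
  · rw [habs]
    by_contra h
    push Not at h
    have := (hsep i i (-1) (2 * round (p i) + s i) (Or.inr rfl) (by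
      have h2 := hs3 i
      rw [abs_le]
      rcases hs1 i with h1 | h1 <;> rw [h1] at h h2 ⊢ <;> push_cast at h h2 ⊢ <;>
        constructor <;> linarith [hl i])).2
    omega
  · rw [habs, habs]
    by_contra h
    push Not at h
    apply hne
    refine (hsep i i' (s i * s i') (round (p i) - s i * s i' * round (p i')) ?_ ?_).1
    · rcases hs1 i with h1 | h1 <;> rcases hs1 i' with h2 | h2 <;> simp [h1, h2]
    · obtain ⟨g1, g2⟩ := h
      rw [abs_le]
      rcases hs1 i with h1 | h1 <;> rcases hs1 i' with h2 | h2 <;> rw [h1, h2] at g1 g2 ⊢ <;>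
        push_cast at g1 g2 ⊢ <;> constructor <;> linarith
  · simp only [habs]
    convert hsup j k H using 3 with i
    congr 1
    rw [← Real.cos_add_int_mul_two_pi (2 * π * (φ i - k * p i + l i * H)) (k * round (p i))]
    rcases hs1 i with h1 | h1 <;> rw [h1]
    · congr 1; push_cast; ring
    · rw [← Real.cos_neg]; congr 1; push_cast; ring

lemma int_sep {P nb : ℕ} {Z u t : ℤ} (hZ : Z = u + P * t) (h1 : |Z| < nb)
    (h2 : |u| + 2 * nb ≤ P) : t = 0 := by
  by_contra h
  have h3 : (1 : ℤ) ≤ |t| := Int.one_le_abs h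
  have h4 : (P : ℤ) * 1 ≤ P * |t| := by gcongr
  have h5 : |(P : ℤ) * t| ≤ |Z| + |u| := by
    have : (P : ℤ) * t = Z - u := by linarith
    rw [this]; exact abs_sub _ _
  rw [abs_mul, abs_of_nonneg (by positivity : (0 : ℤ) ≤ P)] at h5
  have := abs_nonneg Z
  omega

theorem packing {δ : ℝ} (hδ : 0 < δ) (hδ1 : δ ≤ 1 / 100) : Packing δ := by
  classical
  obtain ⟨ι, _, n, μ, c, hn, hprop, hc, hsup, hen⟩ := exists_family (half_pos hδ)
  set w : ι → ℝ := fun i => 2 * ‖c i‖ ^ 2 with hw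
  have hc0 : ∀ i, 0 < ‖c i‖ := fun i => norm_pos_iff.mpr (hc i)
  have hw0 : ∀ i, 0 < w i := fun i => by have := hc0 i; simp only [hw]; positivity
  have hc1 : ∀ i, ‖c i‖ ≤ 1 := fun i => by
    have : w i ≤ 1 := hen ▸ Finset.single_le_sum (fun i _ => (hw0 i).le) (Finset.mem_univ i)
    simp only [hw] at this
    nlinarith [hc0 i]
  have hne : Nonempty ι := by
    by_contra h
    rw [not_nonempty_iff] at h
    simp at hen
  have hG1 : (1 : ℝ) ≤ Fintype.card ι := by exact_mod_cast Fintype.card_pos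
  obtain ⟨η, hη0, hη1, hη2⟩ : ∃ η : ℝ, 0 < η ∧ 16 * Fintype.card ι * η = δ ∧ η ≤ δ / 16 := by
    refine ⟨δ / (16 * Fintype.card ι), by positivity, by field_simp, ?_⟩
    gcongr; linarith
  set nb : ℕ := ∑ i, n i with hnb
  have hnb' : ∀ i, n i ≤ nb := fun i =>
    Finset.single_le_sum (f := n) (fun _ _ => Nat.zero_le _) (Finset.mem_univ i)
  obtain ⟨P, Γ, _, g₁, g₂, X, hP, hdiv, hX, hcol, hload, hΓ1, hΓ2⟩ :=
    grid n μ hn hprop hw0 hen hη0 nb
  choose car hcar using hdiv
  set pi0 : ℝ := ∏ i, w i with hpi0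
  set pi1 : ι → ℝ := fun i => ∏ l ∈ univ.erase i, w l with hpi1
  have hp0 : 0 < pi0 := Finset.prod_pos fun i _ => hw0 i
  have hp1 : ∀ i, 0 < pi1 i := fun i => Finset.prod_pos fun i _ => hw0 i
  have hp3 : ∀ i, w i * pi1 i = pi0 := fun i => Finset.mul_prod_erase _ _ (Finset.mem_univ i)
  have hP' : (0 : ℝ) < P := by exact_mod_cast hP
  have hn' : ∀ i, (0 : ℝ) < n i := fun i => by exact_mod_cast hn i
  set m : ι → ℕ := fun i => ⌊(1 + η) * P * pi1 i⌋₊ with hm
  have hrk : ∀ i, ∃ rk : Γ → Fin (m i), ∀ γ γ', X i γ = X i γ' → rk γ = rk γ' → γ = γ' :=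
    fun i => exists_rank (X i) (m i) fun u => Nat.le_floor (hload i u)
  choose rk hrk using hrk
  set R : ℕ := 2 * (∏ i, n i) *
    ∏ p : ι × ι, (if p.1 = p.2 then 1 else (n p.1 * μ p.2 - n p.2 * μ p.1 : ℤ).natAbs) with hR
  have hR0 : 0 < R := by
    apply Nat.mul_pos (Nat.mul_pos two_pos (Finset.prod_pos fun i _ => hn i))
    apply Finset.prod_pos
    intro p _
    split_ifs with h
    · exact one_pos
    · exact Int.natAbs_pos.mpr (sub_ne_zero.mpr (hprop _ _ h))
  obtain ⟨W, q, hW, hqq, hqR, hq⟩ := exists_moduli (fun i => 2 * n i * ((1 + η) * P * pi1 i))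
    (fun i => by have := hn' i; have := hp1 i; positivity) hη0 R hR0
  have hW' : (0 : ℝ) < W := by exact_mod_cast hW
  have hq0' : ∀ i, (0 : ℝ) < q i := fun i => by
    have h1 := hn' i; have h2 := hp1 i
    exact lt_of_lt_of_le (by positivity) (hq i).1
  have hq0 : ∀ i, 0 < q i := fun i => by exact_mod_cast hq0' i
  have hcR : ∀ i (d : ℤ), d ∣ R → IsCoprime d (q i : ℤ) := fun i d hd =>
    (Nat.isCoprime_iff_coprime.mpr (hqR i).symm).of_isCoprime_of_dvd_left hd
  have hc2 : ∀ i, IsCoprime 2 (q i : ℤ) := fun i => hcR i 2 (by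
    rw [hR]; push_cast; exact Dvd.dvd.mul_right (Dvd.intro _ rfl) _)
  have hcn : ∀ i, IsCoprime (n i : ℤ) (q i : ℤ) := fun i => hcR i _ (by
    rw [hR, Int.natCast_dvd_natCast]
    exact Dvd.dvd.mul_right (Dvd.dvd.mul_left (Finset.dvd_prod_of_mem _ (Finset.mem_univ i)) _) _)
  have hcΔ : ∀ i l, i ≠ l → IsCoprime (n i * μ l - n l * μ i : ℤ) (q l : ℤ) := fun i l hil =>
    hcR l _ (by
      rw [hR, ← Int.natAbs_dvd, Int.natCast_dvd_natCast]
      apply Dvd.dvd.mul_left
      have := Finset.dvd_prod_of_mem (fun p : ι × ι =>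
        if p.1 = p.2 then 1 else (n p.1 * μ p.2 - n p.2 * μ p.1 : ℤ).natAbs)
        (Finset.mem_univ (i, l))
      simpa only [if_neg hil] using this)
  have hqq' : ∀ i l, i ≠ l → IsCoprime (q i : ℤ) (q l : ℤ) := fun i l h =>
    Nat.isCoprime_iff_coprime.mpr (hqq i l h)
  -- residues
  have hcode : ∀ i, ∃ code : Γ × Fin W → ℕ, (∀ b b', code b + code b' + 1 < q i) ∧
      ∀ b b', code b = code b' → |(X i b.1 : ℤ) - X i b'.1| < n i → b = b' := by
    intro i
    set e := Fintype.equivFin (Fin (n i) × Fin (m i) × Fin W) with he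
    have hcard : 2 * Fintype.card (Fin (n i) × Fin (m i) × Fin W) + 1 ≤ q i := by
      have h1 : (m i : ℝ) ≤ (1 + η) * P * pi1 i := Nat.floor_le (by have := hp1 i; positivity)
      have h2 : (2 * (n i * (m i * W)) + 1 : ℝ) ≤ q i := by
        refine le_trans ?_ (hq i).1
        have : (n i : ℝ) * (m i * W) ≤ n i * (((1 + η) * P * pi1 i) * W) := by gcongr
        linarith
      simp only [Fintype.card_prod, Fintype.card_fin]
      exact_mod_cast h2
    refine ⟨fun b => e (⟨X i b.1 % n i, Nat.mod_lt _ (hn i)⟩, rk i b.1, b.2), fun b b' => ?_,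
      fun b b' h h' => ?_⟩
    · have h1 := (e (⟨X i b.1 % n i, Nat.mod_lt _ (hn i)⟩, rk i b.1, b.2)).2
      have h2 := (e (⟨X i b'.1 % n i, Nat.mod_lt _ (hn i)⟩, rk i b'.1, b'.2)).2
      simp only
      omega
    · have h1 := e.injective (Fin.ext h)
      simp only [Prod.mk.injEq, Fin.mk.injEq] at h1
      have h2 : X i b.1 = X i b'.1 := by
        have h3 : (n i : ℤ) ∣ (X i b.1 : ℤ) - X i b'.1 :=
          (Nat.modEq_iff_dvd.mp (h1.1.symm : X i b'.1 ≡ X i b.1 [MOD n i]))
        have := eq_of_dvd_of_abs_lt h3 h'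
        omega
      exact Prod.ext (hrk i _ _ h2 h1.2.1) h1.2.2
  choose code hcode1 hcode2 using hcode
  have hy : ∀ b : Γ × Fin W, ∃ y : ℤ, ∀ i, (q i : ℤ) ∣ n i * y - (code i b - car i b.1) :=
    fun b => crt (fun i => (q i : ℤ)) hqq' (fun i => n i) hcn _
  choose y hy using hy
  set Q : ι → ℕ := fun i => ∏ l ∈ univ.erase i, q l with hQ
  set QQ : ℕ := ∏ l, q l with hQQ
  have hQ0 : ∀ i, 0 < Q i := fun i => Finset.prod_pos fun l _ => hq0 l
  have hQ0' : ∀ i, (0 : ℝ) < Q i := fun i => by exact_mod_cast hQ0 i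
  have hqQ : ∀ i, q i * Q i = QQ := fun i => Finset.mul_prod_erase _ _ (Finset.mem_univ i)
  have hqQ' : ∀ i, (q i : ℝ) * Q i = QQ := fun i => by exact_mod_cast hqQ i
  have hQQ0 : (0 : ℝ) < QQ := by
    have : 0 < QQ := Finset.prod_pos fun l _ => hq0 l
    exact_mod_cast this
  have hgauss : ∀ i, ∃ γ : Fin (Q i) → ℂ, (∀ ξ, ‖γ ξ‖ ^ 2 = 1 / Q i) ∧ ∀ k : ℤ,
      ee (k ^ 2 * ∑ l, ((n i : ℝ) * μ l - n l * μ i) / q l) =
        ∑ ξ, γ ξ * ee (-(k * (ξ / Q i))) := by
    intro i
    obtain ⟨D, hD1, hD2⟩ := sum_frac (univ.erase i) (fun l => (q l : ℤ))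
      (fun l => n i * μ l - n l * μ i) (fun l => by exact_mod_cast (hq0 l).ne') hqq'
      (fun l hl => hcΔ i l (Finset.ne_of_mem_erase hl).symm)
    have hQi : (∏ l ∈ univ.erase i, (q l : ℤ)) = Q i := by simp [hQ]
    rw [hQi] at hD1 hD2
    obtain ⟨γ, h1, h2⟩ := gauss (Q i) (hQ0 i) D (IsCoprime.mul_left
      (hQi ▸ IsCoprime.prod_right fun l _ => hc2 l) hD1)
    refine ⟨γ, h1, fun k => ?_⟩
    rw [← h2, ← Finset.add_sum_erase _ _ (Finset.mem_univ i)]
    push_cast at hD2
    rw [hD2]; simp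
  choose γ hγ1 hγ2 using hgauss
  set J : ℝ := (Fintype.card (Γ × Fin W) : ℝ) with hJ
  have hJ' : J = Fintype.card Γ * W := by simp [hJ]
  have hΓ0 : (0 : ℝ) < Fintype.card Γ := lt_of_lt_of_le (by
    have : 0 < 1 - η := by linarith
    positivity) hΓ1
  set len : ι → ℝ := fun i => n i * (1 - η) / (P * QQ) with hlen
  have hlen0 : ∀ i, 0 < len i := fun i => by
    have := hn' i
    have : 0 < 1 - η := by linarith
    simp only [hlen]; positivity
  set r : ι → ℝ := fun i => √(J * len i * Q i) / ‖c i‖ with hr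
  have hJ0 : 0 < J := by rw [hJ']; positivity
  have hr0 : ∀ i, 0 ≤ r i := fun i => by simp only [hr]; positivity
  have hr2 : ∀ i, r i ^ 2 * ‖c i‖ ^ 2 = J * len i * Q i := fun i => by
    have := hc0 i
    simp only [hr]
    rw [div_pow, Real.sq_sqrt (by have := hlen0 i; positivity)]
    field_simp
  have hr3 : ∀ i, 1 - 4 * η ≤ r i ^ 2 ∧ r i ^ 2 ≤ 1 := by
    intro i
    have h1 := hc0 i
    have h2 := hp1 i
    have h3 := hq0' i
    have h4 := hn' i
    have h5 := hQ0' i
    set Y : ℝ := 2 * n i * ((1 + η) * P * pi1 i) * W with hY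
    have hY0 : 0 < Y := by positivity
    have e1 : r i ^ 2 = (Fintype.card Γ / ((1 + η) * P ^ 2 * pi0)) * (1 - η) * (Y / q i) := by
      have e2 : r i ^ 2 = J * len i * Q i / ‖c i‖ ^ 2 := by rw [← hr2]; field_simp
      rw [e2, hJ', hY, ← hp3 i]
      simp only [hlen, hw]
      rw [← hqQ' i]
      field_simp
    have f1 : Fintype.card Γ / ((1 + η) * P ^ 2 * pi0) ≤ 1 := by
      rw [div_le_one (by positivity)]; exact hΓ2
    have f2 : 1 - 2 * η ≤ Fintype.card Γ / ((1 + η) * P ^ 2 * pi0) := by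
      rw [le_div_iff₀ (by positivity)]
      refine le_trans ?_ hΓ1
      rw [← mul_assoc, ← mul_assoc]
      gcongr
      nlinarith
    have f3 : Y / q i ≤ 1 := by
      rw [div_le_one h3]; linarith [(hq i).1]
    have f4 : 1 - η ≤ Y / q i := by
      rw [le_div_iff₀ h3]
      calc (1 - η) * q i ≤ (1 - η) * ((1 + η) * Y) := by
            gcongr
            · linarith
            · exact (hq i).2
        _ ≤ Y := by nlinarith [mul_pos hη0 hη0]
    have f5 : 0 ≤ 1 - η := by linarith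
    have f6 : 0 ≤ 1 - 2 * η := by linarith
    rw [e1]
    constructor
    · calc 1 - 4 * η ≤ (1 - 2 * η) * (1 - η) * (1 - η) := by nlinarith [mul_pos hη0 hη0]
        _ ≤ _ := by gcongr
    · calc _ ≤ (1 : ℝ) * 1 * 1 := by gcongr; linarith
        _ = 1 := by ring
  set C : (Γ × Fin W) × (Σ i, Fin (Q i)) → ℤ := fun a =>
    car a.2.1 a.1.1 + n a.2.1 * y a.1 + q a.2.1 * (a.2.2 : ℕ) with hC
  have hCc : ∀ a, (q a.2.1 : ℤ) ∣ C a - code a.2.1 a.1 := by
    intro a
    obtain ⟨t, ht⟩ := hy a.1 a.2.1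
    exact ⟨t + (a.2.2 : ℕ), by simp only [hC]; linear_combination ht⟩
  apply packing_of_circle (Λ := (Γ × Fin W) × (Σ i, Fin (Q i))) (Bk := Γ × Fin W) Prod.fst
    (fun a => ((X a.2.1 a.1.1 : ℝ) / P + C a) / QQ) (fun a => len a.2.1)
    (fun a => (c a.2.1 * γ a.2.1 a.2.2).arg / (2 * π)) (by rw [hJ] at hJ0; exact_mod_cast hJ0)
    (fun a => hlen0 _)
  · rintro ⟨b, i, ξ⟩ ⟨b', i', ξ'⟩ e t he hle
    set Z : ℤ := X i b.1 + P * C (b, ⟨i, ξ⟩) - e * (X i' b'.1 + P * C (b', ⟨i', ξ'⟩)) -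
      t * (P * QQ) with hZ
    have hZ1 : 2 * |Z| < n i + n i' := by
      have e1 : ((X i b.1 : ℝ) / P + C (b, ⟨i, ξ⟩)) / QQ -
          e * (((X i' b'.1 : ℝ) / P + C (b', ⟨i', ξ'⟩)) / QQ) - t = Z / (P * QQ) := by
        rw [hZ]; push_cast; field_simp
      simp only at hle
      rw [e1, abs_div, abs_of_pos (by positivity : (0 : ℝ) < P * QQ),
        div_le_iff₀ (by positivity)] at hle
      have e2 : (len i + len i') / 2 * (P * QQ) = (n i + n i') * (1 - η) / 2 := by
        simp only [hlen]; field_simp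
      rw [e2] at hle
      have : 2 * |(Z : ℝ)| < n i + n i' := by nlinarith [hn' i, hn' i']
      exact_mod_cast this
    have hZ2 : |Z| < nb := by have := hnb' i; have := hnb' i'; omega
    have x1 := hX i b.1
    have x2 := hX i' b'.1
    rcases he with rfl | rfl
    · have e1 : Z = (X i b.1 - X i' b'.1) +
          P * (C (b, ⟨i, ξ⟩) - C (b', ⟨i', ξ'⟩) - t * QQ) := by rw [hZ]; ring
      have e2 := int_sep e1 hZ2 (by
        have : |(X i b.1 : ℤ) - X i' b'.1| ≤ P - 2 * nb := by rw [abs_le]; omega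
        omega)
      rw [e2, mul_zero, add_zero] at e1
      have hii : i = i' := hcol i i' b.1 b'.1 (Or.inl (by rw [← e1]; omega))
      subst hii
      have d1 := hCc (b, ⟨i, ξ⟩)
      have d2 := hCc (b', ⟨i, ξ'⟩)
      simp only at d1 d2
      have d3 : (q i : ℤ) ∣ (code i b : ℤ) - code i b' := by
        have d4 : (q i : ℤ) ∣ t * QQ := by
          rw [← hqQ i]; push_cast; exact Dvd.dvd.mul_left (Dvd.intro _ rfl) _
        have := (d4.sub d1).add d2
        rwa [show t * QQ - (C (b, ⟨i, ξ⟩) - code i b) + (C (b', ⟨i, ξ'⟩) - code i b') =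
          (code i b : ℤ) - code i b' by linear_combination -e2] at this
      have d5 := eq_of_dvd_of_abs_lt d3 (by have := hcode1 i b b'; rw [abs_lt]; omega)
      have hbb : b = b' := hcode2 i b b' (by omega) (by rw [← e1]; omega)
      subst hbb
      have d6 : (Q i : ℤ) ∣ (ξ : ℕ) - (ξ' : ℕ) := by
        have h0 : (q i : ℤ) ≠ 0 := by exact_mod_cast (hq0 i).ne'
        refine ⟨t, mul_left_cancel₀ h0 ?_⟩
        have h1 : (q i : ℤ) * Q i = QQ := by exact_mod_cast hqQ i
        simp only [hC] at e2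
        linear_combination e2 - t * h1
      have d7 := eq_of_dvd_of_abs_lt d6 (by have := ξ.2; have := ξ'.2; rw [abs_lt]; omega)
      have : ξ = ξ' := Fin.ext (by omega)
      subst this
      exact ⟨rfl, rfl⟩
    · exfalso
      have e1 : Z = (X i b.1 + X i' b'.1 - P) +
          P * (C (b, ⟨i, ξ⟩) + C (b', ⟨i', ξ'⟩) + 1 - t * QQ) := by rw [hZ]; ring
      have e2 := int_sep e1 hZ2 (by
        have : |(X i b.1 : ℤ) + X i' b'.1 - P| ≤ P - 2 * nb := by rw [abs_le]; omega
        omega)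
      rw [e2, mul_zero, add_zero] at e1
      have hii : i = i' := hcol i i' b.1 b'.1 (Or.inr (by rw [← e1]; omega))
      subst hii
      have d1 := hCc (b, ⟨i, ξ⟩)
      have d2 := hCc (b', ⟨i, ξ'⟩)
      simp only at d1 d2
      have d3 : (q i : ℤ) ∣ (code i b : ℤ) + code i b' + 1 := by
        have d4 : (q i : ℤ) ∣ t * QQ := by
          rw [← hqQ i]; push_cast; exact Dvd.dvd.mul_left (Dvd.intro _ rfl) _
        have := (d4.sub d1).sub d2
        rwa [show t * QQ - (C (b, ⟨i, ξ⟩) - code i b) - (C (b', ⟨i, ξ'⟩) - code i b') =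
          (code i b : ℤ) + code i b' + 1 by linear_combination -e2] at this
      have d5 := eq_of_dvd_of_abs_lt d3 (by have := hcode1 i b b'; rw [abs_lt]; omega)
      omega
  · have e1 : ∑ a : (Γ × Fin W) × (Σ i, Fin (Q i)), len a.2.1 = ∑ i, r i ^ 2 * ‖c i‖ ^ 2 := by
      rw [Fintype.sum_prod_type]
      simp only [Finset.sum_const, Finset.card_univ, nsmul_eq_mul, hr2]
      rw [Fintype.sum_sigma, Finset.mul_sum]
      apply Finset.sum_congr rfl
      intro i _
      simp only [Finset.sum_const, Finset.card_univ, Fintype.card_fin, nsmul_eq_mul]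
      ring
    rw [e1]
    calc (1 - δ) / 2 ≤ (1 - 4 * η) / 2 * ∑ i, w i := by rw [hen]; linarith
      _ = ∑ i, (1 - 4 * η) * ‖c i‖ ^ 2 := by
        rw [Finset.mul_sum]
        apply Finset.sum_congr rfl
        intro i _; simp only [hw]; ring
      _ ≤ _ := Finset.sum_le_sum fun i _ => by gcongr; exact (hr3 i).1
  · intro b k H
    set x₀ : ℝ := -(k * ((g₁ b.1 / P + y b) / QQ)) + k ^ 2 * ∑ l, (μ l : ℝ) / q l +
      (1 - η) / (P * QQ) * H with hx₀
    set y₀ : ℝ := -(k * (g₂ b.1 / P / QQ)) - k ^ 2 * ∑ l, (n l : ℝ) / q l with hy₀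
    have key : ∀ i, ∑ ξ : Fin (Q i), 2 * √(J * len i) * Real.cos (2 * π *
        ((c i * γ i ξ).arg / (2 * π) - k * (((X i b.1 : ℝ) / P + C (b, ⟨i, ξ⟩)) / QQ) +
          len i * H)) = r i * (2 * (c i * ee (n i * x₀ + μ i * y₀)).re) := by
      intro i
      set θ : ℝ := -(k * (((X i b.1 : ℝ) / P + car i b.1 + n i * y b) / QQ)) + len i * H with hθ
      have e1 : n i * x₀ + μ i * y₀ = θ + k ^ 2 * ∑ l, ((n i : ℝ) * μ l - n l * μ i) / q l := by
        have f1 : ∑ l, ((n i : ℝ) * μ l - n l * μ i) / q l =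
            n i * ∑ l, (μ l : ℝ) / q l - μ i * ∑ l, (n l : ℝ) / q l := by
          rw [Finset.mul_sum, Finset.mul_sum, ← Finset.sum_sub_distrib]
          apply Finset.sum_congr rfl
          intro l _; ring
        have f2 : (car i b.1 : ℝ) = (n i * g₁ b.1 + μ i * g₂ b.1 - X i b.1) / P := by
          have : (n i * g₁ b.1 + μ i * g₂ b.1 - X i b.1 : ℝ) = P * car i b.1 := by
            exact_mod_cast hcar i b.1
          rw [this]; field_simp
        rw [f1, hθ, hx₀, hy₀, f2]
        simp only [hlen]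
        ring
      rw [e1, ee_add, hγ2, Finset.mul_sum, Finset.mul_sum, Complex.re_sum, Finset.mul_sum,
        Finset.mul_sum]
      apply Finset.sum_congr rfl
      intro ξ _
      have e2 : √(J * len i) = r i * ‖c i * γ i ξ‖ := by
        rw [Real.sqrt_eq_iff_mul_self_eq (by have := hlen0 i; positivity)
          (mul_nonneg (hr0 i) (norm_nonneg _)), ← sq, norm_mul, mul_pow, mul_pow, hγ1,
          ← mul_assoc, hr2]
        have := hQ0' i
        field_simp
      have e3 : c i * (ee θ * (γ i ξ * ee (-(k * (ξ / Q i))))) = (‖c i * γ i ξ‖ : ℂ) *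
          ee ((c i * γ i ξ).arg / (2 * π) - k * (((X i b.1 : ℝ) / P + C (b, ⟨i, ξ⟩)) / QQ) +
            len i * H) := by
        have f1 : (c i * γ i ξ).arg / (2 * π) - k * (((X i b.1 : ℝ) / P + C (b, ⟨i, ξ⟩)) / QQ) +
            len i * H = (c i * γ i ξ).arg / (2 * π) + (θ + -(k * (ξ / Q i))) := by
          have g1 := hq0' i
          have g2 := hQ0' i
          simp only [hθ, hC]
          rw [← hqQ' i]
          push_cast
          field_simp
          ring
        rw [f1, ee_add ((c i * γ i ξ).arg / (2 * π)), ← mul_assoc (‖c i * γ i ξ‖ : ℂ), ee_arg,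
          ee_add θ]; ring
      rw [e3, Complex.re_ofReal_mul, ee_re, e2]; ring
    have e1 : ∑ a : (Γ × Fin W) × (Σ i, Fin (Q i)) with a.1 = b,
        2 * √(J * len a.2.1) * Real.cos (2 * π *
          ((c a.2.1 * γ a.2.1 a.2.2).arg / (2 * π) -
            k * (((X a.2.1 a.1.1 : ℝ) / P + C a) / QQ) + len a.2.1 * H)) =
        ∑ i, r i * (2 * (c i * ee (n i * x₀ + μ i * y₀)).re) := by
      rw [Finset.sum_filter, Fintype.sum_prod_type, Finset.sum_eq_single b]
      · simp only [if_true]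
        rw [Fintype.sum_sigma]
        exact Finset.sum_congr rfl fun i _ => key i
      · intro b' _ hb'; simp [hb']
      · simp
    have e2 : |∑ i, r i * (2 * (c i * ee (n i * x₀ + μ i * y₀)).re)| ≤ 1 + δ := by
      have f1 : ∑ i, r i * (2 * (c i * ee (n i * x₀ + μ i * y₀)).re) =
          ∑ i, 2 * (c i * ee (n i * x₀ + μ i * y₀)).re +
            ∑ i, (r i - 1) * (2 * (c i * ee (n i * x₀ + μ i * y₀)).re) := by
        rw [← Finset.sum_add_distrib]
        apply Finset.sum_congr rfl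
        intro i _; ring
      have f2 : ∀ i, |(r i - 1) * (2 * (c i * ee (n i * x₀ + μ i * y₀)).re)| ≤ 8 * η := by
        intro i
        have g1 : |r i - 1| ≤ 4 * η := by
          have := hr3 i
          have := hr0 i
          rw [abs_le]; constructor <;> nlinarith
        have g2 : |(c i * ee (n i * x₀ + μ i * y₀)).re| ≤ 1 := by
          refine (Complex.abs_re_le_norm _).trans ?_
          rw [norm_mul, norm_ee, mul_one]; exact hc1 i
        rw [abs_mul, abs_mul, abs_two]
        calc _ ≤ 4 * η * (2 * 1) := by gcongr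
          _ = _ := by ring
      have f3 := (Finset.abs_sum_le_sum_abs _ _).trans
        (Finset.sum_le_card_nsmul Finset.univ _ _ fun i _ => f2 i)
      rw [Finset.card_univ, nsmul_eq_mul] at f3
      rw [f1]
      refine (abs_add_le _ _).trans ?_
      have := hsup x₀ y₀
      linarith
    rw [← e1] at e2
    convert e2

end Crest.Agent.R75
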