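import Crest.Agent.R75.Basic
import Crest.Agent.Lib.Disc.Spencer

set_option autoImplicit false

namespace Crest.Agent.R75

open Finset Real Complex
open scoped ComplexConjugate

lemma parseval_range (L M : ℕ) (hM : 0 < M) (hL : L ≤ M) (e : ℤ) (he : e = 1 ∨ e = -1)
    (c : ℕ → ℂ) :
    ∑ j ∈ range M, ‖∑ a ∈ range L, c a * ee (((e * a : ℤ) : ℝ) * (j / M))‖ ^ 2 =
      M * ∑ a ∈ range L, ‖c a‖ ^ 2 := by
  apply parseval_grid (range L) (fun a => e * a) c M hM
  intro a ha b hb h
  rw [Finset.mem_range] at ha hb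
  have := eq_of_dvd_of_abs_lt h (by rcases he with rfl | rfl <;> rw [abs_lt] <;> omega)
  rcases he with rfl | rfl <;> omega

/-- a polynomial of degree `< N` is controlled by its values at the `2N`-th roots of unity. -/
lemma sampling (N : ℕ) (hN : 0 < N) (p : ℕ → ℂ) (B : ℝ)
    (hB : ∀ j ∈ range (2 * N), ‖∑ k ∈ range N, p k * ee (k * (j / (2 * N : ℕ)))‖ ≤ B) (θ : ℝ) :
    ‖∑ k ∈ range N, p k * ee (k * θ)‖ ≤ 3 / 2 * B := by
  set M := 2 * N with hM
  have hM0 : 0 < M := by omega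
  set D₁ : ℕ → ℂ := fun j => ∑ a ∈ range N, ee (-a * θ) * ee (((1 * a : ℤ) : ℝ) * (j / M))
    with hD₁
  set D₂ : ℕ → ℂ := fun j => ∑ b ∈ range M, ee (b * θ) * ee (((-1 * b : ℤ) : ℝ) * (j / M))
    with hD₂
  have key : (M : ℂ) * N * ∑ k ∈ range N, p k * ee (k * θ) =
      ∑ j ∈ range M, (∑ k ∈ range N, p k * ee (k * (j / M))) * D₁ j * D₂ j := by
    have h1 : ∀ j : ℕ, (∑ k ∈ range N, p k * ee (k * (j / M))) * D₁ j * D₂ j =
        ∑ k ∈ range N, ∑ a ∈ range N, ∑ b ∈ range M,
          p k * ee ((b - a) * θ) * ee (((k + a - b : ℤ) : ℝ) * (j / M)) := by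
      intro j
      simp only [hD₁, hD₂]
      rw [Finset.sum_mul_sum, Finset.sum_mul]
      apply Finset.sum_congr rfl; intro k _
      rw [Finset.sum_mul]
      apply Finset.sum_congr rfl; intro a _
      rw [Finset.mul_sum]
      apply Finset.sum_congr rfl; intro b _
      have e1 : ((b : ℝ) - a) * θ = -a * θ + b * θ := by ring
      have e2 : ((k + a - b : ℤ) : ℝ) * (j / M) = k * (j / M) + ((1 * a : ℤ) : ℝ) * (j / M) +
          ((-1 * b : ℤ) : ℝ) * (j / M) := by push_cast; ring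
      rw [e1, e2, ee_add, ee_add, ee_add]; ring
    simp_rw [h1]
    rw [Finset.sum_comm, Finset.mul_sum]
    apply Finset.sum_congr rfl; intro k hk
    rw [Finset.sum_comm]
    have h2 : ∀ a ∈ range N, ∑ j ∈ range M, ∑ b ∈ range M,
        p k * ee ((b - a) * θ) * ee (((k + a - b : ℤ) : ℝ) * (j / M)) =
          M * (p k * ee (k * θ)) := by
      intro a ha
      rw [Finset.sum_comm]
      simp_rw [← Finset.mul_sum, sum_ee M hM0]
      rw [Finset.mem_range] at ha hk
      rw [Finset.sum_eq_single (k + a)]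
      · rw [if_pos (by push_cast; simp)]
        push_cast
        rw [add_sub_cancel_right]; ring
      · intro b hb hne
        rw [Finset.mem_range] at hb
        rw [if_neg, mul_zero]
        intro h
        have := eq_of_dvd_of_abs_lt h (by rw [abs_lt]; omega)
        omega
      · intro h; exfalso; apply h; rw [Finset.mem_range]; omega
    rw [Finset.sum_congr rfl h2, Finset.sum_const, Finset.card_range, nsmul_eq_mul]; ring
  have hB0 : 0 ≤ B := (norm_nonneg _).trans (hB 0 (Finset.mem_range.mpr hM0))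
  have p1 : ∑ j ∈ range M, ‖D₁ j‖ ^ 2 = M * N := by
    rw [parseval_range N M hM0 (by omega) 1 (Or.inl rfl)]; simp
  have p2 : ∑ j ∈ range M, ‖D₂ j‖ ^ 2 = M * M := by
    rw [parseval_range M M hM0 le_rfl (-1) (Or.inr rfl)]; simp
  have hN' : (0 : ℝ) < N := by exact_mod_cast hN
  have hM' : (M : ℝ) = 2 * N := by rw [hM]; push_cast; ring
  have h3 : (M : ℝ) * N * ‖∑ k ∈ range N, p k * ee (k * θ)‖ ≤ B * ((M * N + M * M) / 2) := by
    have := congrArg norm key
    rw [norm_mul, norm_mul, Complex.norm_natCast, Complex.norm_natCast] at this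
    rw [this, ← p1, ← p2, ← Finset.sum_add_distrib, Finset.sum_div, Finset.mul_sum]
    refine (norm_sum_le _ _).trans (Finset.sum_le_sum fun j hj => ?_)
    rw [norm_mul, norm_mul, mul_assoc]
    apply mul_le_mul (hB j hj) _ (by positivity) hB0
    nlinarith [sq_nonneg (‖D₁ j‖ - ‖D₂ j‖)]
  rw [hM'] at h3
  have h4 : 0 < 2 * (N : ℝ) * N := by positivity
  apply le_of_mul_le_mul_left _ h4
  nlinarith

/-- rounding of almost unimodular real coefficients to signs -/
theorem rounding (N : ℕ) (hN : 0 < N) (x : ℕ → ℝ) (hx : ∀ k < N, |x k| ≤ 1) (D : ℝ) (hD : 0 < D)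
    (hD4 : (∑ k ∈ range N, (1 - |x k|)) * (2 * N) ≤ D ^ 4) :
    ∃ c : Fin N → ℤˣ, ∀ θ : ℝ,
      ‖∑ k : Fin N, ((c k : ℤ) : ℂ) * ee (k * θ) - ∑ k ∈ range N, (x k : ℂ) * ee (k * θ)‖ ≤
        6756 * D := by
  set s : Fin N → ℤˣ := fun k => if 0 ≤ x k then 1 else -1 with hs
  have hs1 : ∀ k, |((s k : ℤ) : ℝ)| = 1 := by
    intro k; simp only [hs]; split_ifs <;> simp
  have hs2 : ∀ k : Fin N, ((s k : ℤ) : ℝ) * |x k| = x k := by
    intro k; simp only [hs]; split_ifs with h
    · simp [abs_of_nonneg h]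
    · simp [abs_of_neg (not_le.mp h)]
  set w : Fin (2 * N) → Fin N → ℂ := fun j k => ee (k * (j / (2 * N : ℕ))) with hw
  set a : Fin (2 * N) × Bool → Fin N → ℝ := fun j k =>
    ((s k : ℤ) : ℝ) * (if j.2 then (w j.1 k).re else (w j.1 k).im) with ha
  have ha1 : ∀ j k, |a j k| ≤ 1 := by
    intro j k
    simp only [ha]
    rw [abs_mul, hs1, one_mul]
    split_ifs
    · exact (Complex.abs_re_le_norm _).trans (norm_ee _).le
    · exact (Complex.abs_im_le_norm _).trans (norm_ee _).le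
  have hN' : (0 : ℝ) < N := by exact_mod_cast hN
  obtain ⟨z, hz, herr⟩ := Disc.round_unit a ha1 (4 * N) D (by simp; linarith) (by positivity) hD
    (fun k => (1 - |x k|) / 2) (fun k => by
      have := hx k k.2
      have := abs_nonneg (x k)
      constructor <;> linarith) (by
      rw [← Finset.sum_div, Fin.sum_univ_eq_sum_range (fun k => 1 - |x k|) N]
      linarith)
  set c : Fin N → ℤˣ := fun k => if z k = 0 then s k else - s k with hc
  have hc1 : ∀ k, ((c k : ℤ) : ℝ) - x k =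
      -2 * (((s k : ℤ) : ℝ) * (z k - (1 - |x k|) / 2)) := by
    intro k
    have := hs2 k
    rcases hz k with h | h
    · simp only [hc, h, if_true]; push_cast; linarith
    · simp only [hc, h, one_ne_zero, if_false]; push_cast; linarith
  refine ⟨c, fun θ => ?_⟩
  set p : ℕ → ℂ := fun k => if h : k < N then ((((c ⟨k, h⟩ : ℤ) : ℝ) - x k : ℝ) : ℂ) else 0
    with hp
  have hsum : ∀ θ : ℝ, ∑ k ∈ range N, p k * ee (k * θ) =
      ∑ k : Fin N, ((((c k : ℤ) : ℝ) - x k : ℝ) : ℂ) * ee (k * θ) := by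
    intro θ
    rw [← Fin.sum_univ_eq_sum_range (fun k => p k * ee (k * θ)) N]
    apply Finset.sum_congr rfl
    intro k _
    simp only [hp, dif_pos k.2]
  have e1 : ∑ k : Fin N, ((c k : ℤ) : ℂ) * ee (k * θ) - ∑ k ∈ range N, (x k : ℂ) * ee (k * θ) =
      ∑ k ∈ range N, p k * ee (k * θ) := by
    rw [hsum, ← Fin.sum_univ_eq_sum_range (fun k => (x k : ℂ) * ee (k * θ)) N,
      ← Finset.sum_sub_distrib]
    apply Finset.sum_congr rfl
    intro k _; push_cast; ring
  rw [e1]
  have := sampling N hN p (4504 * D) (fun j hj => by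
    rw [hsum]
    rw [Finset.mem_range] at hj
    have f1 := herr (⟨j, hj⟩, true)
    have f2 := herr (⟨j, hj⟩, false)
    refine (Complex.norm_le_abs_re_add_abs_im _).trans ?_
    rw [Complex.re_sum, Complex.im_sum]
    simp only [Complex.re_ofReal_mul, Complex.im_ofReal_mul, hc1]
    simp only [ha, hw, if_true, Bool.false_eq_true, if_false] at f1 f2
    have g1 : ∀ (t : Fin N → ℝ), ∑ k, -2 * (((s k : ℤ) : ℝ) * (z k - (1 - |x k|) / 2)) * t k =
        -2 * ∑ k, ((s k : ℤ) : ℝ) * t k * (z k - (1 - |x k|) / 2) := by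
      intro t
      rw [Finset.mul_sum]
      apply Finset.sum_congr rfl
      intro k _; ring
    rw [g1, g1, abs_mul, abs_mul]
    norm_num at f1 f2 ⊢
    linarith) θ
  linarith

end Crest.Agent.R75
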