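import Crest.Agent.R75.Analysis
import Crest.Agent.R75.Round

set_option autoImplicit false

namespace Crest.Agent.R75

open Real Complex Finset
open scoped ComplexConjugate

theorem reduce (hP : ∀ δ : ℝ, 0 < δ → δ ≤ 1 / 100 → Packing δ) (ε : ℝ) (hε : 0 < ε) (hε₁ : ε < 1) :
    ∃ N₀ : ℕ, ∀ N ≥ N₀, ∃ c : Fin N → ℤˣ, ∀ z : ℂ, ‖z‖ = 1 →
      (1 - ε) * Real.sqrt N ≤ ‖∑ k : Fin N, ((c k : ℤ) : ℂ) * z ^ (k : ℕ)‖ ∧
        ‖∑ k : Fin N, ((c k : ℤ) : ℂ) * z ^ (k : ℕ)‖ ≤ (1 + ε) * Real.sqrt N := by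
  set d : ℝ := ε / 14000 with hd
  have hd0 : 0 < d := by positivity
  have hd1 : d ≤ 1 := by rw [hd]; linarith
  obtain ⟨δ, hδ⟩ : ∃ δ : ℝ, δ = d ^ 4 / 140 := ⟨_, rfl⟩
  have hδ0 : 0 < δ := by rw [hδ]; positivity
  have hd4 : d ^ 4 ≤ d := pow_le_of_le_one hd0.le hd1 (by norm_num)
  have hδ1 : δ ≤ 1 / 100 := by rw [hδ]; linarith
  have hδ2 : 35 * δ ≤ ε / 2 := by rw [hδ]; linarith
  obtain ⟨N₀, H⟩ := flat_real hδ0 hδ1 (hP δ hδ0 hδ1)
  refine ⟨max N₀ 1, fun N hN => ?_⟩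
  obtain ⟨b, hb, hflat⟩ := H N ((le_max_left _ _).trans hN)
  have hN1 : 0 < N := (le_max_right _ _).trans hN
  have hN0 : (0 : ℝ) < N := by exact_mod_cast hN1
  set q : ℝ := √N with hq
  have hq0 : 0 < q := Real.sqrt_pos.mpr hN0
  have hqq : q ^ 2 = N := Real.sq_sqrt hN0.le
  have hD : 0 < 1 + 34 * δ := by positivity
  set x : ℕ → ℝ := fun k => b k / (1 + 34 * δ) with hx
  have hx1 : ∀ k, |x k| ≤ 1 := fun k => by
    simp only [hx]; rw [abs_div, abs_of_pos hD, div_le_one hD]; exact hb k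
  have hxs : ∀ θ : ℝ, (1 - 35 * δ) * q ≤ ‖∑ k ∈ range N, (x k : ℂ) * ee (k * θ)‖ ∧
      ‖∑ k ∈ range N, (x k : ℂ) * ee (k * θ)‖ ≤ q := by
    intro θ
    have e1 : ‖∑ k ∈ range N, (x k : ℂ) * ee (k * θ)‖ =
        ‖∑ k ∈ range N, (b k : ℂ) * ee (k * θ)‖ / (1 + 34 * δ) := by
      have : ∑ k ∈ range N, (x k : ℂ) * ee (k * θ) =
          (∑ k ∈ range N, (b k : ℂ) * ee (k * θ)) / ((1 + 34 * δ : ℝ) : ℂ) := by
        rw [Finset.sum_div]
        apply Finset.sum_congr rfl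
        intro k _
        simp only [hx]; rw [Complex.ofReal_div]; ring
      rw [this, norm_div, Complex.norm_real, Real.norm_eq_abs, abs_of_pos hD]
    have := abs_le.mp (hflat θ)
    rw [e1, le_div_iff₀ hD, div_le_iff₀ hD]
    have h1 : 0 ≤ δ * q := by positivity
    have h2 : 0 ≤ δ * δ * q := by positivity
    constructor <;> nlinarith [this.1, this.2]
  have henergy : (1 - 70 * δ) * N ≤ ∑ k ∈ range N, x k ^ 2 := by
    have h1 := parseval_range N N hN1 le_rfl 1 (Or.inl rfl) (fun k => (x k : ℂ))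
    simp only [one_mul, Int.cast_natCast, Complex.norm_real, Real.norm_eq_abs, sq_abs] at h1
    have h2 : ∑ _j ∈ range N, ((1 - 35 * δ) * q) ^ 2 ≤
        ∑ j ∈ range N, ‖∑ a ∈ range N, (x a : ℂ) * ee (a * (j / N))‖ ^ 2 := by
      apply Finset.sum_le_sum
      intro j _
      have h3 : 0 ≤ (1 - 35 * δ) * q := mul_nonneg (by linarith) hq0.le
      gcongr
      exact (hxs _).1
    rw [h1, Finset.sum_const, Finset.card_range, nsmul_eq_mul, mul_pow, hqq] at h2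
    have h3 := le_of_mul_le_mul_left h2 hN0
    refine le_trans ?_ h3
    gcongr
    nlinarith [sq_nonneg δ]
  obtain ⟨c, hc⟩ := rounding N hN1 x (fun k _ => hx1 k) (d * q) (by positivity) (by
    have h1 : ∑ k ∈ range N, (1 - |x k|) ≤ ∑ k ∈ range N, (1 - x k ^ 2) := by
      apply Finset.sum_le_sum
      intro k _
      have := hx1 k
      have h0 := abs_nonneg (x k)
      rw [← sq_abs]; nlinarith
    rw [Finset.sum_sub_distrib (f := fun _ => (1 : ℝ)) (g := fun k => x k ^ 2)] at h1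
    simp only [Finset.sum_const, Finset.card_range, nsmul_eq_mul, mul_one] at h1
    have h2 : ∑ k ∈ range N, (1 - |x k|) ≤ 70 * δ * N := by linarith
    calc _ ≤ 70 * δ * N * (2 * N) := by gcongr
      _ = (d * q) ^ 4 := by
        rw [mul_pow, show q ^ 4 = (q ^ 2) ^ 2 by ring, hqq, hδ]; ring)
  refine ⟨c, fun z hz => ?_⟩
  have hzθ : z = ee (z.arg / (2 * π)) := by
    have := ee_arg z
    rw [hz] at this
    simpa using this.symm
  have e1 : ∑ k : Fin N, ((c k : ℤ) : ℂ) * z ^ (k : ℕ) =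
      ∑ k : Fin N, ((c k : ℤ) : ℂ) * ee (k * (z.arg / (2 * π))) := by
    apply Finset.sum_congr rfl
    intro k _
    rw [ee_nat_mul, ← hzθ]
  rw [e1]
  have h1 := hc (z.arg / (2 * π))
  have h2 := hxs (z.arg / (2 * π))
  have h3 := abs_le.mp ((abs_norm_sub_norm_le _ _).trans h1)
  have h4 : 6756 * (d * q) ≤ ε / 2 * q := by
    rw [← mul_assoc]; gcongr; rw [hd]; linarith
  have h5 : 35 * δ * q ≤ ε / 2 * q := by gcongr
  have h6 : 0 ≤ ε * q := by positivity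
  constructor <;> linarith [h2.1, h2.2, h3.1, h3.2]

end Crest.Agent.R75
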