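import Crest.Agent.R75.Osc

set_option autoImplicit false

namespace Crest.Agent.R75

open Real Complex Set MeasureTheory Filter Topology
open scoped ComplexConjugate

/-- the model oscillatory integral of one piece -/
noncomputable def oscI (G : ℝ → ℝ) (L s : ℝ) : ℂ := ∫ u in (0 : ℝ)..1, ee (L * (G u - s * u))

lemma oscI_neg (G : ℝ → ℝ) (L s : ℝ) : oscI G (-L) s = conj (oscI G L s) := by
  unfold oscI
  rw [← int_ee_neg]
  congr 1; funext u; congr 1; ring

structure Prof (G T T₁ T₂ : ℝ → ℝ) (M : ℝ) : Prop where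
  dG : ∀ x, HasDerivAt G (T x) x
  dT : ∀ x, HasDerivAt T (T₁ x) x
  dT₁ : ∀ x, HasDerivAt T₁ (T₂ x) x
  lo : ∀ x ∈ Icc (0 : ℝ) 1, 1 ≤ T₁ x
  hi : ∀ x ∈ Icc (0 : ℝ) 1, T₁ x ≤ M
  b2 : ∀ x ∈ Icc (0 : ℝ) 1, |T₂ x| ≤ M

variable {G T T₁ T₂ : ℝ → ℝ} {M : ℝ}

lemma Prof.c2 (P : Prof G T T₁ T₂ M) (L s : ℝ) :
    C2 (fun u => L * (G u - s * u)) (fun u => L * (T u - s)) (fun u => L * T₁ u) := by
  refine ⟨fun x => ?_, fun x => ?_, ?_⟩
  · have := ((P.dG x).sub ((hasDerivAt_id x).const_mul s)).const_mul L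
    refine HasDerivAt.congr_deriv this ?_
    simp
  · exact ((P.dT x).sub_const s).const_mul L
  · exact continuous_const.mul (continuous_iff_continuousAt.mpr fun x => (P.dT₁ x).continuousAt)

lemma Prof.grow (P : Prof G T T₁ T₂ M) {x y : ℝ} (hx : 0 ≤ x) (hxy : x ≤ y) (hy : y ≤ 1) :
    y - x ≤ T y - T x := by
  have := sub_ge_of_deriv (c := 1) hxy (fun t _ => P.dT t)
    (fun t ht => P.lo t ⟨hx.trans ht.1, ht.2.trans hy⟩)
  linarith

lemma Prof.mid (P : Prof G T T₁ T₂ M) {u q R : ℝ} (hq : 0 < q) (hR : 0 < R) (h0 : R / q ≤ u)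
    (h1 : u + R / q ≤ 1) :
    ‖(q : ℂ) * oscI G (q ^ 2) (T u) -
      ((1 / √(T₁ u) : ℝ) : ℂ) * fres R * ee (q ^ 2 * (G u - T u * u))‖ ≤
        2 * M / R + 4 * π * M * R ^ 4 / q := by
  have hRq : 0 < R / q := by positivity
  have hu : u ∈ Icc (0 : ℝ) 1 := ⟨by linarith, by linarith⟩
  have hκ1 := P.lo u hu
  have hκM := P.hi u hu
  set w : ℝ := √(T₁ u) with hw
  have hw2 : w ^ 2 = T₁ u := Real.sq_sqrt (by linarith)
  have hw1 : 1 ≤ w := Real.one_le_sqrt.mpr hκ1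
  have hwM : w ≤ M := by nlinarith
  have hM : 0 < M := by linarith
  set h : ℝ := R / (q * w) with hh
  have hh0 : 0 < h := by positivity
  have hhq : h ≤ R / q := by
    rw [hh]; gcongr; nlinarith
  have H := P.c2 (q ^ 2) (T u)
  set Φ : ℝ → ℝ := fun x => q ^ 2 * (G x - T u * x) with hΦ
  have hq2 : 0 < q ^ 2 := by positivity
  have hL : ‖∫ x in (0 : ℝ)..(u - h), ee (Φ x)‖ ≤ 1 / (q ^ 2 * h) := by
    apply first_deriv H (by linarith) (by positivity)
    · left; intro x hx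
      exact mul_nonneg hq2.le (by linarith [P.lo x ⟨hx.1, by linarith [hx.2]⟩])
    · intro x hx
      have := P.grow hx.1 (by linarith [hx.2] : x ≤ u) hu.2
      rw [abs_mul, abs_of_pos hq2]
      gcongr
      rw [le_abs]; right; linarith [hx.2]
  have hRt : ‖∫ x in (u + h)..1, ee (Φ x)‖ ≤ 1 / (q ^ 2 * h) := by
    apply first_deriv H (by linarith) (by positivity)
    · left; intro x hx
      exact mul_nonneg hq2.le (by linarith [P.lo x ⟨by linarith [hx.1], hx.2⟩])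
    · intro x hx
      have := P.grow hu.1 (by linarith [hx.1] : u ≤ x) hx.2
      rw [abs_mul, abs_of_pos hq2]
      gcongr
      rw [le_abs]; left; linarith [hx.1]
  -- Taylor on the window
  have hsub : ∀ x ∈ Icc (u - h) (u + h), x ∈ Icc (0 : ℝ) 1 := fun x hx =>
    ⟨by linarith [hx.1], by linarith [hx.2]⟩
  have huw : u ∈ Icc (u - h) (u + h) := ⟨by linarith, by linarith⟩
  have habs : ∀ x ∈ Icc (u - h) (u + h), |x - u| ≤ h := fun x hx =>
    abs_le.mpr ⟨by linarith [hx.1], by linarith [hx.2]⟩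
  have t1 : ∀ x ∈ Icc (u - h) (u + h), |T₁ x - T₁ u| ≤ M * h := by
    intro x hx
    refine (abs_sub_le_of_deriv huw hx (fun t _ => P.dT₁ t)
      (fun t ht => P.b2 t (hsub t ht))).trans ?_
    gcongr; exact habs x hx
  have t2 : ∀ x ∈ Icc (u - h) (u + h), |T x - T u - T₁ u * (x - u)| ≤ M * h * h := by
    intro x hx
    have := abs_sub_le_of_deriv (f := fun x => T x - T₁ u * (x - u))
      (f' := fun x => T₁ x - T₁ u) huw hx (fun t _ => by
        have := (P.dT t).sub (((hasDerivAt_id t).sub_const u).const_mul (T₁ u))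
        refine HasDerivAt.congr_deriv this ?_
        simp) t1
    have e : T x - T u - T₁ u * (x - u) = T x - T₁ u * (x - u) - (T u - T₁ u * (u - u)) := by ring
    rw [e]
    refine this.trans ?_
    gcongr; exact habs x hx
  have t3 : ∀ x ∈ Icc (u - h) (u + h),
      |G x - T u * x - (G u - T u * u) - T₁ u * (x - u) ^ 2 / 2| ≤ M * h * h * h := by
    intro x hx
    have := abs_sub_le_of_deriv (f := fun x => G x - T u * x - T₁ u * (x - u) ^ 2 / 2)
      (f' := fun x => T x - T u - T₁ u * (x - u)) huw hx (fun t _ => by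
        have := ((P.dG t).sub ((hasDerivAt_id t).const_mul (T u))).sub
          (((((hasDerivAt_id t).sub_const u).pow 2).const_mul (T₁ u)).div_const 2)
        refine HasDerivAt.congr_deriv this ?_
        simp; ring) t2
    have e : G x - T u * x - (G u - T u * u) - T₁ u * (x - u) ^ 2 / 2 =
        G x - T u * x - T₁ u * (x - u) ^ 2 / 2 - (G u - T u * u - T₁ u * (u - u) ^ 2 / 2) := by ring
    rw [e]
    refine this.trans ?_
    gcongr; exact habs x hx
  have hqw : q * w ≠ 0 := by positivity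
  have hmodel : ∫ x in (u - h)..(u + h), ee (Φ u + (q * w * x - q * w * u) ^ 2 / 2) =
      ((1 / (q * w) : ℝ) : ℂ) * fres R * ee (Φ u) := by
    simp_rw [ee_add]
    rw [intervalIntegral.integral_const_mul,
      intervalIntegral.integral_comp_mul_sub (fun v => ee (v ^ 2 / 2)) hqw]
    have e1 : q * w * (u - h) - q * w * u = -R := by rw [hh]; field_simp; ring
    have e2 : q * w * (u + h) - q * w * u = R := by rw [hh]; field_simp; ring
    rw [e1, e2, Complex.real_smul, one_div]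
    unfold fres; ring
  have cm : Continuous fun x : ℝ => ee (Φ u + (q * w * x - q * w * u) ^ 2 / 2) := by fun_prop
  have hM' : ‖(∫ x in (u - h)..(u + h), ee (Φ x)) -
      ((1 / (q * w) : ℝ) : ℂ) * fres R * ee (Φ u)‖ ≤ 2 * π * (q ^ 2 * (M * h * h * h)) * (2 * h) := by
    rw [← hmodel, ← intervalIntegral.integral_sub (H.ii _ _) (cm.intervalIntegrable _ _)]
    refine (intervalIntegral.norm_integral_le_of_norm_le_const
      (C := 2 * π * (q ^ 2 * (M * h * h * h))) ?_).trans ?_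
    · intro x hx
      rw [uIoc_of_le (by linarith)] at hx
      refine (norm_ee_sub_le _ _).trans ?_
      gcongr
      have e : Φ x - (Φ u + (q * w * x - q * w * u) ^ 2 / 2) =
          q ^ 2 * (G x - T u * x - (G u - T u * u) - T₁ u * (x - u) ^ 2 / 2) := by
        simp only [hΦ]; rw [← hw2]; ring
      rw [e, abs_mul, abs_of_pos hq2]
      gcongr
      exact t3 x (Ioc_subset_Icc_self hx)
    · rw [abs_of_pos (by linarith)]; apply le_of_eq; ring
  have hsplit : oscI G (q ^ 2) (T u) = (∫ x in (0 : ℝ)..(u - h), ee (Φ x)) +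
      (∫ x in (u - h)..(u + h), ee (Φ x)) + ∫ x in (u + h)..1, ee (Φ x) := by
    rw [intervalIntegral.integral_add_adjacent_intervals (H.ii _ _) (H.ii _ _),
      intervalIntegral.integral_add_adjacent_intervals (H.ii _ _) (H.ii _ _)]
    rfl
  have e : (q : ℂ) * oscI G (q ^ 2) (T u) - ((1 / w : ℝ) : ℂ) * fres R * ee (Φ u) =
      (q : ℂ) * ((∫ x in (0 : ℝ)..(u - h), ee (Φ x)) + (∫ x in (u + h)..1, ee (Φ x)) +
        ((∫ x in (u - h)..(u + h), ee (Φ x)) - ((1 / (q * w) : ℝ) : ℂ) * fres R * ee (Φ u))) := by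
    rw [hsplit]
    have hq' : (q : ℂ) ≠ 0 := by exact_mod_cast hq.ne'
    have hw' : (w : ℂ) ≠ 0 := by exact_mod_cast (by linarith : w ≠ 0)
    push_cast; field_simp; ring
  change ‖(q : ℂ) * oscI G (q ^ 2) (T u) - ((1 / w : ℝ) : ℂ) * fres R * ee (Φ u)‖ ≤ _
  rw [e, norm_mul, Complex.norm_real, Real.norm_eq_abs, abs_of_pos hq]
  have b1 : ‖(∫ x in (0 : ℝ)..(u - h), ee (Φ x)) + (∫ x in (u + h)..1, ee (Φ x)) +
        ((∫ x in (u - h)..(u + h), ee (Φ x)) - ((1 / (q * w) : ℝ) : ℂ) * fres R * ee (Φ u))‖ ≤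
      1 / (q ^ 2 * h) + 1 / (q ^ 2 * h) + 2 * π * (q ^ 2 * (M * h * h * h)) * (2 * h) := by
    refine (norm_add_le _ _).trans (add_le_add ((norm_add_le _ _).trans (add_le_add hL hRt)) hM')
  refine (mul_le_mul_of_nonneg_left b1 hq.le).trans ?_
  have b2 : q * (1 / (q ^ 2 * h)) ≤ M / R := by
    have : q * (1 / (q ^ 2 * h)) = w / R := by rw [hh]; field_simp
    rw [this]; gcongr
  have b3 : q * (2 * π * (q ^ 2 * (M * h * h * h)) * (2 * h)) ≤ 4 * π * M * R ^ 4 / q := by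
    have : q * (2 * π * (q ^ 2 * (M * h * h * h)) * (2 * h)) = 4 * π * M * (q ^ 3 * h ^ 4) := by
      ring
    rw [this, mul_div_assoc]
    gcongr
    calc q ^ 3 * h ^ 4 ≤ q ^ 3 * (R / q) ^ 4 := by gcongr
      _ = R ^ 4 / q := by field_simp
  have b4 : 2 * M / R = M / R + M / R := by ring
  rw [mul_add, mul_add, b4]
  linarith

lemma Prof.left (P : Prof G T T₁ T₂ M) {u₁ q b s : ℝ} (hq : 0 < q) (hb : 0 < b) (h0 : 0 < u₁)
    (h1 : u₁ ≤ 1) (hB : ∀ x ∈ Icc 0 u₁, b ^ 2 ≤ T₁ x) (hs : s ≤ T (u₁ / 2)) :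
    ‖(q : ℂ) * oscI G (q ^ 2) s‖ ≤ 4 / b + 2 / (u₁ * q) := by
  have H := P.c2 (q ^ 2) s
  have hq2 : 0 < q ^ 2 := by positivity
  have e1 := vdc_pos H (a := 0) (b := u₁) (r := 1 / (q * b)) h0.le (by positivity) (by
    intro x hx
    have : 1 / (1 / (q * b)) ^ 2 = q ^ 2 * b ^ 2 := by field_simp
    rw [this]; gcongr; exact hB x hx)
  have e2 := first_deriv H (a := u₁) (b := 1) (d := q ^ 2 * (u₁ / 2)) h1 (by positivity)
    (Or.inl fun x hx => mul_nonneg hq2.le (by linarith [P.lo x ⟨by linarith [hx.1], hx.2⟩])) (by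
      intro x hx
      have := P.grow (x := u₁ / 2) (y := x) (by linarith) (by linarith [hx.1]) hx.2
      rw [abs_mul, abs_of_pos hq2]
      gcongr
      rw [le_abs]; left; linarith [hx.1])
  unfold oscI
  rw [← intervalIntegral.integral_add_adjacent_intervals (b := u₁) (H.ii _ _) (H.ii _ _), norm_mul,
    Complex.norm_real, Real.norm_eq_abs, abs_of_pos hq]
  refine (mul_le_mul_of_nonneg_left ((norm_add_le _ _).trans (add_le_add e1 e2)) hq.le).trans ?_
  apply le_of_eq; field_simp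

lemma Prof.right (P : Prof G T T₁ T₂ M) {u₁ q b s : ℝ} (hq : 0 < q) (hb : 0 < b) (h0 : 0 < u₁)
    (h1 : u₁ ≤ 1) (hB : ∀ x ∈ Icc (1 - u₁) 1, b ^ 2 ≤ T₁ x) (hs : T (1 - u₁ / 2) ≤ s) :
    ‖(q : ℂ) * oscI G (q ^ 2) s‖ ≤ 4 / b + 2 / (u₁ * q) := by
  have H := P.c2 (q ^ 2) s
  have hq2 : 0 < q ^ 2 := by positivity
  have e1 := vdc_pos H (a := 1 - u₁) (b := 1) (r := 1 / (q * b)) (by linarith) (by positivity) (by
    intro x hx
    have : 1 / (1 / (q * b)) ^ 2 = q ^ 2 * b ^ 2 := by field_simp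
    rw [this]; gcongr; exact hB x hx)
  have e2 := first_deriv H (a := 0) (b := 1 - u₁) (d := q ^ 2 * (u₁ / 2)) (by linarith)
    (by positivity)
    (Or.inl fun x hx => mul_nonneg hq2.le (by linarith [P.lo x ⟨hx.1, by linarith [hx.2]⟩])) (by
      intro x hx
      have := P.grow (x := x) (y := 1 - u₁ / 2) hx.1 (by linarith [hx.2]) (by linarith)
      rw [abs_mul, abs_of_pos hq2]
      gcongr
      rw [le_abs]; right; linarith [hx.2])
  unfold oscI
  rw [← intervalIntegral.integral_add_adjacent_intervals (b := 1 - u₁) (H.ii _ _) (H.ii _ _),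
    norm_mul, Complex.norm_real, Real.norm_eq_abs, abs_of_pos hq]
  refine (mul_le_mul_of_nonneg_left ((norm_add_le _ _).trans (add_le_add e2 e1)) hq.le).trans ?_
  apply le_of_eq; field_simp; ring

lemma exists_prof (δ b : ℝ) (hδ : 0 < δ) :
    ∃ (G T T₁ T₂ : ℝ → ℝ) (M u₁ : ℝ), Prof G T T₁ T₂ M ∧ G 0 = 0 ∧ T 0 = 0 ∧ T 1 ≤ 1 + δ ∧
      0 < u₁ ∧ u₁ ≤ 1 ∧ (∀ x ∈ Icc 0 u₁, b ^ 2 ≤ T₁ x) ∧ (∀ x ∈ Icc (1 - u₁) 1, b ^ 2 ≤ T₁ x) := by
  set B : ℝ := 2 * b ^ 2 with hB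
  have hB0 : 0 ≤ B := by positivity
  obtain ⟨k, hk⟩ := exists_nat_ge (2 * B / δ)
  set T : ℝ → ℝ := fun u => u + B / (k + 2) * (1 - (1 - u) ^ (k + 2)) + B / (k + 2) * u ^ (k + 2)
    with hT
  have cT : Continuous T := by simp only [hT]; fun_prop
  have hk2 : (0 : ℝ) < k + 2 := by positivity
  have hk1 : (0 : ℝ) < k + 1 := by positivity
  refine ⟨fun u => ∫ x in (0 : ℝ)..u, T x, T, fun u => 1 + B * (1 - u) ^ (k + 1) + B * u ^ (k + 1),
    fun u => -(B * (k + 1) * (1 - u) ^ k) + B * (k + 1) * u ^ k, 1 + 2 * B * (k + 1),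
    1 / (2 * (k + 1)), ⟨fun x => ?_, fun x => ?_, fun x => ?_, fun x hx => ?_, fun x hx => ?_,
      fun x hx => ?_⟩, by simp, by simp [hT], ?_, by positivity, ?_, fun x hx => ?_,
      fun x hx => ?_⟩
  · exact (cT.integral_hasStrictDerivAt 0 x).hasDerivAt
  · have := ((hasDerivAt_id x).add (((((hasDerivAt_id x).const_sub 1).pow (k + 2)).const_sub
      1).const_mul (B / (k + 2)))).add (((hasDerivAt_id x).pow (k + 2)).const_mul (B / (k + 2)))
    refine HasDerivAt.congr_deriv this ?_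
    simp; field_simp
  · have := (((((hasDerivAt_id x).const_sub 1).pow (k + 1)).const_mul B).const_add 1).add
      (((hasDerivAt_id x).pow (k + 1)).const_mul B)
    refine HasDerivAt.congr_deriv this ?_
    simp; ring
  · have h1 : 0 ≤ 1 - x := by linarith [hx.2]
    have h2 := hx.1
    have : 0 ≤ B * (1 - x) ^ (k + 1) := by positivity
    have : 0 ≤ B * x ^ (k + 1) := by positivity
    linarith
  · have h1 : (1 - x) ^ (k + 1) ≤ 1 := pow_le_one₀ (by linarith [hx.2]) (by linarith [hx.1])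
    have h2 : x ^ (k + 1) ≤ 1 := pow_le_one₀ hx.1 hx.2
    have h3 : (0 : ℝ) ≤ B * k := by positivity
    nlinarith
  · have h1 : (1 - x) ^ k ≤ 1 := pow_le_one₀ (by linarith [hx.2]) (by linarith [hx.1])
    have h2 : x ^ k ≤ 1 := pow_le_one₀ hx.1 hx.2
    have h3 : 0 ≤ (1 - x) ^ k := pow_nonneg (by linarith [hx.2]) _
    have h4 : 0 ≤ x ^ k := pow_nonneg hx.1 _
    have h5 : (0 : ℝ) ≤ B * (k + 1) := by positivity
    rw [abs_le]; constructor <;> nlinarith
  · simp only [hT]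
    have : 2 * B ≤ δ * (k + 2) := by
      rw [div_le_iff₀ hδ] at hk; nlinarith
    have h2 : B / (k + 2) ≤ δ / 2 := by
      rw [div_le_div_iff₀ hk2 (by norm_num)]; linarith
    simp; linarith
  · rw [div_le_one (by positivity)]
    have : (0 : ℝ) ≤ k := by positivity
    linarith
  · have h1 := one_add_mul_le_pow (a := -x) (by
      have : 1 / (2 * ((k : ℝ) + 1)) ≤ 1 := by
        rw [div_le_one (by positivity)]; linarith
      linarith [hx.2]) (k + 1)
    have h2 : ((k : ℝ) + 1) * x ≤ 1 / 2 := by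
      have := hx.2
      rw [le_div_iff₀ (by positivity)] at this
      linarith
    have h3 : 0 ≤ B * x ^ (k + 1) := by have := hx.1; positivity
    have h4 : (1 / 2 : ℝ) ≤ (1 - x) ^ (k + 1) := by
      push_cast at h1
      rw [← sub_eq_add_neg] at h1
      linarith
    have : B * (1 / 2) ≤ B * (1 - x) ^ (k + 1) := by gcongr
    linarith
  · have h1 := one_add_mul_le_pow (a := x - 1) (by
      have : 1 / (2 * ((k : ℝ) + 1)) ≤ 1 := by
        rw [div_le_one (by positivity)]; linarith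
      linarith [hx.1]) (k + 1)
    have h2 : ((k : ℝ) + 1) * (1 - x) ≤ 1 / 2 := by
      have : 1 - x ≤ 1 / (2 * ((k : ℝ) + 1)) := by linarith [hx.1]
      rw [le_div_iff₀ (by positivity)] at this
      linarith
    have h3 : 0 ≤ B * (1 - x) ^ (k + 1) := by
      have : 0 ≤ 1 - x := by linarith [hx.2]
      positivity
    have h4 : (1 / 2 : ℝ) ≤ x ^ (k + 1) := by
      push_cast at h1
      rw [add_sub_cancel] at h1
      linarith
    have : B * (1 / 2) ≤ B * x ^ (k + 1) := by gcongr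
    linarith

/-- uniform stationary phase for a well chosen profile -/
theorem stat_phase (δ κ : ℝ) (hδ : 0 < δ) (hκ : 0 < κ) :
    ∃ (G T : ℝ → ℝ) (C q₀ : ℝ) (ϖ : ℂ), (∀ x, HasDerivAt G (T x) x) ∧ G 0 = 0 ∧
      (∀ x ∈ Icc (0 : ℝ) 1, ∀ y ∈ Icc (0 : ℝ) 1, |T y - T x| ≤ C * |y - x|) ∧
      (∀ x ∈ Icc (0 : ℝ) 1, 0 ≤ T x ∧ T x ≤ 1 + δ) ∧ ‖ϖ‖ ≤ 1 + κ ∧ 0 < q₀ ∧
      ∀ s : ℝ, ∃ W Γ : ℝ, 0 ≤ W ∧ W ≤ 1 ∧ (W ≠ 0 → 0 < s ∧ s < 1 + δ) ∧
        ∀ q, q₀ ≤ q → ‖(q : ℂ) * oscI G (q ^ 2) s - (W : ℂ) * ϖ * ee (q ^ 2 * Γ)‖ ≤ κ := by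
  obtain ⟨G, T, T₁, T₂, M, u₁, P, hG0, hT0, hT1, hu0, hu1, hBl, hBr⟩ := exists_prof δ (8 / κ) hδ
  have hM : 1 ≤ M := (P.lo 0 ⟨le_rfl, zero_le_one⟩).trans (P.hi 0 ⟨le_rfl, zero_le_one⟩)
  set R : ℝ := 4 * M / κ with hR
  have hR0 : 0 < R := by positivity
  set q₀ : ℝ := max (max (2 * R / u₁) (8 * π * M * R ^ 4 / κ)) (4 / (u₁ * κ)) with hq₀
  have hq₀0 : 0 < q₀ := lt_max_of_lt_right (by positivity)
  refine ⟨G, T, M, q₀, fres R, P.dG, hG0, fun x hx y hy => ?_, fun x hx => ?_, ?_, hq₀0,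
    fun s => ?_⟩
  · exact abs_sub_le_of_deriv hx hy (fun t _ => P.dT t) (fun t ht => by
      rw [abs_of_nonneg (by linarith [P.lo t ht])]; exact P.hi t ht)
  · have h1 := P.grow le_rfl hx.1 hx.2
    have h2 := P.grow hx.1 hx.2 le_rfl
    constructor <;> linarith [hx.1, hx.2]
  · refine (norm_fres_le hR0).trans ?_
    have : 2 / R ≤ κ := by
      rw [hR, div_le_iff₀ (by positivity)]
      have : κ * (4 * M / κ) = 4 * M := by field_simp
      linarith
    linarith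
  have hend : ∀ q, q₀ ≤ q → 4 / (8 / κ) + 2 / (u₁ * q) ≤ κ := by
    intro q hq
    have h1 : 4 / (u₁ * κ) ≤ q := (le_max_right _ _).trans hq
    have hq0 : 0 < q := hq₀0.trans_le hq
    have h2 : 2 / (u₁ * q) ≤ κ / 2 := by
      rw [div_le_iff₀ (by positivity)] at h1 ⊢
      linarith
    have h3 : 4 / (8 / κ) = κ / 2 := by field_simp; norm_num
    linarith
  by_cases hs1 : s ≤ T (u₁ / 2)
  · refine ⟨0, 0, le_rfl, zero_le_one, fun h => absurd rfl h, fun q hq => ?_⟩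
    simp only [Complex.ofReal_zero, zero_mul, sub_zero]
    exact (P.left (hq₀0.trans_le hq) (by positivity) hu0 hu1 hBl hs1).trans (hend q hq)
  by_cases hs2 : T (1 - u₁ / 2) ≤ s
  · refine ⟨0, 0, le_rfl, zero_le_one, fun h => absurd rfl h, fun q hq => ?_⟩
    simp only [Complex.ofReal_zero, zero_mul, sub_zero]
    exact (P.right (hq₀0.trans_le hq) (by positivity) hu0 hu1 hBr hs2).trans (hend q hq)
  push Not at hs1 hs2
  have cT : Continuous T := continuous_iff_continuousAt.mpr fun x => (P.dT x).continuousAt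
  obtain ⟨u, hu, rfl⟩ := intermediate_value_Icc (a := u₁ / 2) (b := 1 - u₁ / 2) (by linarith)
    cT.continuousOn ⟨hs1.le, hs2.le⟩
  have hu' : u ∈ Icc (0 : ℝ) 1 := ⟨by linarith [hu.1], by linarith [hu.2]⟩
  have hw1 : 1 ≤ √(T₁ u) := Real.one_le_sqrt.mpr (P.lo u hu')
  refine ⟨1 / √(T₁ u), G u - T u * u, by positivity, ?_, fun _ => ?_, fun q hq => ?_⟩
  · rw [div_le_one (by linarith)]; exact hw1
  · have h1 := P.grow le_rfl hu'.1 hu'.2
    have h2 := P.grow hu'.1 hu'.2 le_rfl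
    constructor <;> linarith [hu.1, hu.2]
  · have hq0 : 0 < q := hq₀0.trans_le hq
    have h1 : 2 * R / u₁ ≤ q := ((le_max_left _ _).trans (le_max_left _ _)).trans hq
    have h2 : 8 * π * M * R ^ 4 / κ ≤ q := ((le_max_right _ _).trans (le_max_left _ _)).trans hq
    have h3 : R / q ≤ u₁ / 2 := by
      rw [div_le_iff₀ hu0] at h1
      rw [div_le_iff₀ hq0]; linarith
    refine (P.mid hq0 hR0 (by linarith [hu.1]) (by linarith [hu.2])).trans ?_
    have h4 : 2 * M / R = κ / 2 := by rw [hR]; field_simp; norm_num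
    have h5 : 4 * π * M * R ^ 4 / q ≤ κ / 2 := by
      rw [div_le_iff₀ hκ] at h2
      rw [div_le_iff₀ hq0]; linarith
    linarith

end Crest.Agent.R75
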